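import Crest.Agent.H3.IMFld

set_option autoImplicit false
set_option linter.unusedSectionVars false
set_option linter.unusedVariables false
set_option linter.unusedSimpArgs false

/-! Row 326: modular addition into a digit field (`AddStmt`). -/

namespace Crest.Agent.H8.IM
open Crest.Agent.H3.Ptime Crest.Agent.H9.IM

/-- rotation of a field by an amount depending on the higher part only -/
def rot (lo L m : ℕ) (g : ℕ → ℕ) (i : ℕ) : ℕ :=
  if fld lo L i < m then setf lo L i ((fld lo L i + g (i / (lo * L))) % m) else i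

theorem rot_div {lo L m : ℕ} (g : ℕ → ℕ) (hlo : 0 < lo) (hm : 0 < m) (hL : m ≤ L) (i : ℕ) :
    rot lo L m g i / (lo * L) = i / (lo * L) := by
  unfold rot; split_ifs
  · exact setf_div hlo (lt_of_lt_of_le (Nat.mod_lt _ hm) hL)
  · rfl

theorem rot_lt {lo L m N : ℕ} (g : ℕ → ℕ) (hlo : 0 < lo) (hm : 0 < m) (hL : m ≤ L)
    (hN : lo * L ∣ N) {i : ℕ} (hi : i < N) : rot lo L m g i < N := by
  unfold rot; split_ifs
  · exact setf_lt hlo (lt_of_lt_of_le (Nat.mod_lt _ hm) hL) hN hi
  · exact hi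

def rcl (lo L m : ℕ) (g : ℕ → ℕ) (i : ℕ) : ℕ :=
  if fld lo L i < m then (if fld lo L i + g (i / (lo * L)) % m < m then 1 else 2) else 0

theorem rot_mono {lo L m : ℕ} (g : ℕ → ℕ) (hlo : 0 < lo) (hm : 0 < m) (hL : m ≤ L) {i j : ℕ}
    (hij : i ≤ j) (hc : rcl lo L m g i = rcl lo L m g j) : rot lo L m g i ≤ rot lo L m g j := by
  rcases (Nat.div_le_div_right (c := lo * L) hij).lt_or_eq with h | h
  · rw [← rot_div g hlo hm hL i, ← rot_div g hlo hm hL j] at h
    exact (Nat.lt_of_div_lt_div h).le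
  · unfold rcl at hc
    unfold rot
    rw [← h] at hc ⊢
    generalize g (i / (lo * L)) = y at hc ⊢
    have hy := Nat.mod_lt y hm
    have e1 : ∀ x, x < m → x + y % m < m → (x + y) % m = x + y % m := fun x h1 h2 => by
      rw [← Nat.add_mod_mod, Nat.mod_eq_of_lt h2]
    have e2 : ∀ x, x < m → ¬ x + y % m < m → (x + y) % m + m = x + y % m := fun x h1 h2 => by
      rw [← Nat.add_mod_mod, Nat.mod_eq_sub_mod (by omega), Nat.mod_eq_of_lt (by omega)]; omega
    have a1 := setf_add lo L i ((fld lo L i + y) % m)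
    have a2 := setf_add lo L j ((fld lo L j + y) % m)
    by_cases h1 : fld lo L i < m <;> by_cases h2 : fld lo L j < m <;>
      simp only [h1, h2, if_true, if_false] at hc ⊢
    · by_cases h3 : fld lo L i + y % m < m <;> by_cases h4 : fld lo L j + y % m < m <;>
        simp only [h3, h4, if_true, if_false] at hc
      · rw [e1 _ h1 h3] at a1 ⊢
        rw [e1 _ h2 h4] at a2 ⊢
        rw [add_mul] at a1 a2; omega
      · omega
      · omega
      · have b1 := congrArg (· * lo) (e2 _ h1 h3)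
        have b2 := congrArg (· * lo) (e2 _ h2 h4)
        simp only [add_mul] at b1 b2; omega
    · split_ifs at hc
    · split_ifs at hc
    · exact hij

theorem pc_rot (hA : ArrStmt) {Q : Type} [Enc Q] (lo L m : Q → ℕ) (g : Q → ℕ → ℕ) (h1 : PT lo)
    (h2 : PT L) (h3 : PT m) (h4 : PT (fun x : Q × ℕ => g x.1 x.2)) :
    PC (fun q i => rot (lo q) (L q) (m q) (g q) i)
      (fun q N => 0 < lo q ∧ 0 < m q ∧ m q ≤ L q ∧ lo q * L q ∣ N) (fun _ => 0) := by
  have hg : PT (fun x : Q × ℕ => g x.1 (x.2 / (lo x.1 * L x.1))) :=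
    h4.comp (f := fun x : Q × ℕ => (x.1, x.2 / (lo x.1 * L x.1))) (by fun_prop)
  have p1 : PT (fun x : Q × ℕ => rot (lo x.1) (L x.1) (m x.1) (g x.1) x.2) := by
    unfold rot; fun_prop
  have p2 : PT (fun x : Q × ℕ => rcl (lo x.1) (L x.1) (m x.1) (g x.1) x.2) := by
    unfold rcl; fun_prop
  refine hA.pmono (hA.ppull (fun q i => rot (lo q) (L q) (m q) (g q) i)
    (fun q i => rcl (lo q) (L q) (m q) (g q) i) 3 p1 p2) id _ _ _ 0
    (by fun_prop) (fun q N ⟨a1, a2, a3, a4⟩ => ⟨⟨fun i hi => ⟨?_, rot_lt _ a1 a2 a3 a4 hi⟩,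
      fun i j hij _ hc => rot_mono _ a1 a2 a3 hij hc⟩, fun _ _ => rfl, le_rfl, by simp⟩)
  show rcl _ _ _ _ _ < 3
  unfold rcl; split_ifs <;> omega

def swp (x z L i : ℕ) : ℕ := setf z L (setf x L i (fld z L i)) (fld x L i)

theorem swp_setf {x z L : ℕ} (hz : 0 < z) (hx : 0 < x) (hL : 0 < L) (h : z * L ∣ x) (i v : ℕ)
    (hv : v < L) : swp x z L (setf z L (swp x z L i) v) = setf x L i v := by
  unfold swp
  rw [setf_setf hz (fld_lt hL), fld_setf_same hz hv, fld_setf_high hz hv h,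
    fld_setf_same hx (fld_lt hL), ← setf_comm' hz hv h, setf_setf hx (fld_lt hL),
    setf_setf hz hv]
  conv_lhs => rw [← fld_setf_low (lo := x) (L := L) (v := v) h]
  rw [setf_fld]

theorem fld_swp {x z L : ℕ} (hz : 0 < z) (hL : 0 < L) (i : ℕ) :
    fld z L (swp x z L i) = fld x L i := fld_setf_same hz (fld_lt hL)

theorem swp_swp {x z L : ℕ} (hz : 0 < z) (hx : 0 < x) (hL : 0 < L) (h : z * L ∣ x) (i : ℕ) :
    swp x z L (swp x z L i) = i := by
  have := swp_setf hz hx hL h i (fld x L i) (fld_lt hL)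
  rwa [setf_fld, ← fld_swp hz hL, setf_fld] at this

theorem fld_trunc {lo L d : ℕ} (h : d ∣ lo) (i : ℕ) : fld lo L (i / d * d) = fld lo L i := by
  obtain ⟨c, rfl⟩ := h
  rcases Nat.eq_zero_or_pos d with rfl | hd
  · simp [fld]
  unfold fld
  rw [← Nat.div_div_eq_div_mul, ← Nat.div_div_eq_div_mul, Nat.mul_div_cancel _ hd]

theorem swp_trunc {x z L : ℕ} (hz : 0 < z) (hx : 0 < x) (hL : 0 < L) (h : z * L ∣ x) (i : ℕ) :
    swp x z L (swp x z L i / (z * L) * (z * L)) = setf x L (i / z * z) 0 := by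
  have hd : z ∣ x := (dvd_mul_right z L).trans h
  have f0 : fld z L (swp x z L i / (z * L) * (z * L)) = 0 := by
    unfold fld
    rw [mul_comm z L, ← mul_assoc, Nat.mul_div_cancel _ hz, Nat.mul_mod_left]
  have f1 : fld x L (swp x z L i / (z * L) * (z * L)) = fld z L i := by
    rw [fld_trunc h]; unfold swp
    rw [fld_setf_high hz (fld_lt hL) h, fld_setf_same hx (fld_lt hL)]
  have d1 := fld_decomp z L (swp x z L i)
  rw [fld_swp hz hL, mul_comm (z * L)] at d1
  have m1 : swp x z L i % z = i % z := by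
    unfold swp; rw [setf_mod, setf_mod_of_dvd hd]
  have a1 := setf_add x L i (fld z L i)
  have a2 := setf_add z L (setf x L i (fld z L i)) (fld x L i)
  rw [fld_setf_low h] at a2
  have a3 := setf_add x L (i / z * z) 0
  rw [fld_trunc hd] at a3
  have a4 := Nat.mod_add_div' i z
  change swp x z L i + _ = _ at a2
  generalize swp x z L i / (z * L) * (z * L) = j at *
  have a5 := setf_add x L j 0
  have a6 := setf_add z L (setf x L j 0) (fld z L i)
  rw [fld_setf_low h, f0] at a6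
  rw [f1] at a5
  unfold swp at *
  rw [f0, f1]
  rw [mul_comm z] at d1
  omega

theorem pc_id (hA : ArrStmt) {Q : Type} [Enc Q] (P : Q → ℕ → Prop) (X : Q → ℝ) :
    PC (fun _ i => i) P X :=
  hA.pmono (hA.ppull (Q := Q) (fun _ i => i) (fun _ _ => 0) 1 (by fun_prop) (by fun_prop)) id _ _ _ 0
    (by fun_prop) (fun q N _ => ⟨⟨fun i hi => ⟨Nat.zero_lt_one, hi⟩, fun i j h _ _ => h⟩,
      fun _ _ => rfl, le_rfl, by simp⟩)

theorem addStmt (hA : ArrStmt) (hS : SwapStmt) : AddStmt := by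
  intro Q _ loX loZ L m f h1 h2 h3 h4 h5
  set P : Q → ℕ → Prop := fun q N => 0 < loZ q ∧ 0 < m q ∧ m q ≤ L q ∧
    (loZ q = loX q ∨ loZ q * L q ∣ loX q) ∧ loX q * L q ∣ N ∧ 0 < N with hP
  set X : Q → ℝ := fun q => (Nat.log 2 (L q) + 1 : ℝ) ^ th with hX
  have hX0 : ∀ q, 0 ≤ X q := fun q => by simp only [hX]; positivity
  -- conditional swap
  have hsw : PC (fun q i => bif decide (loZ q = loX q) then i else swp (loX q) (loZ q) (L q) i) P X := by
    have s1 : PC (fun q i => swp (loX q) (loZ q) (L q) i)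
        (fun q N => P q N ∧ loZ q ≠ loX q) X :=
      hA.pmono hS (fun q => (loX q, loZ q, L q)) _ _ _ 1 (by fun_prop)
        (fun q N ⟨⟨a1, a2, a3, a4, a5, a6⟩, a7⟩ => ⟨⟨a1, by simp only; omega, a4.resolve_left a7,
          a5, a6⟩, fun _ _ => rfl, hX0 q, by simp only [hX]; linarith⟩)
    refine hA.pmono (hA.pcond (c := fun q => decide (loZ q = loX q)) (by fun_prop)
      (pc_id hA (fun _ _ => True) X) s1) id _ _ _ 1 (by fun_prop)
      (fun q N hq => ⟨⟨fun _ => trivial, fun h => ⟨hq, by simpa using h⟩⟩, fun _ _ => rfl, hX0 q,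
        by simp⟩)
  have hr : PC (fun q i => rot (loZ q) (L q) (m q) (fun h => f q (bif decide (loZ q = loX q) then
      h * (loZ q * L q) else swp (loX q) (loZ q) (L q) (h * (loZ q * L q)))) i) P X := by
    refine hA.pmono (pc_rot hA loZ L m (fun q h => f q (bif decide (loZ q = loX q) then
      h * (loZ q * L q) else swp (loX q) (loZ q) (L q) (h * (loZ q * L q)))) h2 h3 h4 ?_) id _ _ _ 1 (by fun_prop)
      (fun q N ⟨a1, a2, a3, a4, a5, a6⟩ => ⟨⟨a1, a2, a3, ?_⟩, fun _ _ => rfl, le_rfl,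
        by have := hX0 q; linarith⟩)
    · refine h5.comp (f := fun x : Q × ℕ => (x.1, bif decide (loZ x.1 = loX x.1) then
        x.2 * (loZ x.1 * L x.1) else swp (loX x.1) (loZ x.1) (L x.1) (x.2 * (loZ x.1 * L x.1)))) ?_
      unfold swp; fun_prop
    · rcases a4 with a4 | a4
      · simpa [a4] using a5
      · exact (a4.trans (dvd_mul_right _ _)).trans a5
  refine hA.pmono (hA.pcomp hsw (hA.pcomp hr hsw)) id _ _ _ 1 (by fun_prop)
    (fun q N hq => ⟨hq, fun i hi => ?_, hX0 q, by simp⟩)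
  obtain ⟨a1, a2, a3, a4, a5, a6⟩ := hq
  have hL : 0 < L q := by omega
  by_cases e : loZ q = loX q
  · simp only [id, e, decide_true, cond_true, rot]
    rw [e] at a1
    have : setf (loX q) (L q) (i / loX q * loX q) 0 = i / (loX q * L q) * (loX q * L q) := by
      rw [setf_eq, Nat.mul_mod_left, ← Nat.div_div_eq_div_mul, Nat.mul_div_cancel _ a1,
        Nat.div_div_eq_div_mul]; ring
    rw [this]
  · have a7 := a4.resolve_left e
    have hx : 0 < loX q := Nat.pos_of_ne_zero (fun h => by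
      rw [h, zero_mul, zero_dvd_iff] at a5; omega)
    simp only [id, e, decide_false, cond_false, rot]
    rw [fld_swp a1 hL, swp_trunc a1 hx hL a7]
    split_ifs
    · exact swp_setf a1 hx hL a7 _ _ (lt_of_lt_of_le (Nat.mod_lt _ a2) a3)
    · exact swp_swp a1 hx hL a7 i

end Crest.Agent.H8.IM
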