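import Crest.Agent.H8.CrzRes

/-! The core estimate, given exterior data. -/

set_option autoImplicit false
set_option linter.unusedSectionVars false

open MeasureTheory Metric Set Complex Matrix Polynomial
open scoped Real ComplexConjugate ComplexOrder

namespace Crest.Agent.H8.Crz

variable {n m : Type*} [Fintype n] [DecidableEq n] [Fintype m] [DecidableEq m]
variable {K U : Set ℂ} {q : ℂ → ℂ} {r : ℝ} {A : Matrix n n ℂ} {R : ℝ → Matrix n n ℂ}

lemma Ext.mm_nu {a b : Type*} (E : Ext K U q r) (hU : IsOpen U) (hUc : Convex ℝ U)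
    {Φ : ℂ → Matrix a b ℂ} (hΦ : MD U Φ) : mm (fun θ => nu q r θ • Φ (gg q r θ)) = 0 := by
  ext i j
  exact E.mean_nu hU hUc E.gg_mem (hΦ i j)

lemma Ext.mm_poly {b : Type*} (E : Ext K U q r) (hU : IsOpen U) (hUc : Convex ℝ U)
    (hR : Res A q r R) {Φ : ℂ → Matrix n b ℂ} (hΦ : MD U Φ) (s : ℂ[X]) :
    mm (fun θ => s.eval (gg q r θ) • (R θ * Φ (gg q r θ))) =
      aeval A s * mm (fun θ => R θ * Φ (gg q r θ)) := by
  obtain ⟨D, hD, h1, -⟩ := poly_div A s
  have cR := hR.hol.cont E.r0 E.r1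
  have cΦ := hΦ.cont E.cont_gg E.gg_mem
  have cs : Continuous fun θ => s.eval (gg q r θ) := s.continuous.comp E.cont_gg
  have h2 := E.mm_nu hU hUc ((hD.mono (subset_univ U)).mul hΦ)
  rw [← mm_const_mul _ (cR.matrix_mul cΦ), ← sub_eq_zero, ← mm_sub
    (cs.fun_smul (cR.matrix_mul cΦ)) (continuous_const.matrix_mul (cR.matrix_mul cΦ)), ← h2]
  congr 1
  funext θ
  calc _ = (s.eval (gg q r θ) • (1 : Matrix n n ℂ) - aeval A s) * (R θ * Φ (gg q r θ)) := by
        rw [Matrix.sub_mul, Matrix.smul_mul, Matrix.one_mul]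
    _ = _ := by
        rw [h1, Matrix.mul_assoc, ← Matrix.mul_assoc _ (R θ), hR.right, Matrix.smul_mul,
          Matrix.one_mul, Matrix.mul_smul]

lemma Res.commute (hR : Res A q r R) (θ : ℝ) (s : ℂ[X]) : aeval A s * R θ = R θ * aeval A s := by
  have h : A * R θ = R θ * A := by
    have h1 := hR.left θ
    have h2 := hR.right θ
    rw [Matrix.mul_sub, Matrix.mul_smul, Matrix.mul_one] at h1
    rw [Matrix.sub_mul, Matrix.smul_mul, Matrix.one_mul, ← h1] at h2
    exact sub_right_injective h2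
  have hc : Commute A (R θ) := h
  induction s using Polynomial.induction_on' with
  | add p q hp hq => rw [map_add, Matrix.add_mul, Matrix.mul_add, hp, hq]
  | monomial k a =>
    rw [aeval_monomial, Algebra.algebraMap_eq_smul_one, Matrix.smul_mul, Matrix.one_mul,
      Matrix.smul_mul, Matrix.mul_smul, (hc.pow_left k).eq]

/-- value of a polynomial matrix along the curve -/
noncomputable def VV (q : ℂ → ℂ) (r : ℝ) (v : Matrix m m ℂ[X]) (θ : ℝ) : Matrix m m ℂ :=
  Matrix.of fun i j => (v i j).eval (gg q r θ)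

lemma Ext.cont_VV (E : Ext K U q r) (v : Matrix m m ℂ[X]) : Continuous (VV q r v) :=
  continuous_matrix fun i j => (v i j).continuous.comp E.cont_gg

lemma Ext.mean_trace_VV (E : Ext K U q r) (v : Matrix m m ℂ[X]) {Y : ℝ → Matrix m m ℂ}
    (hY : Continuous Y) : ∫ θ, (VV q r v θ * Y θ).trace ∂mu =
      ∑ i, ∑ j, mm (fun θ => (v i j).eval (gg q r θ) • Y θ) j i := by
  have c : ∀ i j, Continuous fun θ => (v i j).eval (gg q r θ) * Y θ j i := fun i j =>
    ((v i j).continuous.comp E.cont_gg).mul (hY.matrix_elem j i)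
  simp only [Matrix.trace, Matrix.diag, Matrix.mul_apply, VV, Matrix.of_apply, mm_apply,
    Matrix.smul_apply, smul_eq_mul]
  rw [integral_finsetSum _ fun i _ => integrable_mu (continuous_finsetSum _ fun j _ => c i j)]
  exact Finset.sum_congr rfl fun i _ => integral_finsetSum _ fun j _ => integrable_mu (c i j)

lemma re_ip_conjT {a b : Type*} [Fintype a] [Fintype b] (X : Matrix a b ℂ) (Y : Matrix b a ℂ) :
    (ip X Yᴴ).re = ((Y * X).trace).re := by
  rw [ip, ← Matrix.conjTranspose_mul, Matrix.trace_conjTranspose]; simp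

lemma mean_hs {a b : Type*} [Fintype a] [Fintype b] {X : ℝ → Matrix a b ℂ} (hX : Continuous X) :
    ∫ θ, hs (X θ) ∂mu = ∑ i, ∑ j, ∫ θ, ‖X θ i j‖ ^ 2 ∂mu := by
  have c : ∀ i j, Continuous fun θ => ‖X θ i j‖ ^ 2 := fun i j => (hX.matrix_elem i j).norm.pow 2
  simp only [hs]
  rw [integral_finsetSum _ fun i _ => integrable_mu (continuous_finsetSum _ fun j _ => c i j)]
  exact Finset.sum_congr rfl fun i _ => integral_finsetSum _ fun j _ => integrable_mu (c i j)

lemma mean_re {f : ℝ → ℂ} (hf : Continuous f) : ∫ θ, (f θ).re ∂mu = (∫ θ, f θ ∂mu).re :=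
  integral_re (𝕜 := ℂ) (integrable_mu hf)

lemma int_re {f : ℝ → ℂ} (hf : Continuous f) : Integrable (fun θ => (f θ).re) mu :=
  integrable_mu (Complex.continuous_re.comp hf)

/-- the quantity `D_z` -/
noncomputable def DD (R : ℝ → Matrix n n ℂ) (z : Matrix n m ℂ) : ℝ :=
  hs (zᴴ * z) + (∫ θ, hs (zᴴ * R θ * z - zᴴ * z) ∂mu) / 2

lemma Res.mh (hR : Res A q r R) (x y : Matrix n m ℂ) : MH r (fun θ => xᴴ * R θ * y) (xᴴ * y) :=
  (((MH.const xᴴ).mul hR.hol).mul (MH.const y)).congr (fun _ => rfl) (by simp)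

lemma Ext.lower (E : Ext K U q r) (hR : Res A q r R) (z : Matrix n m ℂ) (k C : ℝ)
    (H : ∀ v : Matrix m m ℂ[X], 2 * k ^ 2 * (∫ θ, (VV q r v θ * (zᴴ * R θ * z)).trace ∂mu).re ≤
      k ^ 2 * ∫ θ, hs (VV q r v θ) ∂mu + C) : k ^ 2 * DD R z ≤ C := by
  have h0 := E.r0
  have h1 := E.r1
  set a := zᴴ * z with ha
  have haH : aᴴ = a := by simp [ha]
  set e : ℝ → Matrix m m ℂ := fun θ => zᴴ * R θ * z - a with he
  have hmr := hR.mh z z
  have hme : MH r e 0 := (hmr.sub (MH.const a)).congr (fun _ => rfl) (by simp [ha])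
  have ce := hme.cont h0 h1
  have main : ∀ ε : ℝ, 0 < ε → k ^ 2 * DD R z ≤ C + k ^ 2 * (Fintype.card m) ^ 2 * ε ^ 2 := by
    intro ε hε
    choose p hp hpG hpε using fun i j => E.approx (hme i j) hε
    choose v' h' hh' hv' using hpG
    set P : ℝ → Matrix m m ℂ := fun θ => Matrix.of fun i j => p i j θ with hP
    set Hh : ℝ → Matrix m m ℂ := fun θ => Matrix.of fun i j => h' j i θ with hHh
    have hmP : MH r P 0 := hp
    have hmH : MH r Hh 0 := fun i j => hh' j i
    have cP := hmP.cont h0 h1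
    have cH := hmH.cont h0 h1
    set v : Matrix m m ℂ[X] := Matrix.of fun i j => Polynomial.C (a i j) +
      Polynomial.C (1 / 2) * v' j i with hv
    have hV : ∀ θ, VV q r v θ = a + (((1 / 2 : ℝ) : ℂ) • (P θ)ᴴ + ((1 / 2 : ℝ) : ℂ) • Hh θ) := by
      intro θ
      ext i j
      simp [VV, hv, hv', hP, hHh]
      ring
    have hHP : ∫ θ, hs (Hh θ) ∂mu ≤ ∫ θ, hs (P θ) ∂mu := by
      rw [mean_hs cH, mean_hs cP, Finset.sum_comm]
      refine Finset.sum_le_sum fun i _ => Finset.sum_le_sum fun j _ => ?_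
      exact E.contraction (e := p i j) (h := h' i j) (v' i j) 0 (hp i j) (hh' i j)
        fun θ => by rw [hv', zero_add]
    -- norm of V
    have e1 : ∫ θ, hs (VV q r v θ) ∂mu =
        hs a + (∫ θ, hs (P θ) ∂mu) / 4 + (∫ θ, hs (Hh θ) ∂mu) / 4 := by
      have pt : ∀ θ, hs (VV q r v θ) = hs a + hs (P θ) / 4 + hs (Hh θ) / 4 +
          ((1 / 2 : ℂ) * (P θ * Hh θ).trace + (P θ * a).trace + (a * Hh θ).trace).re := by
        intro θ
        rw [hV, hs_add, hs_add, hs_smul_real, hs_smul_real, hs_conjTranspose, ip_add_right,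
          ip_smul_right, ip_smul_right, ip_smul_right, ip_smul_left, Complex.add_re,
          Complex.re_ofReal_mul, Complex.re_ofReal_mul, Complex.re_ofReal_mul, re_ip_conjT,
          Complex.conj_ofReal, Complex.re_ofReal_mul]
        simp only [ip, Matrix.conjTranspose_conjTranspose, haH, Complex.add_re]
        have : ((1 / 2 : ℂ) * (P θ * Hh θ).trace).re = 1 / 2 * ((P θ * Hh θ).trace).re := by
          rw [← Complex.re_ofReal_mul]; norm_num
        rw [this]; ring
      have hz : Hardy r (fun θ => (1 / 2 : ℂ) * (P θ * Hh θ).trace + (P θ * a).trace +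
          (a * Hh θ).trace) 0 :=
        ((((Hardy.const _).mul (hmP.mul hmH).trace).add (hmP.mul (MH.const a)).trace).add
          ((MH.const a).mul hmH).trace).congr (fun _ => rfl) (by simp)
      have c1 := continuous_hs cP
      have c2 := continuous_hs cH
      have c3 := hz.cont h0 h1
      simp only [pt]
      rw [integral_add _ (int_re c3), integral_add, integral_add, hz.mean_re h0 h1, integral_div,
        integral_div]
      · simp
      · exact integrable_const _
      · exact (integrable_mu c1).div_const _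
      · exact (integrable_const _).add ((integrable_mu c1).div_const _)
      · exact (integrable_mu c2).div_const _
      · exact ((integrable_const _).add ((integrable_mu c1).div_const _)).add
          ((integrable_mu c2).div_const _)
    -- pairing
    have e2 : (∫ θ, (VV q r v θ * (zᴴ * R θ * z)).trace ∂mu).re =
        hs a + (∫ θ, (ip (P θ) (e θ)).re ∂mu) / 2 := by
      rw [← mean_re ((E.cont_VV v).matrix_mul (hmr.cont h0 h1)).matrix_trace]
      have pt : ∀ θ, ((VV q r v θ * (zᴴ * R θ * z)).trace).re = (ip (P θ) (e θ)).re / 2 +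
          ((a * (zᴴ * R θ * z)).trace + (1 / 2 : ℂ) * (a * P θ).trace +
            (1 / 2 : ℂ) * (Hh θ * (zᴴ * R θ * z)).trace).re := by
        intro θ
        have e3 : ((P θ)ᴴ * (zᴴ * R θ * z)).trace = ip (P θ) (e θ) + ip (P θ) aᴴ := by
          rw [haH, ← ip_add_right]; simp [he, ip]
        have e4 : ∀ w : ℂ, ((1 / 2 : ℂ) * w).re = 1 / 2 * w.re := fun w => by
          rw [← Complex.re_ofReal_mul]; norm_num
        rw [hV, Matrix.add_mul, Matrix.add_mul, Matrix.smul_mul, Matrix.smul_mul, Matrix.trace_add,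
          Matrix.trace_add, Matrix.trace_smul, Matrix.trace_smul, e3]
        simp only [smul_eq_mul, Complex.add_re, Complex.re_ofReal_mul, re_ip_conjT, e4]
        ring
      have hz : Hardy r (fun θ => (a * (zᴴ * R θ * z)).trace + (1 / 2 : ℂ) * (a * P θ).trace +
            (1 / 2 : ℂ) * (Hh θ * (zᴴ * R θ * z)).trace) (hs a) :=
        (((((MH.const a).mul hmr).trace).add ((Hardy.const _).mul ((MH.const a).mul hmP).trace)).add
          ((Hardy.const _).mul (hmH.mul hmr).trace)).congr (fun _ => rfl)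
          (by rw [← trace_self, haH]; simp [ha])
      have c1 := continuous_ip cP ce
      have c3 := hz.cont h0 h1
      simp only [pt]
      rw [integral_add ((int_re c1).div_const _) (int_re c3), hz.mean_re h0 h1, integral_div]
      simp [add_comm]
    have e3 : (∫ θ, hs (e θ) ∂mu) + (∫ θ, hs (P θ) ∂mu) - 2 * ∫ θ, (ip (P θ) (e θ)).re ∂mu ≤
        (Fintype.card m) ^ 2 * ε ^ 2 := by
      have c1 := continuous_ip cP ce
      have c2 := continuous_hs cP
      have c3 := continuous_hs ce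
      have i1 : Integrable (fun θ => hs (e θ) + hs (P θ)) mu :=
        (integrable_mu c3).add (integrable_mu c2)
      have i2 := (int_re c1).const_mul 2
      rw [← integral_add (integrable_mu c3) (integrable_mu c2), ← integral_const_mul,
        ← integral_sub i1 i2]
      · calc _ ≤ ∫ _, ((Fintype.card m : ℝ) ^ 2 * ε ^ 2) ∂mu := by
              refine integral_mono (i1.sub i2) (integrable_const _) fun θ => ?_
              simp only
              rw [ip_re_symm, ← hs_sub, hs]
              calc _ ≤ ∑ _i : m, ∑ _j : m, ε ^ 2 := by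
                    refine Finset.sum_le_sum fun i _ => Finset.sum_le_sum fun j _ => ?_
                    exact pow_le_pow_left₀ (norm_nonneg _) (hpε i j θ) 2
                _ = _ := by simp; ring
          _ = _ := by simp
    have e4 := H v
    rw [e1, e2] at e4
    have hk : 0 ≤ k ^ 2 := sq_nonneg k
    have e5 : DD R z = hs a + (∫ θ, hs (e θ) ∂mu) / 2 := rfl
    rw [e5]
    have e6 : 0 ≤ k ^ 2 * (Fintype.card m) ^ 2 * ε ^ 2 := by positivity
    nlinarith [mul_le_mul_of_nonneg_left e3 hk, mul_le_mul_of_nonneg_left hHP hk]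
  refine le_of_forall_pos_le_add fun δ hδ => ?_
  set B := k ^ 2 * (Fintype.card m : ℝ) ^ 2 with hB
  have hB0 : 0 ≤ B := by positivity
  have := main (√(δ / (B + 1))) (Real.sqrt_pos.2 (by positivity))
  rw [Real.sq_sqrt (by positivity)] at this
  refine this.trans (add_le_add_right ?_ _)
  rw [← mul_div_assoc, div_le_iff₀ (by positivity)]
  nlinarith

lemma Ext.mean_sym (E : Ext K U q r) (hR : Res A q r R) (z : Matrix n m ℂ) :
    ∫ θ, hs (zᴴ * (R θ + (R θ)ᴴ) * z) ∂mu = 4 * DD R z := by
  have h0 := E.r0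
  have h1 := E.r1
  set a := zᴴ * z with ha
  have haH : aᴴ = a := by simp [ha]
  set e : ℝ → Matrix m m ℂ := fun θ => zᴴ * R θ * z - a with he
  have hmr := hR.mh z z
  have hme : MH r e 0 := (hmr.sub (MH.const a)).congr (fun _ => rfl) (by simp [ha])
  have ce := continuous_hs (hme.cont h0 h1)
  have pt : ∀ θ, hs (zᴴ * (R θ + (R θ)ᴴ) * z) = 2 * hs a + 2 * hs (e θ) +
      (4 * (a * e θ).trace + 2 * ((zᴴ * R θ * z) * (zᴴ * R θ * z)).trace).re := by
    intro θ
    have e1 : zᴴ * (R θ + (R θ)ᴴ) * z = zᴴ * R θ * z + (zᴴ * R θ * z)ᴴ := by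
      simp [Matrix.mul_add, Matrix.add_mul, Matrix.mul_assoc]
    have e2 : hs (zᴴ * R θ * z) = hs a + hs (e θ) + 2 * ((a * e θ).trace).re := by
      have : zᴴ * R θ * z = a + e θ := by simp [he]
      rw [this, hs_add, ip, haH]
    rw [e1, hs_add, hs_conjTranspose, re_ip_conjT, e2]
    simp only [Complex.add_re, Complex.mul_re, Complex.re_ofNat, Complex.im_ofNat]
    ring
  have hz : Hardy r (fun θ => 4 * (a * e θ).trace + 2 * ((zᴴ * R θ * z) * (zᴴ * R θ * z)).trace)
      (2 * hs a) :=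
    (((Hardy.const 4).mul ((MH.const a).mul hme).trace).add
      ((Hardy.const 2).mul (hmr.mul hmr).trace)).congr (fun _ => rfl)
      (by rw [← trace_self, haH]; simp [ha])
  have c3 := hz.cont h0 h1
  simp only [pt]
  have i1 := (integrable_mu ce).const_mul 2
  rw [integral_add _ (int_re c3), integral_add (integrable_const _) i1, hz.mean_re h0 h1,
    integral_const_mul, integral_const_mul]
  · have e5 : DD R z = hs a + (∫ θ, hs (e θ) ∂mu) / 2 := rfl
    rw [e5]
    simp
    ring
  · exact (integrable_const _).add i1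

lemma Ext.upper (E : Ext K U q r) (hR : Res A q r R) (x y : Matrix n m ℂ) :
    ∫ θ, hs (xᴴ * R θ * y) ∂mu ≤ 2 * (DD R x + DD R y) := by
  have h0 := E.r0
  have h1 := E.r1
  have cR := hR.hol.cont h0 h1
  have hz : Hardy r (fun θ => ((yᴴ * R θ * x) * (xᴴ * R θ * y)).trace) (hs (xᴴ * y)) :=
    ((hR.mh y x).mul (hR.mh x y)).trace.congr (fun _ => rfl) (by rw [← trace_self]; simp)
  have c0 := hz.cont h0 h1
  have c1 := continuous_hs ((hR.mh x y).cont h0 h1)
  have c2 : ∀ z : Matrix n m ℂ, Continuous fun θ => hs (zᴴ * (R θ + (R θ)ᴴ) * z) := fun z =>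
    continuous_hs ((continuous_const.matrix_mul (cR.add cR.matrix_conjTranspose)).matrix_mul
      continuous_const)
  have i0 := (int_re c0).const_mul 4
  have i1 := (integrable_mu c1).const_mul 2
  have key : ∫ θ, (2 * hs (xᴴ * R θ * y) + 4 * (((yᴴ * R θ * x) * (xᴴ * R θ * y)).trace).re) ∂mu ≤
      ∫ θ, (hs (xᴴ * (R θ + (R θ)ᴴ) * x) + hs (yᴴ * (R θ + (R θ)ᴴ) * y)) ∂mu := by
    refine integral_mono (i1.add i0) ((integrable_mu (c2 x)).add (integrable_mu (c2 y)))
      fun θ => ?_
    refine le_trans ?_ (hs_cross_psd (hR.psd θ) x y)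
    have e1 : xᴴ * (R θ + (R θ)ᴴ) * y = xᴴ * R θ * y + (yᴴ * R θ * x)ᴴ := by
      simp [Matrix.mul_add, Matrix.add_mul, Matrix.mul_assoc]
    simp only
    rw [e1, hs_add, re_ip_conjT]
    linarith [hs_nonneg (yᴴ * R θ * x)ᴴ]
  rw [integral_add i1 i0,
    integral_add (integrable_mu (c2 x)) (integrable_mu (c2 y)), E.mean_sym hR, E.mean_sym hR,
    integral_const_mul, integral_const_mul, hz.mean_re h0 h1] at key
  simp only [Complex.ofReal_re] at key
  linarith [hs_nonneg (xᴴ * y)]

/-- the operator `L` -/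
noncomputable def LL (E : Ext K U q r) (hR : Res A q r R) {F : ℂ → Matrix m m ℂ} (hF : MD U F) :
    Matrix n m ℂ →ₗ[ℂ] Matrix n m ℂ where
  toFun y := mm fun θ => R θ * (y * F (gg q r θ))
  map_add' y y' := by
    have cR := hR.hol.cont E.r0 E.r1
    have cF := hF.cont E.cont_gg E.gg_mem
    simp only [Matrix.add_mul, Matrix.mul_add]
    exact mm_add (cR.matrix_mul (continuous_const.matrix_mul cF))
      (cR.matrix_mul (continuous_const.matrix_mul cF))
  map_smul' c y := by
    simp only [Matrix.smul_mul, Matrix.mul_smul, RingHom.id_apply]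
    exact mm_smul _ _

lemma trace_single_mul (i j : m) (Z : Matrix m m ℂ) :
    (Matrix.single i j (1 : ℂ) * Z).trace = Z j i := by
  rw [Matrix.trace_single_mul]; simp

lemma Ext.singular (E : Ext K U q r) (hU : IsOpen U) (hUc : Convex ℝ U) (hR : Res A q r R)
    {F : ℂ → Matrix m m ℂ} (hF : MD U F) (hFc : ∀ z ∈ U, Contr (F z)) (k : ℝ)
    (x y : Matrix n m ℂ) (hy : y ≠ 0) (h1 : LL E hR hF y = (k : ℂ) • x)
    (h2 : ∀ z, ip x (LL E hR hF z) = k * ip y z) : k ^ 2 ≤ 4 := by
  have r0 := E.r0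
  have r1 := E.r1
  have cR := hR.hol.cont r0 r1
  have cF := hF.cont E.cont_gg E.gg_mem
  have cρ := (hR.mh x y).cont r0 r1
  have cs : ∀ s : ℂ[X], Continuous fun θ => s.eval (gg q r θ) := fun s =>
    s.continuous.comp E.cont_gg
  -- the common left-hand side
  have lhs : ∀ (z : Matrix n m ℂ) (s : ℂ[X]),
      mm (fun θ => s.eval (gg q r θ) • (zᴴ * R θ * z)) = zᴴ * aeval A s * z := by
    intro z s
    have := E.mm_poly hU hUc hR (MD.const z) s
    rw [mm_mul_const cR, hR.hol.mm_eq r0 r1, Matrix.one_mul] at this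
    rw [Matrix.mul_assoc, ← this, ← mm_const_mul _ ((cs s).fun_smul (cR.matrix_mul continuous_const))]
    simp only [Matrix.mul_smul, Matrix.mul_assoc]
  have fin : ∀ (z : Matrix n m ℂ) (v : Matrix m m ℂ[X]) (Y : ℝ → Matrix m m ℂ), Continuous Y →
      (∀ i j, mm (fun θ => (v i j).eval (gg q r θ) • Y θ) j i =
        k * (zᴴ * aeval A (v i j) * z) j i) →
      (∀ θ, 2 * k * ((VV q r v θ * Y θ).trace).re ≤ k ^ 2 * hs (VV q r v θ) + hs (xᴴ * R θ * y)) →
      2 * k ^ 2 * (∫ θ, (VV q r v θ * (zᴴ * R θ * z)).trace ∂mu).re ≤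
        k ^ 2 * ∫ θ, hs (VV q r v θ) ∂mu + ∫ θ, hs (xᴴ * R θ * y) ∂mu := by
    intro z v Y cY hY hpt
    have cV := E.cont_VV v
    have e1 : ∫ θ, (VV q r v θ * Y θ).trace ∂mu =
        k * ∫ θ, (VV q r v θ * (zᴴ * R θ * z)).trace ∂mu := by
      rw [E.mean_trace_VV v cY, E.mean_trace_VV v ((hR.mh z z).cont r0 r1)]
      simp only [hY, lhs, Finset.mul_sum]
    have c1 := (cV.matrix_mul cY).matrix_trace
    have c2 := continuous_hs cV
    have c3 := continuous_hs cρ
    have e2 : ∫ θ, 2 * k * ((VV q r v θ * Y θ).trace).re ∂mu ≤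
        ∫ θ, (k ^ 2 * hs (VV q r v θ) + hs (xᴴ * R θ * y)) ∂mu :=
      integral_mono ((int_re c1).const_mul _)
        (((integrable_mu c2).const_mul _).add (integrable_mu c3)) hpt
    rw [integral_const_mul, mean_re c1, e1, integral_add ((integrable_mu c2).const_mul _)
      (integrable_mu c3), integral_const_mul, Complex.re_ofReal_mul] at e2
    linarith
  have lx : k ^ 2 * DD R x ≤ ∫ θ, hs (xᴴ * R θ * y) ∂mu := by
    refine E.lower hR x k _ fun v => fin x v (fun θ => xᴴ * R θ * y * F (gg q r θ))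
      (cρ.matrix_mul cF) (fun i j => ?_) fun θ => ?_
    · have := E.mm_poly hU hUc hR ((MD.const y).mul hF) (v i j)
      have h1' : mm (fun θ => R θ * (y * F (gg q r θ))) = (k : ℂ) • x := h1
      rw [h1'] at this
      have e : mm (fun θ => (v i j).eval (gg q r θ) • (xᴴ * R θ * y * F (gg q r θ))) =
          (k : ℂ) • (xᴴ * aeval A (v i j) * x) := by
        rw [Matrix.mul_assoc, ← Matrix.mul_smul, ← Matrix.mul_smul, ← this,
          ← mm_const_mul _ ((cs _).fun_smul (cR.matrix_mul (continuous_const.matrix_mul cF)))]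
        simp only [Matrix.mul_smul, Matrix.mul_assoc]
      rw [e]; rfl
    · rw [← Matrix.mul_assoc, Matrix.trace_mul_comm, ← Matrix.mul_assoc]
      refine (two_mul_re_trace_le k _ _).trans (add_le_add_left ?_ _)
      exact mul_le_mul_of_nonneg_left ((hFc _ (E.gg_mem θ)).hs_mul _) (sq_nonneg k)
  have ly : k ^ 2 * DD R y ≤ ∫ θ, hs (xᴴ * R θ * y) ∂mu := by
    refine E.lower hR y k _ fun v => fin y v (fun θ => F (gg q r θ) * (xᴴ * R θ * y))
      (cF.matrix_mul cρ) (fun i j => ?_) fun θ => ?_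
    · set s := v i j with hsdef
      set Ei := Matrix.single i j (1 : ℂ) with hEi
      have a1 := E.mm_poly hU hUc hR ((MD.const (y * Ei)).mul hF) s
      have a2 := h2 (aeval A s * (y * Ei))
      have a3 : LL E hR hF (aeval A s * (y * Ei)) =
          aeval A s * mm (fun θ => R θ * (y * Ei * F (gg q r θ))) := by
        rw [← mm_const_mul _ (cR.matrix_mul (continuous_const.matrix_mul cF))]
        change mm _ = _
        congr 1
        funext θ
        rw [← Matrix.mul_assoc (aeval A s) (R θ), hR.commute θ s]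
        simp only [Matrix.mul_assoc]
      rw [a3, ← a1, ip, ← mm_const_mul _ ((cs _).fun_smul (cR.matrix_mul
        (continuous_const.matrix_mul cF))), ← mm_trace (continuous_const.matrix_mul
          ((cs _).fun_smul (cR.matrix_mul (continuous_const.matrix_mul cF))))] at a2
      rw [← trace_single_mul i j (yᴴ * aeval A s * y), ← hEi, Matrix.trace_mul_comm]
      rw [ip] at a2
      simp only [Matrix.mul_assoc] at a2 ⊢
      rw [← a2, mm_apply]
      congr 1
      funext θ
      rw [← trace_single_mul i j (s.eval (gg q r θ) • (F (gg q r θ) * (xᴴ * (R θ * y)))), ← hEi,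
        Matrix.mul_smul, Matrix.mul_smul, Matrix.trace_smul,
        Matrix.trace_smul, ← Matrix.mul_assoc Ei, Matrix.trace_mul_comm]
      simp only [Matrix.mul_assoc]
    · refine (two_mul_re_trace_le k _ _).trans (add_le_add_right ?_ _)
      exact (hFc _ (E.gg_mem θ)).hs_mul _
  have up := E.upper hR x y
  have hDn : ∀ z : Matrix n m ℂ, hs (zᴴ * z) ≤ DD R z := fun z => by
    have : 0 ≤ ∫ θ, hs (zᴴ * R θ * z - zᴴ * z) ∂mu := integral_nonneg fun θ => hs_nonneg _
    unfold DD; linarith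
  have hDx : 0 ≤ DD R x := (hs_nonneg _).trans (hDn x)
  have hDy : 0 < DD R y := by
    refine (hs_pos fun h => hy ?_).trans_le (hDn y)
    exact Matrix.conjTranspose_mul_self_eq_zero.1 h
  by_contra hk
  push Not at hk
  nlinarith

/-- the core estimate, given exterior data -/
theorem Ext.core (E : Ext K U q r) (hU : IsOpen U) (hUc : Convex ℝ U) (hA : NR A K)
    {F : ℂ → Matrix m m ℂ} (hF : MD U F) (hFc : ∀ z ∈ U, Contr (F z)) (x y : Matrix n m ℂ)
    {b : ℂ → Matrix n m ℂ} (hb : MD U b) (h : ∀ s ∈ U, y * F s - x = (s • 1 - A) * b s) :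
    hs x ≤ 4 * hs y := by
  obtain ⟨R, hR⟩ := E.exists_res hA
  have cR := hR.hol.cont E.r0 E.r1
  have cF := hF.cont E.cont_gg E.gg_mem
  have key := hs_bound_of_singular (LL E hR hF) 4 (by norm_num)
    (fun k x y _ hy h1 h2 => E.singular hU hUc hR hF hFc k x y hy h1 h2) y
  have e : LL E hR hF y = x := by
    have e1 := E.mm_nu hU hUc hb
    have e2 : mm (fun θ => R θ * x) = x := by
      rw [mm_mul_const cR, hR.hol.mm_eq E.r0 E.r1, Matrix.one_mul]
    change mm (fun θ => R θ * (y * F (gg q r θ))) = x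
    rw [← sub_eq_zero, ← e1]
    conv_lhs => rw [← e2]
    rw [← mm_sub (cR.matrix_mul (continuous_const.matrix_mul cF))
      (cR.matrix_mul continuous_const)]
    congr 1
    funext θ
    rw [← Matrix.mul_sub, h _ (E.gg_mem θ), ← Matrix.mul_assoc, hR.left, Matrix.smul_mul,
      Matrix.one_mul]
  rwa [e] at key

end Crest.Agent.H8.Crz
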