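import Crest.Agent.H8.CrzMain

/-! Duality for the metric problem. -/

set_option autoImplicit false
set_option linter.unusedSectionVars false

open Metric Set Complex Matrix Polynomial
open scoped Real ComplexConjugate ComplexOrder

namespace Crest.Agent.H8.Crz

variable {n : Type*} [Fintype n] [DecidableEq n]

lemma isClosed_herm : IsClosed {M : Matrix n n ℂ | M.IsHermitian} :=
  isClosed_eq (continuous_id.matrix_conjTranspose) continuous_id

lemma isClosed_psd : IsClosed {M : Matrix n n ℂ | M.PosSemidef} := by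
  have : {M : Matrix n n ℂ | M.PosSemidef} = {M : Matrix n n ℂ | M.IsHermitian} ∩
      ⋂ x : n → ℂ, {M : Matrix n n ℂ | 0 ≤ star x ⬝ᵥ (M *ᵥ x)} := by
    ext M
    simp [Matrix.posSemidef_iff_dotProduct_mulVec]
  rw [this]
  refine isClosed_herm.inter (isClosed_iInter fun x => isClosed_le continuous_const ?_)
  simp only [dotProduct, Matrix.mulVec]
  fun_prop

lemma re_ip_psd {P Q : Matrix n n ℂ} (hP : P.PosSemidef) (hQ : Q.PosSemidef) :
    0 ≤ (ip P Q).re := by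
  obtain ⟨B, rfl⟩ := psd_sqrt hP
  obtain ⟨C, rfl⟩ := psd_sqrt hQ
  have : ip (Bᴴ * B) (Cᴴ * C) = hs (B * Cᴴ) := by
    rw [← trace_self, ip]
    simp only [Matrix.conjTranspose_mul, Matrix.conjTranspose_conjTranspose]
    rw [← Matrix.mul_assoc, Matrix.trace_mul_comm]
    simp only [Matrix.mul_assoc]
  rw [this]
  simpa using hs_nonneg _

lemma hs_le_of_psd {P Q : Matrix n n ℂ} (hP : P.PosSemidef) (hQ : Q.PosSemidef) :
    hs P ≤ hs (P + Q) := by
  rw [hs_add]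
  linarith [re_ip_psd hP hQ, hs_nonneg Q]

lemma hs_add_le (X Y : Matrix n n ℂ) : hs (X + Y) ≤ 2 * hs X + 2 * hs Y := by
  rw [hs_add]; linarith [two_re_ip_le X Y]

lemma hs_sub_le (X Y : Matrix n n ℂ) : hs (X - Y) ≤ 2 * hs X + 2 * hs Y := by
  rw [sub_eq_add_neg, ← hs_neg Y]; exact hs_add_le _ _

lemma psd_of_ip {E : Matrix n n ℂ} (hE : E.IsHermitian)
    (h : ∀ Q : Matrix n n ℂ, Q.PosSemidef → 0 ≤ (ip E Q).re) : E.PosSemidef := by
  refine Matrix.PosSemidef.of_dotProduct_mulVec_nonneg hE fun x => ?_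
  have h1 := h _ (Matrix.posSemidef_vecMulVec_self_star x)
  have h2 : ip E (vecMulVec x (star x)) = star x ⬝ᵥ (E *ᵥ x) := by
    rw [ip, hE.eq, Matrix.mul_vecMulVec, Matrix.trace_vecMulVec, dotProduct_comm]
  rw [h2] at h1
  exact Complex.nonneg_iff.2 ⟨h1, (hE.im_star_dotProduct_mulVec_self x).symm⟩

lemma nonneg_of_quad {α β : ℝ} (h : ∀ t : ℝ, 0 < t → t ≤ 1 → 0 ≤ 2 * t * α + t ^ 2 * β) :
    0 ≤ α := by
  by_contra hα
  push Not at hα
  set t := min 1 (-α / (|β| + 1)) with ht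
  have hβ : 0 < |β| + 1 := by positivity
  have ht0 : 0 < t := lt_min one_pos (div_pos (by linarith) hβ)
  have ht1 : t ≤ 1 := min_le_left _ _
  have ht2 : t * (|β| + 1) ≤ -α := (le_div_iff₀ hβ).1 (min_le_right _ _)
  have h1 := h t ht0 ht1
  have h2 : 0 ≤ 2 * α + t * β := by
    by_contra h3
    push Not at h3
    nlinarith
  nlinarith [le_abs_self β]

/-- residuals -/
noncomputable def Phi (T : Matrix n n ℂ)
    (u : Matrix n n ℂ × Matrix n n ℂ × Matrix n n ℂ × Matrix n n ℂ) : ℝ :=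
  hs (u.2.1 - (u.1 - 1)) + hs (u.2.2.1 - (((4 : ℝ) : ℂ) • 1 - u.1)) +
    hs (u.2.2.2 - (u.1 - Tᴴ * u.1 * T))

/-- admissible points -/
def Adm (u : Matrix n n ℂ × Matrix n n ℂ × Matrix n n ℂ × Matrix n n ℂ) : Prop :=
  u.1.IsHermitian ∧ u.2.1.PosSemidef ∧ u.2.2.1.PosSemidef ∧ u.2.2.2.PosSemidef

lemma exists_min (T : Matrix n n ℂ) : ∃ u, Adm u ∧ ∀ u', Adm u' → Phi T u ≤ Phi T u' := by
  have hc : Continuous (Phi T) := by
    unfold Phi
    refine ((continuous_hs ?_).add (continuous_hs ?_)).add (continuous_hs ?_) <;> fun_prop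
  set c := Phi T (0, 0, 0, 0) with hcdef
  set c1 := 2 * (2 * c + 2 * c) + 2 * hs ((((4 : ℝ) : ℂ) • 1 - 1 : Matrix n n ℂ)) with hc1
  set c2 := 2 * (2 * c1 + 2 * hs (1 : Matrix n n ℂ)) + 2 * c with hc2
  obtain ⟨c3, hc3⟩ : ∃ c3, ∀ H : Matrix n n ℂ, hs H ≤ c2 → hs (H - Tᴴ * H * T) ≤ c3 := by
    have := ((isCompact_hs_le (a := n) (b := n) c2).image
      (continuous_hs (X := fun H => H - Tᴴ * H * T) (by fun_prop))).bddAbove
    obtain ⟨c3, h⟩ := this
    exact ⟨c3, fun H hH => h ⟨H, hH, rfl⟩⟩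
  have hK : IsCompact {u | Adm u ∧ Phi T u ≤ c} := by
    refine IsCompact.of_isClosed_subset ((isCompact_hs_le c2).prod ((isCompact_hs_le c1).prod
      ((isCompact_hs_le c1).prod (isCompact_hs_le (2 * c + 2 * c3))))) ?_ ?_
    · refine IsClosed.inter ?_ (isClosed_le hc continuous_const)
      exact (isClosed_herm.preimage continuous_fst).inter
        ((isClosed_psd.preimage (f := fun u : Matrix n n ℂ × Matrix n n ℂ × Matrix n n ℂ ×
          Matrix n n ℂ => u.2.1) (by fun_prop)).inter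
        ((isClosed_psd.preimage (f := fun u : Matrix n n ℂ × Matrix n n ℂ × Matrix n n ℂ ×
          Matrix n n ℂ => u.2.2.1) (by fun_prop)).inter
        (isClosed_psd.preimage (f := fun u : Matrix n n ℂ × Matrix n n ℂ × Matrix n n ℂ ×
          Matrix n n ℂ => u.2.2.2) (by fun_prop))))
    · rintro ⟨H, P1, P2, P3⟩ ⟨⟨-, h1, h2, -⟩, hle⟩
      simp only [Phi] at hle h1 h2
      have a1 := hs_nonneg (P1 - (H - 1))
      have a2 := hs_nonneg (P2 - (((4 : ℝ) : ℂ) • 1 - H))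
      have a3 := hs_nonneg (P3 - (H - Tᴴ * H * T))
      have b0 : hs (P1 + P2) ≤ c1 := by
        have : P1 + P2 = ((P1 - (H - 1)) + (P2 - (((4 : ℝ) : ℂ) • 1 - H))) +
            (((4 : ℝ) : ℂ) • 1 - 1) := by abel
        rw [this]
        refine (hs_add_le _ _).trans ?_
        have := hs_add_le (P1 - (H - 1)) (P2 - (((4 : ℝ) : ℂ) • 1 - H))
        linarith
      have b1 : hs P1 ≤ c1 := (hs_le_of_psd h1 h2).trans b0
      have b2 : hs P2 ≤ c1 := (hs_le_of_psd h2 h1).trans (add_comm P1 P2 ▸ b0)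
      have b3 : hs H ≤ c2 := by
        have : H = (P1 + 1) - (P1 - (H - 1)) := by abel
        rw [this]
        refine (hs_sub_le _ _).trans ?_
        have := hs_add_le P1 1
        linarith
      have b4 : hs P3 ≤ 2 * c + 2 * c3 := by
        have : P3 = (P3 - (H - Tᴴ * H * T)) + (H - Tᴴ * H * T) := by abel
        rw [this]
        refine (hs_add_le _ _).trans ?_
        have := hc3 H b3
        linarith
      exact ⟨b3, b1, b2, b4⟩
  have h0 : Adm ((0, 0, 0, 0) : Matrix n n ℂ × Matrix n n ℂ × Matrix n n ℂ × Matrix n n ℂ) :=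
    ⟨Matrix.isHermitian_zero, PosSemidef.zero, PosSemidef.zero, PosSemidef.zero⟩
  obtain ⟨u, hu, hmin⟩ := hK.exists_isMinOn ⟨(0, 0, 0, 0), h0, le_rfl⟩ hc.continuousOn
  refine ⟨u, hu.1, fun u' hu' => ?_⟩
  by_cases h : Phi T u' ≤ c
  · exact hmin ⟨hu', h⟩
  · exact hu.2.trans (not_le.1 h).le

theorem feasible_of_dual (T : Matrix n n ℂ)
    (hd : ∀ X Y Z : Matrix n n ℂ, X.PosSemidef → Y.PosSemidef → Z.PosSemidef →
      X + Z = Y + T * Z * Tᴴ → X.trace.re ≤ 4 * Y.trace.re) :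
    ∃ H : Matrix n n ℂ, (H - 1).PosSemidef ∧ (((4 : ℝ) : ℂ) • (1 : Matrix n n ℂ) - H).PosSemidef ∧
      (H - Tᴴ * H * T).PosSemidef := by
  obtain ⟨⟨H, P1, P2, P3⟩, ⟨hH, h1, h2, h3⟩, hmin⟩ := exists_min T
  simp only at hH h1 h2 h3
  set X := P1 - (H - 1) with hX
  set Y := P2 - (((4 : ℝ) : ℂ) • 1 - H) with hY
  set Z := P3 - (H - Tᴴ * H * T) with hZ
  clear_value X Y Z
  have hXh : X.IsHermitian := hX ▸ h1.1.sub (hH.sub Matrix.isHermitian_one)
  have hYh : Y.IsHermitian := hY ▸ h2.1.sub (Matrix.IsHermitian.sub (by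
    simp [Matrix.IsHermitian]) hH)
  have hZh : Z.IsHermitian := hZ ▸ h3.1.sub (hH.sub (Matrix.isHermitian_conjTranspose_mul_mul T hH))
  -- variation in a direction
  have var : ∀ G Q1 Q2 Q3 : Matrix n n ℂ,
      (∀ t : ℝ, 0 < t → t ≤ 1 → Adm (H + (t : ℂ) • G, P1 + (t : ℂ) • Q1, P2 + (t : ℂ) • Q2,
        P3 + (t : ℂ) • Q3)) →
      0 ≤ (ip X (Q1 - G)).re + (ip Y (Q2 + G)).re + (ip Z (Q3 - (G - Tᴴ * G * T))).re := by
    intro G Q1 Q2 Q3 hadm
    refine nonneg_of_quad (β := hs (Q1 - G) + hs (Q2 + G) + hs (Q3 - (G - Tᴴ * G * T)))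
      fun t t0 t1 => ?_
    have := hmin _ (hadm t t0 t1)
    simp only [Phi] at this
    have e1 : P1 + (t : ℂ) • Q1 - (H + (t : ℂ) • G - 1) = X + (t : ℂ) • (Q1 - G) := by
      rw [hX, smul_sub]; abel
    have e2 : P2 + (t : ℂ) • Q2 - (((4 : ℝ) : ℂ) • 1 - (H + (t : ℂ) • G)) =
        Y + (t : ℂ) • (Q2 + G) := by
      rw [hY, smul_add]; abel
    have e3 : P3 + (t : ℂ) • Q3 - (H + (t : ℂ) • G - Tᴴ * (H + (t : ℂ) • G) * T) =
        Z + (t : ℂ) • (Q3 - (G - Tᴴ * G * T)) := by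
      rw [hZ, smul_sub, smul_sub, Matrix.mul_add, Matrix.add_mul, Matrix.mul_smul, Matrix.smul_mul]
      abel
    rw [e1, e2, e3, ← hX, ← hY, ← hZ, hs_add, hs_add, hs_add, hs_smul_real, hs_smul_real,
      hs_smul_real, ip_smul_right, ip_smul_right, ip_smul_right, Complex.re_ofReal_mul,
      Complex.re_ofReal_mul, Complex.re_ofReal_mul] at this
    linarith
  have psd_t : ∀ {P Q : Matrix n n ℂ}, P.PosSemidef → Q.PosSemidef → ∀ t : ℝ, 0 < t →
      (P + (t : ℂ) • Q).PosSemidef := fun hP hQ t ht =>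
    hP.add (hQ.smul (Complex.zero_le_real.2 ht.le))
  have herm_t : ∀ {G : Matrix n n ℂ}, G.IsHermitian → ∀ t : ℝ, (H + (t : ℂ) • G).IsHermitian :=
    fun {G} hG t => hH.add (by simp [Matrix.IsHermitian, hG.eq])
  have psd_n : ∀ {P : Matrix n n ℂ}, P.PosSemidef → ∀ t : ℝ, t ≤ 1 →
      (P + (t : ℂ) • (-P)).PosSemidef := fun {P} hP t ht => by
    have : P + (t : ℂ) • (-P) = ((1 - t : ℝ) : ℂ) • P := by
      push_cast; rw [sub_smul, one_smul, smul_neg, sub_eq_add_neg]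
    rw [this]
    exact hP.smul (Complex.zero_le_real.2 (by linarith))
  have z0 : (0 : Matrix n n ℂ).PosSemidef := PosSemidef.zero
  have z1 : (0 : Matrix n n ℂ).IsHermitian := Matrix.isHermitian_zero
  have hXp : X.PosSemidef := psd_of_ip hXh fun Q hQ => by
    have := var 0 Q 0 0 fun t t0 _ =>
      ⟨herm_t z1 t, psd_t h1 hQ t t0, psd_t h2 z0 t t0, psd_t h3 z0 t t0⟩
    simpa [ip] using this
  have hYp : Y.PosSemidef := psd_of_ip hYh fun Q hQ => by
    have := var 0 0 Q 0 fun t t0 _ =>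
      ⟨herm_t z1 t, psd_t h1 z0 t t0, psd_t h2 hQ t t0, psd_t h3 z0 t t0⟩
    simpa [ip] using this
  have hZp : Z.PosSemidef := psd_of_ip hZh fun Q hQ => by
    have := var 0 0 0 Q fun t t0 _ =>
      ⟨herm_t z1 t, psd_t h1 z0 t t0, psd_t h2 z0 t t0, psd_t h3 hQ t t0⟩
    simpa [ip] using this
  have hadj : ∀ G : Matrix n n ℂ, ip Z (Tᴴ * G * T) = ip (T * Z * Tᴴ) G := by
    intro G
    simp only [ip, Matrix.conjTranspose_mul, Matrix.conjTranspose_conjTranspose]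
    rw [← Matrix.mul_assoc, Matrix.trace_mul_comm]
    simp only [Matrix.mul_assoc]
  have heq : X + Z = Y + T * Z * Tᴴ := by
    set G := X + Z - (Y + T * Z * Tᴴ) with hG
    clear_value G
    have hGh : G.IsHermitian := hG ▸ (hXh.add hZh).sub
      (hYh.add (Matrix.isHermitian_mul_mul_conjTranspose T hZh))
    have := var G 0 0 0 fun t t0 _ =>
      ⟨herm_t hGh t, psd_t h1 z0 t t0, psd_t h2 z0 t t0, psd_t h3 z0 t t0⟩
    have e : (ip X (0 - G)).re + (ip Y (0 + G)).re + (ip Z (0 - (G - Tᴴ * G * T))).re = -hs G := by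
      rw [← ip_self_re]
      conv_rhs => rw [hG, ip_sub_left, ip_add_left, ip_add_left, ← hG]
      rw [ip_sub_right, ip_sub_right, ip_sub_right, hadj, zero_add]
      simp [ip]
      ring
    rw [e] at this
    exact sub_eq_zero.1 (hG ▸ hs_eq_zero (le_antisymm (by linarith) (hs_nonneg G)))
  have hfin := var (-H) (-P1) (-P2) (-P3) fun t _ t1 =>
    ⟨herm_t hH.neg t, psd_n h1 t t1, psd_n h2 t t1, psd_n h3 t t1⟩
  have e1 : -P1 - -H = 1 - X := by rw [hX]; abel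
  have e2 : -P2 + -H = -(((4 : ℝ) : ℂ) • 1) - Y := by rw [hY]; abel
  have e3 : -P3 - (-H - Tᴴ * -H * T) = 0 - Z := by
    rw [hZ, Matrix.mul_neg, Matrix.neg_mul]; abel
  rw [e1, e2, e3, ip_sub_right, ip_sub_right, ip_sub_right, Complex.sub_re, Complex.sub_re,
    Complex.sub_re, ip_self_re, ip_self_re, ip_self_re] at hfin
  have e4 : (ip X 1).re = X.trace.re := by rw [ip, hXh.eq, Matrix.mul_one]
  have e5 : (ip Y (-(((4 : ℝ) : ℂ) • 1))).re = -(4 * Y.trace.re) := by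
    rw [ip, hYh.eq]; simp
  have e6 : (ip Z 0).re = 0 := by simp [ip]
  rw [e4, e5, e6] at hfin
  have := hd X Y Z hXp hYp hZp heq
  have a1 := hs_nonneg X
  have a2 := hs_nonneg Y
  have a3 := hs_nonneg Z
  have x0 : X = 0 := hs_eq_zero (by linarith)
  have y0 : Y = 0 := hs_eq_zero (by linarith)
  have z0 : Z = 0 := hs_eq_zero (by linarith)
  rw [hX] at x0
  rw [hY] at y0
  rw [hZ] at z0
  exact ⟨H, sub_eq_zero.1 x0 ▸ h1, sub_eq_zero.1 y0 ▸ h2, sub_eq_zero.1 z0 ▸ h3⟩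

end Crest.Agent.H8.Crz
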