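import Crest.Agent.H8.CrzMean

/-! Exterior data, Faber polynomials and the contraction lemma. -/

set_option autoImplicit false

open MeasureTheory Metric Set Complex Matrix Polynomial
open scoped Real ComplexConjugate

namespace Crest.Agent.H8.Crz

/-- data from the exterior map -/
structure Ext (K U : Set ℂ) (q : ℂ → ℂ) (r : ℝ) : Prop where
  r0 : 0 < r
  r1 : r < 1
  hol : DifferentiableOn ℂ q (ball 0 1)
  q0 : q 0 ≠ 0
  notK : ∀ w ∈ ball (0 : ℂ) 1, w ≠ 0 → q w / w ∉ K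
  inj : InjOn (fun w => q w / w) (ball 0 1 \ {0})
  dne : ∀ w ∈ ball (0 : ℂ) 1, q w - w * deriv q w ≠ 0
  memU : ∀ w : ℂ, ‖w‖ = r → q w / w ∈ U
  posK : ∀ w ∈ ball (0 : ℂ) 1, w ≠ 0 → ∀ a ∈ K,
    0 ≤ (conj ((q w - w * deriv q w) / w) * (q w / w - a)).re
  posG : ∀ w ∈ ball (0 : ℂ) 1, w ≠ 0 → ∀ u : ℂ, ‖u‖ = ‖w‖ →
    0 ≤ (conj ((q w - w * deriv q w) / w) * (q w / w - q u / u)).re

/-- boundary curve -/
noncomputable def gg (q : ℂ → ℂ) (r : ℝ) (θ : ℝ) : ℂ := q (circleMap 0 r θ) / circleMap 0 r θ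

/-- normal vector -/
noncomputable def nu (q : ℂ → ℂ) (r : ℝ) (θ : ℝ) : ℂ :=
  (q (circleMap 0 r θ) - circleMap 0 r θ * deriv q (circleMap 0 r θ)) / circleMap 0 r θ

variable {K U : Set ℂ} {q : ℂ → ℂ} {r : ℝ}

lemma Ext.hol_dq (E : Ext K U q r) :
    DifferentiableOn ℂ (fun w => q w - w * deriv q w) (ball 0 1) :=
  E.hol.sub (differentiableOn_id.mul (E.hol.deriv isOpen_ball))

lemma Ext.cont_gg (E : Ext K U q r) : Continuous (gg q r) :=
  (cont_circ E.r0 E.r1 E.hol).div (continuous_circleMap 0 r) (circ_ne E.r0)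

lemma Ext.cont_nu (E : Ext K U q r) : Continuous (nu q r) :=
  (cont_circ E.r0 E.r1 E.hol_dq).div (continuous_circleMap 0 r) (circ_ne E.r0)

lemma Ext.gg_mem (E : Ext K U q r) (θ : ℝ) : gg q r θ ∈ U := E.memU _ (circ_norm E.r0 θ)

lemma Ext.hasDerivAt_gg (E : Ext K U q r) (θ : ℝ) :
    HasDerivAt (gg q r) (-(I * nu q r θ)) θ := by
  have hc := hasDerivAt_circleMap 0 r θ
  have hw := circ_ne E.r0 θ
  have hq : HasDerivAt q (deriv q (circleMap 0 r θ)) (circleMap 0 r θ) :=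
    (E.hol.differentiableAt (isOpen_ball.mem_nhds (circ_mem_ball E.r0 E.r1 θ))).hasDerivAt
  have h1 : HasDerivAt (fun w => q w / w)
      ((deriv q (circleMap 0 r θ) * circleMap 0 r θ - q (circleMap 0 r θ) * 1) /
        (circleMap 0 r θ) ^ 2) (circleMap 0 r θ) := hq.div (hasDerivAt_id _) hw
  have h2 := h1.scomp θ hc
  refine HasDerivAt.congr_deriv h2 ?_
  simp only [nu, smul_eq_mul]
  field_simp
  ring

/-- Cauchy's theorem along the boundary curve -/
lemma Ext.mean_nu (E : Ext K U q r) {V : Set ℂ} (hV : IsOpen V) (hVc : Convex ℝ V)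
    (hg : ∀ θ, gg q r θ ∈ V) {β : ℂ → ℂ} (hβ : DifferentiableOn ℂ β V) :
    ∫ θ, nu q r θ * β (gg q r θ) ∂mu = 0 := by
  obtain ⟨B, hB⟩ := hVc.exists_forall_hasDerivWithinAt hβ
  have hd : ∀ θ, HasDerivAt (fun θ => I * B (gg q r θ)) (nu q r θ * β (gg q r θ)) θ := by
    intro θ
    have h1 : HasDerivAt B (β (gg q r θ)) (gg q r θ) :=
      (hB _ (hg θ)).hasDerivAt (hV.mem_nhds (hg θ))
    have h2 := (h1.scomp θ (E.hasDerivAt_gg θ)).const_mul I
    refine HasDerivAt.congr_deriv h2 ?_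
    simp only [smul_eq_mul]
    have : I * I = -1 := I_mul_I
    linear_combination (-(nu q r θ * β (gg q r θ))) * this
  have hc : Continuous fun θ => nu q r θ * β (gg q r θ) :=
    E.cont_nu.mul (hβ.continuousOn.comp_continuous E.cont_gg hg)
  rw [integral_mu, intervalIntegral.integral_eq_sub_of_hasDerivAt (fun θ _ => hd θ)
    (hc.intervalIntegrable _ _)]
  have : gg q r (2 * π) = gg q r 0 := by
    have := periodic_circleMap 0 r 0
    rw [zero_add] at this
    simp only [gg, this]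
  rw [this, sub_self, smul_zero]

/-- Faber polynomials -/
lemma Ext.faber (E : Ext K U q r) (k : ℕ) : ∀ e : ℂ → ℂ, DifferentiableOn ℂ e (ball 0 1) →
    ∃ (v : ℂ[X]) (h : ℂ → ℂ), DifferentiableOn ℂ h (ball 0 1) ∧ h 0 = 0 ∧
      ∀ w : ℂ, w ≠ 0 → v.eval (q w / w) = e w / w ^ k + h w := by
  induction k with
  | zero =>
    intro e he
    refine ⟨C (e 0), fun w => e 0 - e w, (differentiableOn_const _).sub he, by simp, ?_⟩
    intro w _; simp
  | succ k ih =>
    intro e he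
    set c : ℂ := e 0 / q 0 ^ (k + 1) with hc
    have h1 : DifferentiableOn ℂ (fun w => e w - c * q w ^ (k + 1)) (ball 0 1) :=
      he.sub ((E.hol.pow _).const_mul _)
    have h2 := (Complex.differentiableOn_dslope (c := 0)
      (isOpen_ball.mem_nhds (mem_ball_self one_pos))).2 h1
    obtain ⟨v, h, hh, hh0, hv⟩ := ih _ h2
    refine ⟨C c * X ^ (k + 1) + v, h, hh, hh0, fun w hw => ?_⟩
    have h0 : e 0 - c * q 0 ^ (k + 1) = 0 := by
      rw [hc, div_mul_cancel₀ _ (pow_ne_zero _ E.q0), sub_self]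
    rw [eval_add, hv w hw, dslope_of_ne _ hw, slope_def_field, h0]
    simp only [eval_mul, eval_C, eval_pow, eval_X, sub_zero, div_pow]
    field_simp
    ring

/-- functions whose conjugate is, up to a holomorphic part, a polynomial in the curve -/
def Good (q : ℂ → ℂ) (r : ℝ) (p : ℝ → ℂ) : Prop :=
  ∃ (v : ℂ[X]) (h : ℝ → ℂ), Hardy r h 0 ∧ ∀ θ, v.eval (gg q r θ) = conj (p θ) + h θ

lemma Good.add {p p' : ℝ → ℂ} (h : Good q r p) (h' : Good q r p') :
    Good q r fun θ => p θ + p' θ := by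
  obtain ⟨v, h, hh, hv⟩ := h
  obtain ⟨v', h', hh', hv'⟩ := h'
  refine ⟨v + v', fun θ => h θ + h' θ, (hh.add hh').congr (fun _ => rfl) (by simp), fun θ => ?_⟩
  rw [eval_add, hv, hv', map_add]; ring

lemma Good.const (c : ℂ) : Good q r fun _ => c :=
  ⟨C (conj c), fun _ => 0, Hardy.const 0, fun θ => by simp⟩

lemma Good.sum {ι : Type*} (s : Finset ι) {f : ι → ℝ → ℂ} (h : ∀ i ∈ s, Good q r (f i)) :
    Good q r fun θ => ∑ i ∈ s, f i θ := by
  classical
  induction s using Finset.induction_on with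
  | empty => simpa using Good.const 0
  | insert a s ha ih =>
    simp only [Finset.sum_insert ha]
    exact (h a (Finset.mem_insert_self _ _)).add
      (ih fun i hi => h i (Finset.mem_insert_of_mem hi))

lemma conj_circ (h0 : 0 < r) (θ : ℝ) :
    conj (circleMap 0 r θ) = (r : ℂ) ^ 2 / circleMap 0 r θ := by
  rw [eq_div_iff (circ_ne h0 θ), Complex.conj_mul', circ_norm h0]

lemma Ext.good_pow (E : Ext K U q r) (k : ℕ) (c : ℂ) :
    Good q r fun θ => circleMap 0 r θ ^ k * c := by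
  obtain ⟨v, h, hh, hh0, hv⟩ := E.faber k (fun _ => ((r : ℂ) ^ 2) ^ k * conj c)
    (differentiableOn_const _)
  refine ⟨v, fun θ => h (circleMap 0 r θ), ⟨h, hh, hh0, fun _ => rfl⟩, fun θ => ?_⟩
  rw [gg, hv _ (circ_ne E.r0 θ), map_mul, map_pow, conj_circ E.r0, div_pow]
  ring

/-- polynomial approximation on the circle -/
lemma Ext.approx (E : Ext K U q r) {e : ℝ → ℂ} (he : Hardy r e 0) {ε : ℝ} (hε : 0 < ε) :
    ∃ p : ℝ → ℂ, Hardy r p 0 ∧ Good q r p ∧ ∀ θ, ‖e θ - p θ‖ ≤ ε := by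
  obtain ⟨F, hF, hF0, hf⟩ := he
  have hr0 := E.r0
  have hr1 := E.r1
  obtain ⟨R, hR⟩ : ∃ R : NNReal, (R : ℝ) = (r + 2) / 3 := ⟨⟨(r + 2) / 3, by positivity⟩, rfl⟩
  obtain ⟨R', hR'⟩ : ∃ R : NNReal, (R : ℝ) = (r + 1) / 2 := ⟨⟨(r + 1) / 2, by positivity⟩, rfl⟩
  have hRpos : 0 < R := by
    rw [← NNReal.coe_pos]; simp only [hR]; positivity
  have hd : DifferentiableOn ℂ F (closedBall 0 R) :=
    hF.mono (closedBall_subset_ball (by simp only [hR]; linarith))
  have hp := hd.hasFPowerSeriesOnBall hRpos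
  have hlt : (R' : ENNReal) < R := by
    rw [ENNReal.coe_lt_coe, ← NNReal.coe_lt_coe]; simp only [hR, hR']; linarith
  have hu := hp.tendstoUniformlyOn hlt
  rw [Metric.tendstoUniformlyOn_iff] at hu
  obtain ⟨N, hN⟩ := (hu (ε / 2) (by positivity)).exists
  set P := cauchyPowerSeries F 0 R with hP
  have hPs : ∀ y : ℂ, P.partialSum N y = ∑ k ∈ Finset.range N, y ^ k * P.coeff k := by
    intro y
    simp [FormalMultilinearSeries.partialSum]
  refine ⟨fun θ => P.partialSum N (circleMap 0 r θ) + -P.partialSum N 0, ?_, ?_, fun θ => ?_⟩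
  · refine ⟨fun y => P.partialSum N y + -P.partialSum N 0, ?_, by simp, fun _ => rfl⟩
    simp only [hPs]
    fun_prop
  · refine Good.add ?_ (Good.const _)
    simp only [hPs]
    exact Good.sum _ fun k _ => E.good_pow k _
  · have h1 := hN (circleMap 0 r θ) (by
      simp only [mem_ball_zero_iff, circ_norm hr0, hR']; linarith)
    have h2 := hN 0 (by simp only [mem_ball_zero_iff, norm_zero, hR']; linarith)
    simp only [zero_add, hF0, dist_eq_norm, zero_sub, norm_neg] at h1 h2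
    rw [hf]
    calc _ = ‖(F (circleMap 0 r θ) - P.partialSum N (circleMap 0 r θ)) + P.partialSum N 0‖ := by
          congr 1; ring
      _ ≤ _ := norm_add_le _ _
      _ ≤ ε := by linarith

end Crest.Agent.H8.Crz
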