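import Crest.Agent.H8.CrzMetric

/-! Strict feasibility and the optimal metric. -/

set_option autoImplicit false
set_option linter.unusedSectionVars false

open Metric Set Complex Matrix Polynomial Filter
open scoped Real ComplexConjugate ComplexOrder Topology
open Crest.AnalysisR.NumRange

namespace Crest.Agent.H8.Crz

section
variable {n : Type*} [Fintype n] [DecidableEq n]

open scoped Matrix.Norms.L2Operator in
lemma exists_pow_contr [Nonempty n] (T : Matrix n n ℂ) (h : ∀ z ∈ spectrum ℂ T, ‖z‖ < 1) :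
    ∃ N : ℕ, (1 - (T ^ (N + 1))ᴴ * T ^ (N + 1)).PosDef := by
  have h1 : spectralRadius ℂ T < (1 : NNReal) :=
    spectrum.spectralRadius_lt_of_forall_lt T fun z hz => by
      rw [← NNReal.coe_lt_coe]; simpa using h z hz
  have h2 := (spectrum.pow_norm_pow_one_div_tendsto_nhds_spectralRadius T).eventually
    (gt_mem_nhds h1)
  obtain ⟨N, hN⟩ := eventually_atTop.1 h2
  have h3 := hN (N + 1) (by omega)
  have h4 : ‖T ^ (N + 1)‖ < 1 := by
    by_contra hc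
    push Not at hc
    have : (1 : ℝ) ≤ ‖T ^ (N + 1)‖ ^ (1 / ((N + 1 : ℕ) : ℝ)) :=
      Real.one_le_rpow hc (by positivity)
    rw [ENNReal.coe_one, ENNReal.ofReal_lt_one] at h3
    linarith
  refine ⟨N, Matrix.PosDef.of_dotProduct_mulVec_pos
    (Matrix.isHermitian_one.sub (Matrix.isHermitian_conjTranspose_mul_self _)) fun x hx => ?_⟩
  generalize T ^ (N + 1) = S at h4
  have h5 := Matrix.l2_opNorm_mulVec S (WithLp.toLp 2 x)
  have h6 := pow_le_pow_left₀ (norm_nonneg _) h5 2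
  rw [mul_pow, EuclideanSpace.norm_sq_eq, EuclideanSpace.norm_sq_eq] at h6
  have h7 : 0 < ∑ i, ‖x i‖ ^ 2 := by
    obtain ⟨i, hi⟩ := Function.ne_iff.1 hx
    exact Finset.sum_pos' (fun _ _ => by positivity)
      ⟨i, Finset.mem_univ _, by have := norm_pos_iff.2 hi; positivity⟩
  have h8 : ∑ i, ‖(S *ᵥ x) i‖ ^ 2 ≤ ‖S‖ ^ 2 * ∑ i, ‖x i‖ ^ 2 := h6
  rw [Matrix.sub_mulVec, Matrix.one_mulVec, dotProduct_sub, ← Matrix.mulVec_mulVec,
    Matrix.dotProduct_mulVec (star x) Sᴴ, ← Matrix.star_mulVec, star_dot_self, star_dot_self,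
    ← Complex.ofReal_sub]
  refine Complex.zero_lt_real.2 ?_
  have h9 : ‖S‖ ^ 2 < 1 := by nlinarith [norm_nonneg S]
  nlinarith

lemma exists_upper {H : Matrix n n ℂ} (hH : H.IsHermitian) :
    ∃ τ : ℝ, ((τ : ℂ) • (1 : Matrix n n ℂ) - H).PosDef := by
  obtain ⟨c, hc⟩ := (isCompact_WW H).isBounded.subset_ball 0
  refine ⟨c, Matrix.PosDef.of_dotProduct_mulVec_pos
    (Matrix.IsHermitian.sub (by simp [Matrix.IsHermitian]) hH) fun x hx => ?_⟩
  obtain ⟨a, ha, t, ht, e1, e2⟩ := (nr_WW H).exists_eq hx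
  have h1 := mem_ball_zero_iff.1 (hc ha)
  have h2 := hH.im_star_dotProduct_mulVec_self x
  rw [e2] at h2
  have h3 : a.im = 0 := by
    have : t * a.im = 0 := by simpa using h2
    exact (mul_eq_zero.1 this).resolve_left ht.ne'
  rw [Matrix.sub_mulVec, Matrix.smul_mulVec, Matrix.one_mulVec, dotProduct_sub, dotProduct_smul,
    e1, e2, smul_eq_mul]
  have h4 : a = (a.re : ℂ) := Complex.ext (by simp) (by simpa using h3)
  have h5 : a.re < c := (Complex.re_le_norm a).trans_lt h1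
  rw [h4, ← Complex.ofReal_mul, ← Complex.ofReal_mul, ← Complex.ofReal_sub]
  exact Complex.zero_lt_real.2 (by nlinarith)

lemma strict_feasible [Nonempty n] (T : Matrix n n ℂ) (h : ∀ z ∈ spectrum ℂ T, ‖z‖ < 1) :
    ∃ (H : Matrix n n ℂ) (τ : ℝ), (H - 1).PosDef ∧ ((τ : ℂ) • (1 : Matrix n n ℂ) - H).PosDef ∧
      (H - Tᴴ * H * T).PosDef := by
  obtain ⟨N, hN⟩ := exists_pow_contr T h
  set S := ∑ k ∈ Finset.range (N + 1), (T ^ k)ᴴ * T ^ k with hS
  have hS' : S = 1 + ∑ k ∈ Finset.range N, (T ^ (k + 1))ᴴ * T ^ (k + 1) := by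
    rw [hS, Finset.sum_range_succ', add_comm]; simp
  have hP : (∑ k ∈ Finset.range N, (T ^ (k + 1))ᴴ * T ^ (k + 1)).PosSemidef :=
    Matrix.posSemidef_sum _ fun k _ => Matrix.posSemidef_conjTranspose_mul_self _
  have h1 : (S + S - 1).PosDef := by
    have : S + S - 1 = 1 + (∑ k ∈ Finset.range N, (T ^ (k + 1))ᴴ * T ^ (k + 1) +
        ∑ k ∈ Finset.range N, (T ^ (k + 1))ᴴ * T ^ (k + 1)) := by rw [hS']; abel
    rw [this]
    exact Matrix.PosDef.one.add_posSemidef (hP.add hP)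
  have hH : (S + S).IsHermitian := by
    have := h1.1.add Matrix.isHermitian_one
    rwa [sub_add_cancel] at this
  obtain ⟨τ, hτ⟩ := exists_upper hH
  refine ⟨S + S, τ, h1, hτ, ?_⟩
  have e1 : Tᴴ * S * T = ∑ k ∈ Finset.range N, (T ^ (k + 1))ᴴ * T ^ (k + 1) +
      (T ^ (N + 1))ᴴ * T ^ (N + 1) := by
    rw [← Finset.sum_range_succ (fun k => (T ^ (k + 1))ᴴ * T ^ (k + 1)), hS, Matrix.mul_sum,
      Matrix.sum_mul]
    refine Finset.sum_congr rfl fun k _ => ?_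
    rw [pow_succ, Matrix.conjTranspose_mul]
    simp only [Matrix.mul_assoc]
  have e2 : S + S - Tᴴ * (S + S) * T = (1 - (T ^ (N + 1))ᴴ * T ^ (N + 1)) +
      (1 - (T ^ (N + 1))ᴴ * T ^ (N + 1)) := by
    rw [Matrix.mul_add, Matrix.add_mul, e1, hS']; abel
  rw [e2]
  exact hN.add hN

end

lemma one_le_of_feasible {n : ℕ} (hn : 1 ≤ n) {T H : Matrix (Fin n) (Fin n) ℂ} {τ : ℝ}
    (h : MetricFeasible T H τ) : 1 ≤ τ := by
  have h1 := (h.1.add h.2.1).diag_nonneg (i := ⟨0, hn⟩)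
  have : (H - 1 + ((τ : ℂ) • 1 - H)) ⟨0, hn⟩ ⟨0, hn⟩ = ((τ - 1 : ℝ) : ℂ) := by
    simp
  rw [this] at h1
  have := Complex.zero_le_real.1 h1
  linarith

lemma exists_optimal {n : ℕ} (hn : 1 ≤ n) (T : Matrix (Fin n) (Fin n) ℂ)
    (h : ∃ H, MetricFeasible T H 4) : ∃ (H : Matrix (Fin n) (Fin n) ℂ) (κ : ℝ),
      IsOptimalMetric T H κ ∧ 1 ≤ κ ∧ κ ≤ 4 := by
  have hK : IsCompact {u : Matrix (Fin n) (Fin n) ℂ × ℝ | MetricFeasible T u.1 u.2 ∧ u.2 ≤ 4} := by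
    refine IsCompact.of_isClosed_subset ((isCompact_hs_le
      (hs (((4 : ℝ) : ℂ) • (1 : Matrix (Fin n) (Fin n) ℂ)))).prod (isCompact_Icc (a := 1) (b := 4)))
      ?_ ?_
    · refine IsClosed.inter ?_ (isClosed_le continuous_snd continuous_const)
      exact (isClosed_psd.preimage (f := fun u : Matrix (Fin n) (Fin n) ℂ × ℝ => u.1 - 1)
        (by fun_prop)).inter
        ((isClosed_psd.preimage (f := fun u : Matrix (Fin n) (Fin n) ℂ × ℝ =>
          (u.2 : ℂ) • (1 : Matrix (Fin n) (Fin n) ℂ) - u.1) (by fun_prop)).inter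
        (isClosed_psd.preimage (f := fun u : Matrix (Fin n) (Fin n) ℂ × ℝ =>
          u.1 - Tᴴ * u.1 * T) (by fun_prop)))
    · rintro ⟨H, τ⟩ ⟨hf, hτ⟩
      refine ⟨?_, one_le_of_feasible hn hf, hτ⟩
      have a1 : H.PosSemidef := by
        have := hf.1.add Matrix.PosSemidef.one
        rwa [sub_add_cancel] at this
      have a2 : (((4 : ℝ) : ℂ) • (1 : Matrix (Fin n) (Fin n) ℂ) - H).PosSemidef := by
        have := hf.2.1.add (Matrix.PosSemidef.one.smul (a := ((4 - τ : ℝ) : ℂ))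
          (Complex.zero_le_real.2 (by simpa using hτ)))
        convert this using 1
        push_cast
        rw [sub_smul]; abel
      have := hs_le_of_psd a1 a2
      rwa [add_sub_cancel] at this
  obtain ⟨H, hH⟩ := h
  obtain ⟨⟨H0, κ⟩, ⟨h1, h2⟩, hmin⟩ := hK.exists_isMinOn ⟨(H, 4), hH, le_rfl⟩
    continuous_snd.continuousOn
  refine ⟨H0, κ, ⟨h1, fun H' τ' h' => ?_⟩, one_le_of_feasible hn h1, h2⟩
  by_cases hτ : τ' ≤ 4
  · exact hmin (a := (H', τ')) ⟨h', hτ⟩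
  · exact le_trans h2 (not_le.1 hτ).le

lemma nr_of_numRange {n : ℕ} {A : Matrix (Fin n) (Fin n) ℂ} {Ω : Set ℂ} (hA : numRange A ⊆ Ω) :
    NR A Ω := by
  intro x hx
  refine hA ⟨WithLp.toLp 2 x, ?_, ?_⟩
  · have : ‖(WithLp.toLp 2 x : EuclideanSpace ℂ (Fin n))‖ ^ 2 = 1 := by
      rw [EuclideanSpace.norm_sq_eq]; exact hx
    exact (pow_eq_one_iff_of_nonneg (norm_nonneg _) two_ne_zero).1 this
  · rw [EuclideanSpace.inner_eq_star_dotProduct, dotProduct_comm]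
    rfl

theorem metric_result
    (n : ℕ) (hn : 1 ≤ n) (A : Matrix (Fin n) (Fin n) ℂ)
    (Ω U : Set ℂ) (hΩ₁ : IsOpen Ω) (hΩ₃ : Convex ℝ Ω)
    (hΩU : closure Ω ⊆ U)
    (f : ℂ → ℂ) (hf₁ : DifferentiableOn ℂ f U)
    (hf₃ : f '' Ω = Metric.ball 0 1)
    (hA : numRange A ⊆ Ω) (p : Polynomial ℂ) (hp : AgreesOnSpectrum A f p) :
    (∃ (H : Matrix (Fin n) (Fin n) ℂ) (τ : ℝ), MetricStrictlyFeasible (Polynomial.aeval A p) H τ) ∧
    ∃ (H : Matrix (Fin n) (Fin n) ℂ) (κsq : ℝ),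
      IsOptimalMetric (Polynomial.aeval A p) H κsq ∧ 1 ≤ κsq ∧ κsq ≤ 4 := by
  have : Nonempty (Fin n) := ⟨⟨0, hn⟩⟩
  have hsp : spectrum ℂ A ⊆ Ω := (Crest.Agent.H4.spectrum_subset_numRange A).trans hA
  have hmap : MapsTo f Ω (ball 0 1) := fun z hz => hf₃ ▸ mem_image_of_mem f hz
  have hfΩ : DifferentiableOn ℂ f Ω := hf₁.mono (subset_closure.trans hΩU)
  refine ⟨strict_feasible _ fun z hz => ?_, exists_optimal hn _ (feasible_of_dual _ ?_)⟩
  · have hne : (spectrum ℂ A).Nonempty := spectrum.nonempty_of_isAlgClosed_of_finiteDimensional ℂ A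
    rw [spectrum.map_polynomial_aeval_of_nonempty A p hne] at hz
    obtain ⟨μ, hμ, rfl⟩ := hz
    simp only
    rw [Crest.Agent.H4.AgreesOnSpectrum.eval_eq hp hn hμ]
    exact mem_ball_zero_iff.1 (hmap (hsp hμ))
  · intro X Y Z hX hY hZ heq
    obtain ⟨x, rfl⟩ := psd_sqrt hX
    obtain ⟨y, rfl⟩ := psd_sqrt hY
    obtain ⟨z, rfl⟩ := psd_sqrt hZ
    obtain ⟨F, b, hF, hb, hFc, hFb⟩ := exists_schur (aeval A p) xᴴ yᴴ zᴴ (by simpa using heq)
    obtain ⟨h, hh, hfh⟩ := Crest.Agent.H4.exists_charpoly_div A hΩ₁ hsp hfΩ hp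
    obtain ⟨D1, hD1, -, e1⟩ := poly_div A p
    obtain ⟨D2, hD2, -, e2⟩ := poly_div A A.charpoly
    simp only [Matrix.aeval_self_charpoly, sub_zero] at e2
    have key := core hΩ₁ hΩ₃ (nr_of_numRange hA) (hF.comp hfΩ hmap) (fun s hs => hFc _ (hmap hs))
      xᴴ yᴴ (b := fun s => (D1 s + h s • D2 s) * b (f s))
      (((hD1.mono (subset_univ _)).add (MD.smul hh (hD2.mono (subset_univ _)))).mul
        (hb.comp hfΩ hmap)) (fun s hs => by
          rw [hFb _ (hmap hs), ← Matrix.mul_assoc, Matrix.mul_add, Matrix.mul_smul, ← e1, ← e2,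
            hfh s, add_smul, smul_smul, mul_comm (h s)]
          congr 1
          abel)
    rw [hs_conjTranspose, hs_conjTranspose] at key
    rw [trace_self, trace_self]
    simpa using key

end Crest.Agent.H8.Crz
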