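import Mathlib

/-! Hilbert–Schmidt inner product of complex matrices. -/

set_option autoImplicit false

open Complex Matrix
open scoped ComplexConjugate ComplexOrder

namespace Crest.Agent.H8.Crz

variable {a b c : Type*} [Fintype a] [Fintype b] [Fintype c]

/-- Hilbert–Schmidt inner product -/
noncomputable def ip (X Y : Matrix a b ℂ) : ℂ := (Xᴴ * Y).trace

/-- squared Hilbert–Schmidt norm -/
noncomputable def hs (X : Matrix a b ℂ) : ℝ := ∑ i, ∑ j, ‖X i j‖ ^ 2

lemma ip_eq_sum (X Y : Matrix a b ℂ) : ip X Y = ∑ i, ∑ j, conj (X i j) * Y i j := by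
  simp only [ip, Matrix.trace, Matrix.diag, Matrix.mul_apply, Matrix.conjTranspose_apply]
  rw [Finset.sum_comm]; rfl

lemma ip_self (X : Matrix a b ℂ) : ip X X = hs X := by
  rw [ip_eq_sum, hs]
  push_cast
  refine Finset.sum_congr rfl fun i _ => Finset.sum_congr rfl fun j _ => ?_
  rw [Complex.conj_mul']

lemma ip_self_re (X : Matrix a b ℂ) : (ip X X).re = hs X := by rw [ip_self]; simp

lemma trace_self (X : Matrix a b ℂ) : (Xᴴ * X).trace = hs X := ip_self X

lemma hs_nonneg (X : Matrix a b ℂ) : 0 ≤ hs X := by unfold hs; positivity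

lemma hs_eq_zero {X : Matrix a b ℂ} (h : hs X = 0) : X = 0 := by
  ext i j
  have h1 := (Finset.sum_eq_zero_iff_of_nonneg (fun i _ => by positivity)).1 h i (Finset.mem_univ _)
  have h2 := (Finset.sum_eq_zero_iff_of_nonneg (fun i _ => by positivity)).1 h1 j
    (Finset.mem_univ _)
  simpa using h2

lemma hs_pos {X : Matrix a b ℂ} (h : X ≠ 0) : 0 < hs X :=
  lt_of_le_of_ne (hs_nonneg X) fun h' => h (hs_eq_zero h'.symm)

lemma sq_entry_le_hs (X : Matrix a b ℂ) (i : a) (j : b) : ‖X i j‖ ^ 2 ≤ hs X := by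
  unfold hs
  calc ‖X i j‖ ^ 2 ≤ ∑ j, ‖X i j‖ ^ 2 :=
        Finset.single_le_sum (f := fun j => ‖X i j‖ ^ 2) (fun _ _ => by positivity)
          (Finset.mem_univ j)
    _ ≤ _ := Finset.single_le_sum (f := fun i => ∑ j, ‖X i j‖ ^ 2) (fun _ _ => by positivity)
          (Finset.mem_univ i)

lemma ip_conj (X Y : Matrix a b ℂ) : conj (ip X Y) = ip Y X := by
  simp only [ip_eq_sum, map_sum, map_mul, Complex.conj_conj, mul_comm]

lemma ip_re_symm (X Y : Matrix a b ℂ) : (ip X Y).re = (ip Y X).re := by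
  rw [← ip_conj]; simp

lemma ip_add_left (X Y Z : Matrix a b ℂ) : ip (X + Y) Z = ip X Z + ip Y Z := by
  simp [ip, Matrix.add_mul]

lemma ip_add_right (X Y Z : Matrix a b ℂ) : ip X (Y + Z) = ip X Y + ip X Z := by
  simp [ip, Matrix.mul_add]

lemma ip_sub_left (X Y Z : Matrix a b ℂ) : ip (X - Y) Z = ip X Z - ip Y Z := by
  simp [ip, Matrix.sub_mul]

lemma ip_sub_right (X Y Z : Matrix a b ℂ) : ip X (Y - Z) = ip X Y - ip X Z := by
  simp [ip, Matrix.mul_sub]

lemma ip_smul_left (s : ℂ) (X Y : Matrix a b ℂ) : ip (s • X) Y = conj s * ip X Y := by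
  simp [ip]

lemma ip_smul_right (s : ℂ) (X Y : Matrix a b ℂ) : ip X (s • Y) = s * ip X Y := by
  simp [ip]

lemma hs_add (X Y : Matrix a b ℂ) : hs (X + Y) = hs X + hs Y + 2 * (ip X Y).re := by
  rw [← ip_self_re, ip_add_left, ip_add_right, ip_add_right]
  simp only [Complex.add_re, ip_self_re, ip_re_symm Y X]; ring

lemma hs_sub (X Y : Matrix a b ℂ) : hs (X - Y) = hs X + hs Y - 2 * (ip X Y).re := by
  rw [← ip_self_re, ip_sub_left, ip_sub_right, ip_sub_right]
  simp only [Complex.sub_re, ip_self_re, ip_re_symm Y X]; ring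

lemma hs_smul (s : ℂ) (X : Matrix a b ℂ) : hs (s • X) = ‖s‖ ^ 2 * hs X := by
  simp only [hs, Matrix.smul_apply, smul_eq_mul, norm_mul, mul_pow, Finset.mul_sum]

lemma hs_smul_real (s : ℝ) (X : Matrix a b ℂ) : hs ((s : ℂ) • X) = s ^ 2 * hs X := by
  rw [hs_smul]; simp

lemma hs_neg (X : Matrix a b ℂ) : hs (-X) = hs X := by simp [hs]

@[simp] lemma hs_zero : hs (0 : Matrix a b ℂ) = 0 := by simp [hs]

lemma hs_conjTranspose (X : Matrix a b ℂ) : hs Xᴴ = hs X := by
  simp only [hs, Matrix.conjTranspose_apply, norm_star]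
  rw [Finset.sum_comm]

lemma hs_transpose (X : Matrix a b ℂ) : hs Xᵀ = hs X := by
  simp only [hs, Matrix.transpose_apply]
  rw [Finset.sum_comm]

lemma two_re_ip_le (X Y : Matrix a b ℂ) : 2 * (ip X Y).re ≤ hs X + hs Y := by
  have := hs_nonneg (X - Y)
  rw [hs_sub] at this
  linarith

lemma two_mul_re_ip_le (k : ℝ) (X Y : Matrix a b ℂ) :
    2 * k * (ip X Y).re ≤ k ^ 2 * hs X + hs Y := by
  have := two_re_ip_le ((k : ℂ) • X) Y
  rw [ip_smul_left, hs_smul_real] at this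
  simp only [Complex.conj_ofReal, Complex.re_ofReal_mul] at this
  linarith

lemma two_mul_re_trace_le (k : ℝ) (X : Matrix a b ℂ) (Y : Matrix b a ℂ) :
    2 * k * ((X * Y).trace).re ≤ k ^ 2 * hs X + hs Y := by
  have := two_mul_re_ip_le k Xᴴ Y
  rw [hs_conjTranspose] at this
  simpa [ip] using this

lemma hs_gram (X : Matrix a b ℂ) : hs (X * Xᴴ) = hs (Xᴴ * X) := by
  rw [← ip_self_re, ← ip_self_re]
  simp only [ip, Matrix.conjTranspose_mul, Matrix.conjTranspose_conjTranspose]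
  congr 1
  rw [Matrix.mul_assoc, Matrix.trace_mul_comm]
  simp only [Matrix.mul_assoc]

lemma hs_cross_le (X : Matrix a b ℂ) (Y : Matrix a c ℂ) :
    2 * hs (Xᴴ * Y) ≤ hs (Xᴴ * X) + hs (Yᴴ * Y) := by
  have h := two_re_ip_le (X * Xᴴ) (Y * Yᴴ)
  rw [hs_gram, hs_gram] at h
  refine le_trans (le_of_eq ?_) h
  rw [← ip_self_re]
  simp only [ip, Matrix.conjTranspose_mul, Matrix.conjTranspose_conjTranspose]
  congr 2
  rw [Matrix.mul_assoc, Matrix.trace_mul_comm]
  simp only [Matrix.mul_assoc]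

open scoped MatrixOrder in
lemma psd_sqrt [DecidableEq a] {M : Matrix a a ℂ} (hM : M.PosSemidef) :
    ∃ B : Matrix a a ℂ, M = Bᴴ * B :=
  CStarAlgebra.nonneg_iff_eq_star_mul_self.mp hM.nonneg

lemma hs_cross_psd [DecidableEq a] {M : Matrix a a ℂ} (hM : M.PosSemidef) (x : Matrix a b ℂ)
    (y : Matrix a c ℂ) :
    2 * hs (xᴴ * M * y) ≤ hs (xᴴ * M * x) + hs (yᴴ * M * y) := by
  obtain ⟨B, rfl⟩ := psd_sqrt hM
  have := hs_cross_le (B * x) (B * y)
  simpa only [Matrix.conjTranspose_mul, Matrix.mul_assoc] using this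

lemma continuous_hs {α : Type*} [TopologicalSpace α] {X : α → Matrix a b ℂ} (hX : Continuous X) :
    Continuous fun t => hs (X t) := by
  unfold hs
  refine continuous_finsetSum _ fun i _ => continuous_finsetSum _ fun j _ => ?_
  exact (hX.matrix_elem i j).norm.pow 2

lemma continuous_ip {α : Type*} [TopologicalSpace α] {X Y : α → Matrix a b ℂ} (hX : Continuous X)
    (hY : Continuous Y) : Continuous fun t => ip (X t) (Y t) :=
  (hX.matrix_conjTranspose.matrix_mul hY).matrix_trace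

/-- left multiplication by `F` does not increase the Hilbert–Schmidt norm -/
def Contr (F : Matrix a b ℂ) : Prop := ∀ v : b → ℂ, ∑ i, ‖(F *ᵥ v) i‖ ^ 2 ≤ ∑ j, ‖v j‖ ^ 2

lemma Contr.hs_mul {F : Matrix a b ℂ} (hF : Contr F) (P : Matrix b c ℂ) : hs (F * P) ≤ hs P := by
  unfold hs
  rw [Finset.sum_comm, Finset.sum_comm (f := fun i j => ‖P i j‖ ^ 2)]
  refine Finset.sum_le_sum fun j _ => ?_
  exact hF fun i => P i j

end Crest.Agent.H8.Crz
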