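import Crest.Agent.H8.CrzMain

/-! Complete Crouzeix bound for polynomials of matrices and of Hilbert space operators. -/

set_option autoImplicit false
set_option linter.unusedSectionVars false

open Metric Set Complex Matrix Polynomial
open scoped Real ComplexConjugate ComplexOrder

namespace Crest.Agent.H8.Crz

section contr
variable {a b : Type*} [Fintype a] [Fintype b]

lemma contr_of_hs {F : Matrix a b ℂ} (h : ∀ P : Matrix b Unit ℂ, hs (F * P) ≤ hs P) : Contr F := by
  intro v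
  have := h (Matrix.of fun i _ => v i)
  simpa [hs, Matrix.mul_apply, Matrix.mulVec, dotProduct] using this

lemma Contr.conjTranspose {F : Matrix a b ℂ} (h : Contr F) : Contr Fᴴ := by
  refine contr_of_hs fun P => ?_
  have h1 := two_re_ip_le (F * (Fᴴ * P)) P
  have h2 := h.hs_mul (Fᴴ * P)
  have h3 : (ip (F * (Fᴴ * P)) P).re = hs (Fᴴ * P) := by
    rw [← ip_self_re]; simp [ip, Matrix.mul_assoc]
  linarith

lemma Contr.transpose {F : Matrix a b ℂ} (h : Contr F) : Contr Fᵀ := by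
  intro v
  have := h.conjTranspose (star v)
  have e : ∀ i, ‖(Fᴴ *ᵥ star v) i‖ = ‖(Fᵀ *ᵥ v) i‖ := by
    intro i
    rw [← norm_star]
    congr 1
    simp [Matrix.mulVec, dotProduct]
  simpa only [e, Pi.star_apply, norm_star] using this

end contr

variable {n m : Type*} [Fintype n] [DecidableEq n] [Fintype m] [DecidableEq m]

lemma contr_of_norm {P : Matrix m m ℂ} {c : ℝ} (hc : 0 < c)
    (h : ‖Matrix.toEuclideanCLM (n := m) (𝕜 := ℂ) P‖ ≤ c) : Contr (((c⁻¹ : ℝ) : ℂ) • P) := by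
  intro v
  have h1 := (Matrix.toEuclideanCLM (n := m) (𝕜 := ℂ) P).le_of_opNorm_le h (WithLp.toLp 2 v)
  have h2 := pow_le_pow_left₀ (norm_nonneg _) h1 2
  rw [mul_pow, EuclideanSpace.norm_sq_eq, EuclideanSpace.norm_sq_eq] at h2
  simp only [Matrix.ofLp_toEuclideanCLM] at h2
  simp only [Matrix.smul_mulVec, Pi.smul_apply, smul_eq_mul, norm_mul, mul_pow, ← Finset.mul_sum,
    Complex.norm_real, Real.norm_eq_abs, sq_abs, inv_pow]
  rw [inv_mul_le_iff₀ (by positivity)]
  exact h2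

theorem matrix_poly_bound {d : ℕ} (A : Matrix n n ℂ) (B : Fin (d + 1) → Matrix m m ℂ) (M : ℝ)
    (hM0 : 0 ≤ M)
    (hM : ∀ z ∈ WW A, ‖Matrix.toEuclideanCLM (n := m) (𝕜 := ℂ)
      (∑ k : Fin (d + 1), z ^ (k : ℕ) • B k)‖ ≤ M) (y : Matrix n m ℂ) {ε : ℝ} (hε : 0 < ε) :
    hs (∑ k : Fin (d + 1), A ^ (k : ℕ) * y * (B k)ᵀ) ≤ 4 * (M + ε) ^ 2 * hs y := by
  have hc : 0 < M + ε := by linarith
  have hφ : Continuous fun z : ℂ => ‖Matrix.toEuclideanCLM (n := m) (𝕜 := ℂ)
      (∑ k : Fin (d + 1), z ^ (k : ℕ) • B k)‖ := by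
    simp only [map_sum, map_smul]
    fun_prop
  obtain ⟨δ, hδ, hδU⟩ := (isCompact_WW A).exists_thickening_subset_open
    (isOpen_lt hφ (continuous_const (y := M + ε))) (fun z hz => by
      have := hM z hz
      simp only [mem_ofPred_eq]; linarith)
  set c : ℂ := (((M + ε)⁻¹ : ℝ) : ℂ) with hcdef
  choose D hD _ hD2 using fun k : Fin (d + 1) => poly_div A (X ^ (k : ℕ))
  have key := core (A := A) (U := thickening δ (WW A)) isOpen_thickening
    ((convex_WW A).thickening δ) ((nr_WW A).mono (self_subset_thickening hδ _))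
    (F := fun z => (c • ∑ k : Fin (d + 1), z ^ (k : ℕ) • B k)ᵀ)
    (fun i j => by
      simp only [Matrix.transpose_apply, Matrix.smul_apply, Matrix.sum_apply, smul_eq_mul]
      fun_prop)
    (fun z hz => (contr_of_norm hc (le_of_lt (hδU hz))).transpose)
    (c • ∑ k : Fin (d + 1), A ^ (k : ℕ) * y * (B k)ᵀ) y
    (b := fun s => c • ∑ k : Fin (d + 1), D k s * (y * (B k)ᵀ))
    (MD.smul (differentiableOn_const _) (fun i j => by
      simp only [Matrix.sum_apply]
      exact DifferentiableOn.fun_sum fun k _ =>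
        (((hD k).mono (subset_univ _)).mul (MD.const _)) i j))
    (fun s _ => by
      simp only [eval_pow, eval_X, map_pow, aeval_X] at hD2
      simp only [Matrix.transpose_smul, Matrix.transpose_sum, Matrix.mul_smul, Matrix.mul_sum,
        ← smul_sub, ← Finset.sum_sub_distrib, ← Matrix.mul_assoc, ← hD2, Matrix.sub_mul,
        Matrix.smul_mul, Matrix.one_mul])
  rw [hcdef, hs_smul_real, inv_pow, inv_mul_le_iff₀ (by positivity)] at key
  linarith

theorem hilbert_bound
    {H : Type*} [NormedAddCommGroup H] [InnerProductSpace ℂ H]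
    (A : H →L[ℂ] H) (m d : ℕ) (B : Fin (d + 1) → Matrix (Fin m) (Fin m) ℂ) (M : ℝ)
    (hM : ∀ x : H, ‖x‖ = 1 →
      ‖Matrix.toEuclideanCLM (n := Fin m) (𝕜 := ℂ)
          (∑ k : Fin (d + 1), (inner ℂ x (A x)) ^ (k : ℕ) • B k)‖ ≤ M)
    (v : PiLp 2 (fun _ : Fin m => H)) :
    ‖(WithLp.toLp 2 (fun i : Fin m => ∑ j : Fin m, ∑ k : Fin (d + 1), B k i j • (A ^ (k : ℕ)) (v j))
        : PiLp 2 (fun _ : Fin m => H))‖ ≤ 2 * M * ‖v‖ := by
  by_cases hv : v = 0
  · subst hv
    simp only [PiLp.zero_apply, map_zero, smul_zero, Finset.sum_const_zero, norm_zero, mul_zero]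
    exact le_of_eq (by rw [norm_eq_zero]; rfl)
  have hM0 : 0 ≤ M := by
    obtain ⟨j, hj⟩ : ∃ j, v j ≠ 0 := by
      by_contra hh
      push Not at hh
      exact hv (by ext j; exact hh j)
    exact (norm_nonneg _).trans (hM (((‖v j‖⁻¹ : ℝ) : ℂ) • v j) (by
      rw [norm_smul, Complex.norm_real, norm_inv, norm_norm, inv_mul_cancel₀ (norm_ne_zero_iff.2 hj)]))
  set S : Submodule ℂ H := Submodule.span ℂ
    (range fun p : Fin m × Fin (d + 1) => (A ^ (p.2 : ℕ)) (v p.1)) with hS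
  have : FiniteDimensional ℂ S := FiniteDimensional.span_of_finite ℂ (finite_range _)
  set e := stdOrthonormalBasis ℂ S with he
  set E : Fin (Module.finrank ℂ S) → H := fun i => (e i : H) with hE
  have hEo : Orthonormal ℂ E := e.orthonormal.comp_linearIsometry S.subtypeₗᵢ
  have hrep : ∀ u ∈ S, ∑ i, inner ℂ (E i) u • E i = u := by
    intro u hu
    have := congrArg (fun x : S => (x : H)) (e.sum_repr' ⟨u, hu⟩)
    simpa using this
  have hnorm : ∀ c : Fin (Module.finrank ℂ S) → ℂ, ‖∑ i, c i • E i‖ ^ 2 = ∑ i, ‖c i‖ ^ 2 := by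
    intro c
    have h1 := hEo.inner_sum c c Finset.univ
    rw [inner_self_eq_norm_sq_to_K] at h1
    simp only [Complex.conj_mul'] at h1
    apply Complex.ofReal_injective
    push_cast
    exact h1
  have hnorm' : ∀ u ∈ S, ‖u‖ ^ 2 = ∑ i, ‖inner ℂ (E i) u‖ ^ 2 := by
    intro u hu
    rw [← hnorm, hrep u hu]
  set A' : Matrix (Fin (Module.finrank ℂ S)) (Fin (Module.finrank ℂ S)) ℂ :=
    Matrix.of fun i j => inner ℂ (E i) (A (E j)) with hA'
  set y : Matrix (Fin (Module.finrank ℂ S)) (Fin m) ℂ :=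
    Matrix.of fun i j => inner ℂ (E i) (v j) with hy
  have hmem : ∀ (j : Fin m) (k : ℕ), k < d + 1 → (A ^ k) (v j) ∈ S := fun j k hk =>
    Submodule.subset_span ⟨(j, ⟨k, hk⟩), rfl⟩
  have hpow : ∀ (k : ℕ), k < d + 1 → ∀ i j, inner ℂ (E i) ((A ^ k) (v j)) = (A' ^ k * y) i j := by
    intro k
    induction k with
    | zero => intro _ i j; simp [hy]
    | succ k ih =>
      intro hk i j
      rw [pow_succ', pow_succ', Matrix.mul_assoc, Matrix.mul_apply, mul_apply_eq_comp,
        ← hrep _ (hmem j k (by omega)), map_sum, inner_sum]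
      refine Finset.sum_congr rfl fun l _ => ?_
      rw [map_smul, inner_smul_right, ih (by omega), mul_comm]; rfl
  have hW : ∀ z ∈ WW A', ‖Matrix.toEuclideanCLM (n := Fin m) (𝕜 := ℂ)
      (∑ k : Fin (d + 1), z ^ (k : ℕ) • B k)‖ ≤ M := by
    rintro z ⟨c, hc, rfl⟩
    have h1 : ‖∑ i, c i • E i‖ = 1 := by
      have := hnorm c
      rw [hc] at this
      exact (pow_eq_one_iff_of_nonneg (norm_nonneg _) two_ne_zero).1 this
    have h2 : inner ℂ (∑ i, c i • E i) (A (∑ i, c i • E i)) = star c ⬝ᵥ (A' *ᵥ c) := by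
      simp only [map_sum, map_smul, sum_inner, inner_sum, inner_smul_left, inner_smul_right,
        dotProduct, Matrix.mulVec, hA', Matrix.of_apply, Pi.star_apply, Finset.mul_sum,
        Complex.star_def]
      rw [Finset.sum_comm]
      refine Finset.sum_congr rfl fun i _ => Finset.sum_congr rfl fun j _ => by ring
    rw [← h2]; exact hM _ h1
  have e1 : ‖v‖ ^ 2 = hs y := by
    rw [PiLp.norm_sq_eq_of_L2, hs, Finset.sum_comm]
    refine Finset.sum_congr rfl fun j _ => ?_
    have := hmem j 0 (by omega)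
    rw [pow_zero, one_apply_eq_self] at this
    exact hnorm' _ this
  have e2 : ‖(WithLp.toLp 2 (fun i : Fin m => ∑ j : Fin m, ∑ k : Fin (d + 1),
      B k i j • (A ^ (k : ℕ)) (v j)) : PiLp 2 (fun _ : Fin m => H))‖ ^ 2 =
      hs (∑ k : Fin (d + 1), A' ^ (k : ℕ) * y * (B k)ᵀ) := by
    rw [PiLp.norm_sq_eq_of_L2, hs, Finset.sum_comm]
    refine Finset.sum_congr rfl fun i _ => ?_
    simp only
    rw [hnorm' _ (Submodule.sum_mem _ fun j _ => Submodule.sum_mem _ fun (k : Fin (d + 1)) _ =>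
      Submodule.smul_mem _ _ (hmem j k k.2))]
    refine Finset.sum_congr rfl fun l _ => ?_
    congr 2
    simp only [inner_sum, inner_smul_right, hpow _ (Fin.is_lt _), Matrix.sum_apply]
    rw [Finset.sum_comm]
    refine Finset.sum_congr rfl fun k _ => ?_
    rw [Matrix.mul_apply]
    exact Finset.sum_congr rfl fun j _ => by rw [Matrix.transpose_apply, mul_comm]
  have main : ∀ ε : ℝ, 0 < ε → ‖(WithLp.toLp 2 (fun i : Fin m => ∑ j : Fin m, ∑ k : Fin (d + 1),
      B k i j • (A ^ (k : ℕ)) (v j)) : PiLp 2 (fun _ : Fin m => H))‖ ≤ 2 * (M + ε) * ‖v‖ := by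
    intro ε hε
    have := matrix_poly_bound A' B M hM0 hW y hε
    rw [← e1, ← e2] at this
    refine (pow_le_pow_iff_left₀ (norm_nonneg _) (by positivity) two_ne_zero).1 ?_
    nlinarith
  refine le_of_forall_pos_le_add fun δ hδ => ?_
  have hv0 : 0 < ‖v‖ := norm_pos_iff.2 hv
  refine (main (δ / (2 * ‖v‖)) (by positivity)).trans (le_of_eq ?_)
  field_simp

end Crest.Agent.H8.Crz
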