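import Crest.Agent.H8.CrzFaber

/-! The double-layer kernel and the contraction lemma. -/

set_option autoImplicit false

open MeasureTheory Metric Set Complex Matrix Polynomial
open scoped Real ComplexConjugate

namespace Crest.Agent.H8.Crz

variable {K U : Set ℂ} {q : ℂ → ℂ} {r : ℝ}

lemma Ext.delta (E : Ext K U q r) {u : ℂ} (hu : u ∈ ball (0 : ℂ) 1) (hu0 : u ≠ 0) :
    ∃ D : ℂ → ℂ, DifferentiableOn ℂ D (ball 0 1) ∧ (∀ w ∈ ball (0 : ℂ) 1, D w ≠ 0) ∧
      D 0 = q 0 ∧ D u = q u - u * deriv q u ∧ ∀ w, (w - u) * D w = w * q u - u * q w := by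
  set N : ℂ → ℂ := fun w => w * q u - u * q w with hN
  have hNd : DifferentiableOn ℂ N (ball 0 1) :=
    (differentiableOn_id.mul_const _).sub (E.hol.const_mul _)
  have hmul : ∀ w, (w - u) * dslope N u w = w * q u - u * q w := by
    intro w
    have := sub_smul_dslope N u w
    simp only [smul_eq_mul, hN] at this ⊢
    rw [this]; ring
  have h0 : dslope N u 0 = q 0 := by
    have := hmul 0
    have h2 : u * dslope N u 0 = u * q 0 := by linear_combination -this
    exact mul_left_cancel₀ hu0 h2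
  have hu' : dslope N u u = q u - u * deriv q u := by
    rw [dslope_same]
    have hq : HasDerivAt q (deriv q u) u :=
      (E.hol.differentiableAt (isOpen_ball.mem_nhds hu)).hasDerivAt
    have : HasDerivAt N (1 * q u - u * deriv q u) u :=
      ((hasDerivAt_id u).mul_const _).sub (hq.const_mul _)
    rw [this.deriv, one_mul]
  refine ⟨dslope N u, (Complex.differentiableOn_dslope (isOpen_ball.mem_nhds hu)).2 hNd, ?_, h0,
    hu', hmul⟩
  intro w hw hD
  by_cases hw0 : w = 0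
  · rw [hw0, h0] at hD; exact E.q0 hD
  by_cases hwu : w = u
  · rw [hwu, hu'] at hD; exact E.dne u hu hD
  have := hmul w
  rw [hD, mul_zero] at this
  refine hwu (E.inj ⟨hw, hw0⟩ ⟨hu, hu0⟩ ?_)
  simp only
  rw [div_eq_div_iff hw0 hu0]
  linear_combination this

/-- the kernel formula -/
noncomputable def ker (q : ℂ → ℂ) (w u : ℂ) : ℂ :=
  2 * ((q w - w * deriv q w) / w) / (q w / w - q u / u) + (w + u) / (w - u)

lemma ker_eq {w u D : ℂ} (hw0 : w ≠ 0) (hu0 : u ≠ 0) (hwu : w ≠ u) (hD : D ≠ 0)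
    (h : (w - u) * D = w * q u - u * q w) :
    ker q w u = (-2 * u * (q w - w * deriv q w) + (w + u) * D) / ((w - u) * D) := by
  have h1 : w - u ≠ 0 := sub_ne_zero.2 hwu
  have h2 : q w / w - q u / u = -((w - u) * D) / (w * u) := by
    rw [h]; field_simp; ring
  rw [ker, h2]
  field_simp

lemma Ext.psi_w (E : Ext K U q r) {u : ℂ} (hu : u ∈ ball (0 : ℂ) 1) (hu0 : u ≠ 0) :
    ∃ P : ℂ → ℂ, DifferentiableOn ℂ P (ball 0 1) ∧ P 0 = 1 ∧
      ∀ w ∈ ball (0 : ℂ) 1, w ≠ 0 → w ≠ u → P w = ker q w u := by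
  obtain ⟨D, hD, hDne, hD0, hDu, hmul⟩ := E.delta hu hu0
  set N : ℂ → ℂ := fun w => -2 * u * (q w - w * deriv q w) + (w + u) * D w with hN
  have hNd : DifferentiableOn ℂ N (ball 0 1) :=
    (E.hol_dq.const_mul _).add ((differentiableOn_id.add_const _).mul hD)
  have hNu : N u = 0 := by simp only [hN, hDu]; ring
  refine ⟨fun w => dslope N u w / D w,
    ((Complex.differentiableOn_dslope (isOpen_ball.mem_nhds hu)).2 hNd).div hD hDne, ?_, ?_⟩
  · have := E.q0
    simp only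
    rw [dslope_of_ne _ hu0.symm, slope_def_field, hNu, hD0]
    simp only [hN, hD0]
    field_simp
    ring
  · intro w hw hw0 hwu
    rw [ker_eq hw0 hu0 hwu (hDne w hw) (hmul w)]
    simp only
    rw [dslope_of_ne _ hwu, slope_def_field, hNu, sub_zero, div_div]

lemma Ext.psi_u (E : Ext K U q r) {w : ℂ} (hw : w ∈ ball (0 : ℂ) 1) (hw0 : w ≠ 0) :
    ∃ P : ℂ → ℂ, DifferentiableOn ℂ P (ball 0 1) ∧ P 0 = 1 ∧
      ∀ u ∈ ball (0 : ℂ) 1, u ≠ 0 → u ≠ w → P u = ker q w u := by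
  obtain ⟨D, hD, hDne, hD0, hDu, hmul⟩ := E.delta hw hw0
  set N : ℂ → ℂ := fun u => -2 * u * (q w - w * deriv q w) + (w + u) * D u with hN
  have hNd : DifferentiableOn ℂ N (ball 0 1) :=
    ((differentiableOn_id.const_mul _).mul_const _).add ((differentiableOn_id.const_add _).mul hD)
  have hNu : N w = 0 := by simp only [hN, hDu]; ring
  refine ⟨fun u => -dslope N w u / D u,
    ((Complex.differentiableOn_dslope (isOpen_ball.mem_nhds hw)).2 hNd).neg.div hD hDne, ?_, ?_⟩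
  · have := E.q0
    simp only
    rw [dslope_of_ne _ hw0.symm, slope_def_field, hNu, hD0]
    simp only [hN, hD0]
    field_simp
    ring
  · intro u hu hu0 huw
    have h1 : (w - u) * D u = w * q u - u * q w := by linear_combination -(hmul u)
    rw [ker_eq hw0 hu0 huw.symm (hDne u hu) h1]
    simp only
    rw [dslope_of_ne _ huw, slope_def_field, hNu, sub_zero]
    have h2 : w - u ≠ 0 := sub_ne_zero.2 huw.symm
    have h3 : u - w ≠ 0 := sub_ne_zero.2 huw
    have := hDne u hu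
    simp only [hN]
    field_simp
    ring

/-- real kernel -/
noncomputable def kap (q : ℂ → ℂ) (r : ℝ) (θ φ : ℝ) : ℝ :=
  (ker q (circleMap 0 r θ) (circleMap 0 r φ)).re

lemma conj_cayley (h0 : 0 < r) (θ φ : ℝ) :
    conj ((circleMap 0 r θ + circleMap 0 r φ) / (circleMap 0 r θ - circleMap 0 r φ)) =
      -((circleMap 0 r θ + circleMap 0 r φ) / (circleMap 0 r θ - circleMap 0 r φ)) := by
  by_cases h : circleMap 0 r θ = circleMap 0 r φ
  · simp [h]
  have h1 := circ_ne h0 θ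
  have h2 := circ_ne h0 φ
  have h3 : circleMap 0 r θ - circleMap 0 r φ ≠ 0 := sub_ne_zero.2 h
  have h4 : circleMap 0 r φ - circleMap 0 r θ ≠ 0 := sub_ne_zero.2 (Ne.symm h)
  have h5 : (r : ℂ) ≠ 0 := by exact_mod_cast h0.ne'
  rw [map_div₀, map_add, map_sub, conj_circ h0, conj_circ h0]
  field_simp
  ring

lemma Ext.kap_nonneg (E : Ext K U q r) (θ φ : ℝ) : 0 ≤ kap q r θ φ := by
  have h1 := conj_cayley E.r0 θ φ
  have h2 : ((circleMap 0 r θ + circleMap 0 r φ) / (circleMap 0 r θ - circleMap 0 r φ)).re = 0 := by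
    have := congrArg Complex.re h1
    simp only [Complex.conj_re, Complex.neg_re] at this
    linarith
  have h3 := E.posG _ (circ_mem_ball E.r0 E.r1 θ) (circ_ne E.r0 θ) (circleMap 0 r φ)
    (by rw [circ_norm E.r0, circ_norm E.r0])
  rw [kap, ker, Complex.add_re, h2, add_zero]
  generalize (q (circleMap 0 r θ) - circleMap 0 r θ * deriv q (circleMap 0 r θ)) /
    circleMap 0 r θ = a at h3 ⊢
  generalize q (circleMap 0 r θ) / circleMap 0 r θ - q (circleMap 0 r φ) / circleMap 0 r φ = b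
    at h3 ⊢
  rw [Complex.div_re, ← add_div]
  refine div_nonneg ?_ (normSq_nonneg _)
  simp only [Complex.mul_re, Complex.conj_re, Complex.conj_im] at h3
  simp only [Complex.mul_re, Complex.mul_im, Complex.re_ofNat, Complex.im_ofNat]
  linarith

lemma Ext.kap_meas (E : Ext K U q r) : Measurable (Function.uncurry (kap q r)) := by
  have h1 := E.cont_gg.measurable
  have h2 := E.cont_nu.measurable
  have h3 := (continuous_circleMap 0 r).measurable
  have : Function.uncurry (kap q r) = fun p : ℝ × ℝ =>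
      (2 * nu q r p.1 / (gg q r p.1 - gg q r p.2) +
        (circleMap 0 r p.1 + circleMap 0 r p.2) / (circleMap 0 r p.1 - circleMap 0 r p.2)).re := by
    ext p; rfl
  rw [this]
  refine Complex.measurable_re.comp ?_
  refine Measurable.add (Measurable.div (measurable_const.mul (h2.comp measurable_fst))
    ((h1.comp measurable_fst).sub (h1.comp measurable_snd))) (Measurable.div
      ((h3.comp measurable_fst).add (h3.comp measurable_snd))
      ((h3.comp measurable_fst).sub (h3.comp measurable_snd)))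

lemma Ext.kap_fst (E : Ext K U q r) (φ : ℝ) : ∃ P : ℝ → ℂ, Hardy r P 1 ∧
    ∀ θ, circleMap 0 r θ ≠ circleMap 0 r φ → P θ = ker q (circleMap 0 r θ) (circleMap 0 r φ) := by
  obtain ⟨P, hP, hP0, h⟩ := E.psi_w (circ_mem_ball E.r0 E.r1 φ) (circ_ne E.r0 φ)
  exact ⟨fun θ => P (circleMap 0 r θ), ⟨P, hP, hP0, fun _ => rfl⟩, fun θ hθ =>
    h _ (circ_mem_ball E.r0 E.r1 θ) (circ_ne E.r0 θ) hθ⟩

lemma Ext.kap_snd (E : Ext K U q r) (θ : ℝ) : ∃ P : ℝ → ℂ, Hardy r P 1 ∧
    ∀ φ, circleMap 0 r φ ≠ circleMap 0 r θ → P φ = ker q (circleMap 0 r θ) (circleMap 0 r φ) := by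
  obtain ⟨P, hP, hP0, h⟩ := E.psi_u (circ_mem_ball E.r0 E.r1 θ) (circ_ne E.r0 θ)
  exact ⟨fun θ => P (circleMap 0 r θ), ⟨P, hP, hP0, fun _ => rfl⟩, fun φ hφ =>
    h _ (circ_mem_ball E.r0 E.r1 φ) (circ_ne E.r0 φ) hφ⟩

lemma Hardy.mean_re {P : ℝ → ℂ} {z : ℂ} (h : Hardy r P z) (h0 : 0 < r) (h1 : r < 1) :
    ∫ θ, (P θ).re ∂mu = z.re := by
  rw [← h.mean h0 h1]
  exact integral_re (𝕜 := ℂ) (integrable_mu (h.cont h0 h1))

lemma Hardy.mean_conj {P : ℝ → ℂ} {z : ℂ} (h : Hardy r P z) (h0 : 0 < r) (h1 : r < 1) :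
    ∫ θ, conj (P θ) ∂mu = conj z := by
  rw [← h.mean h0 h1]
  exact integral_conj

lemma Hardy.cayley {e : ℝ → ℂ} (he : Hardy r e 0) (h0 : 0 < r) (h1 : r < 1) (φ : ℝ) :
    ∃ G : ℝ → ℂ, Hardy r G (e φ) ∧ ∀ θ, circleMap 0 r θ ≠ circleMap 0 r φ → G θ =
      (circleMap 0 r θ + circleMap 0 r φ) / (circleMap 0 r θ - circleMap 0 r φ) * (e θ - e φ) := by
  obtain ⟨F, hF, hF0, hf⟩ := he
  set u := circleMap 0 r φ with hu
  have hu0 : u ≠ 0 := circ_ne h0 φ
  refine ⟨fun θ => (circleMap 0 r θ + u) * dslope F u (circleMap 0 r θ),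
    ⟨fun w => (w + u) * dslope F u w, (differentiableOn_id.add_const _).mul
      ((Complex.differentiableOn_dslope (isOpen_ball.mem_nhds (circ_mem_ball h0 h1 φ))).2 hF),
      ?_, fun _ => rfl⟩, fun θ hθ => ?_⟩
  · simp only
    rw [dslope_of_ne _ hu0.symm, slope_def_field, hF0, hf φ, ← hu]
    field_simp
    ring
  · simp only
    rw [dslope_of_ne _ hθ, slope_def_field, hf θ, hf φ, ← hu]
    ring

/-- reproducing formula -/
lemma Ext.repro (E : Ext K U q r) (v : ℂ[X]) (c : ℂ) {e h : ℝ → ℂ} (he : Hardy r e 0)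
    (hh : Hardy r h 0) (hv : ∀ θ, v.eval (gg q r θ) = c + conj (e θ) + h θ) (φ : ℝ)
    {P : ℝ → ℂ} (hP : Hardy r P 1) (hPk : ∀ θ, circleMap 0 r θ ≠ circleMap 0 r φ →
      P θ = ker q (circleMap 0 r θ) (circleMap 0 r φ)) :
    ∫ θ, ((P θ).re : ℂ) * conj (e θ) ∂mu = h φ := by
  have h0 := E.r0
  have h1 := E.r1
  obtain ⟨Ge, hGe, hGe'⟩ := he.cayley h0 h1 φ
  obtain ⟨Gh, hGh, hGh'⟩ := hh.cayley h0 h1 φ
  have hβ : DifferentiableOn ℂ (dslope (fun z => v.eval z) (gg q r φ)) univ :=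
    (Complex.differentiableOn_dslope Filter.univ_mem).2 v.differentiable.differentiableOn
  have m1 := E.mean_nu isOpen_univ convex_univ (fun _ => mem_univ _) hβ
  have c1 : Continuous fun θ => nu q r θ * dslope (fun z => v.eval z) (gg q r φ) (gg q r θ) :=
    E.cont_nu.mul (hβ.continuousOn.comp_continuous E.cont_gg fun _ => mem_univ _)
  have cP := hP.cont h0 h1
  have ce := he.cont h0 h1
  have cGe := hGe.cont h0 h1
  have cGh := hGh.cont h0 h1
  have hPh : Hardy r (fun θ => P θ * (h θ - (conj (e φ) + h φ))) (-(conj (e φ) + h φ)) :=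
    (hP.mul (hh.sub (Hardy.const _))).congr (fun _ => rfl) (by ring)
  have hPe : Hardy r (fun θ => P θ * e θ) 0 := (hP.mul he).congr (fun _ => rfl) (by ring)
  have key : ∀ᵐ θ ∂mu, ((P θ).re : ℂ) * conj (e θ) =
      (1 / 2 : ℂ) * (2 * (nu q r θ * dslope (fun z => v.eval z) (gg q r φ) (gg q r θ)) + Gh θ
        - conj (Ge θ) - P θ * (h θ - (conj (e φ) + h φ)) + conj (P θ * e θ)) := by
    filter_upwards [ae_circ_ne h0.ne' (circleMap 0 r φ)] with θ hθ
    have hg : gg q r θ ≠ gg q r φ := fun hh => hθ (E.inj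
      ⟨circ_mem_ball h0 h1 θ, circ_ne h0 θ⟩ ⟨circ_mem_ball h0 h1 φ, circ_ne h0 φ⟩ hh)
    have hg' : gg q r θ - gg q r φ ≠ 0 := sub_ne_zero.2 hg
    have e1 : P θ = 2 * nu q r θ / (gg q r θ - gg q r φ) +
        (circleMap 0 r θ + circleMap 0 r φ) / (circleMap 0 r θ - circleMap 0 r φ) := hPk θ hθ
    have e2 : ((P θ).re : ℂ) = (P θ + conj (P θ)) / 2 := by
      rw [Complex.add_conj]; push_cast; ring
    rw [e2, dslope_of_ne _ hg, slope_def_field, hGh' θ hθ, hGe' θ hθ, map_mul (starRingEnd ℂ),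
      conj_cayley h0, map_mul, map_sub, hv, hv]
    generalize conj (P θ) = cP
    rw [e1]
    generalize (circleMap 0 r θ + circleMap 0 r φ) / (circleMap 0 r θ - circleMap 0 r φ) = Cy
    field_simp
    ring
  rw [integral_congr_ae key, integral_const_mul, integral_add, integral_sub, integral_sub,
    integral_add, integral_const_mul, m1, hGh.mean h0 h1, hGe.mean_conj h0 h1, hPh.mean h0 h1,
    hPe.mean_conj h0 h1]
  · simp; ring
  all_goals exact integrable_mu (by have := hh.cont h0 h1; fun_prop)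

/-- the contraction lemma -/
lemma Ext.contraction (E : Ext K U q r) (v : ℂ[X]) (c : ℂ) {e h : ℝ → ℂ} (he : Hardy r e 0)
    (hh : Hardy r h 0) (hv : ∀ θ, v.eval (gg q r θ) = c + conj (e θ) + h θ) :
    ∫ θ, ‖h θ‖ ^ 2 ∂mu ≤ ∫ θ, ‖e θ‖ ^ 2 ∂mu := by
  have h0 := E.r0
  have h1 := E.r1
  have ce := he.cont h0 h1
  have ch := hh.cont h0 h1
  -- second marginal
  have snd : ∀ θ, Integrable (fun φ => kap q r θ φ) mu ∧ ∫ φ, kap q r θ φ ∂mu = 1 := by
    intro θ
    obtain ⟨P, hP, hPk⟩ := E.kap_snd θ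
    have hae : (fun φ => kap q r θ φ) =ᵐ[mu] fun φ => (P φ).re := by
      filter_upwards [ae_circ_ne h0.ne' (circleMap 0 r θ)] with φ hφ
      rw [hPk φ hφ]; rfl
    have cP := hP.cont h0 h1
    refine ⟨(integrable_mu (by fun_prop)).congr hae.symm, ?_⟩
    rw [integral_congr_ae hae, hP.mean_re h0 h1]; simp
  have hint : Integrable (Function.uncurry fun θ φ => kap q r θ φ * ‖e θ‖ ^ 2) (mu.prod mu) := by
    have hm : AEStronglyMeasurable (Function.uncurry fun θ φ => kap q r θ φ * ‖e θ‖ ^ 2)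
        (mu.prod mu) :=
      (E.kap_meas.mul ((ce.norm.pow 2).measurable.comp measurable_fst)).aestronglyMeasurable
    rw [integrable_prod_iff hm]
    refine ⟨Filter.Eventually.of_forall fun θ => (snd θ).1.mul_const (‖e θ‖ ^ 2), ?_⟩
    have : (fun θ => ∫ φ, ‖Function.uncurry (fun θ φ => kap q r θ φ * ‖e θ‖ ^ 2) (θ, φ)‖ ∂mu) =
        fun θ => ‖e θ‖ ^ 2 := by
      ext θ
      have : ∀ φ, ‖Function.uncurry (fun θ φ => kap q r θ φ * ‖e θ‖ ^ 2) (θ, φ)‖ =
          kap q r θ φ * ‖e θ‖ ^ 2 := fun φ =>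
        Real.norm_of_nonneg (mul_nonneg (E.kap_nonneg θ φ) (by positivity))
      simp only [this]
      rw [integral_mul_const, (snd θ).2, one_mul]
    rw [this]
    exact integrable_mu (ce.norm.pow 2)
  have fub := integral_integral_swap hint
  have e1 : ∫ θ, ∫ φ, kap q r θ φ * ‖e θ‖ ^ 2 ∂mu ∂mu = ∫ θ, ‖e θ‖ ^ 2 ∂mu := by
    refine integral_congr_ae (Filter.Eventually.of_forall fun θ => ?_)
    simp only
    rw [integral_mul_const, (snd θ).2, one_mul]
  rw [← e1, fub]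
  refine integral_mono (integrable_mu (ch.norm.pow 2)) hint.integral_prod_right fun φ => ?_
  obtain ⟨P, hP, hPk⟩ := E.kap_fst φ
  have cP := hP.cont h0 h1
  have rep := E.repro v c he hh hv φ hP hPk
  have hae : ∀ᵐ θ ∂mu, kap q r θ φ = (P θ).re := by
    filter_upwards [ae_circ_ne h0.ne' (circleMap 0 r φ)] with θ hθ
    rw [hPk θ hθ]; rfl
  have e2 : ∫ θ, kap q r θ φ * ‖e θ‖ ^ 2 ∂mu = ∫ θ, (P θ).re * ‖e θ‖ ^ 2 ∂mu := by
    refine integral_congr_ae ?_
    filter_upwards [hae] with θ hθ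
    rw [hθ]
  simp only
  rw [e2]
  have e3 : ∫ θ, (conj (h φ) * (((P θ).re : ℂ) * conj (e θ))).re ∂mu = ‖h φ‖ ^ 2 := by
    have := integral_re (𝕜 := ℂ) (μ := mu)
      (f := fun θ => conj (h φ) * (((P θ).re : ℂ) * conj (e θ))) (integrable_mu (by fun_prop))
    simp only [RCLike.re_to_complex] at this
    rw [this, integral_const_mul, rep, Complex.conj_mul']
    norm_cast
  have e4 : ∫ θ, 2 * (conj (h φ) * (((P θ).re : ℂ) * conj (e θ))).re ∂mu ≤
      ∫ θ, ((P θ).re * ‖h φ‖ ^ 2 + (P θ).re * ‖e θ‖ ^ 2) ∂mu := by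
    refine integral_mono_ae (integrable_mu (by fun_prop)) (integrable_mu (by fun_prop)) ?_
    filter_upwards [hae] with θ hθ
    have hk : 0 ≤ (P θ).re := hθ ▸ E.kap_nonneg θ φ
    generalize (P θ).re = k at hk
    rw [Complex.sq_norm, Complex.sq_norm, normSq_apply, normSq_apply]
    simp only [Complex.mul_re, Complex.mul_im, Complex.conj_re, Complex.conj_im, Complex.ofReal_re,
      Complex.ofReal_im]
    nlinarith [mul_nonneg hk (sq_nonneg ((h φ).re - (e θ).re)),
      mul_nonneg hk (sq_nonneg ((h φ).im + (e θ).im))]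
  rw [integral_const_mul, e3, integral_add (integrable_mu (by fun_prop))
    (integrable_mu (by fun_prop)), integral_mul_const, hP.mean_re h0 h1] at e4
  simp only [Complex.one_re] at e4
  linarith

end Crest.Agent.H8.Crz
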