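import Crest.Agent.H8.CrzCore
import Crest.Agent.H4.ExtMap

/-! Toeplitz–Hausdorff and the core estimate. -/

set_option autoImplicit false
set_option linter.unusedSectionVars false

open MeasureTheory Metric Set Complex Matrix Polynomial
open scoped Real ComplexConjugate ComplexOrder

namespace Crest.Agent.H8.Crz

variable {n m : Type*} [Fintype n] [DecidableEq n] [Fintype m] [DecidableEq m]

/-- numerical range -/
def WW (A : Matrix n n ℂ) : Set ℂ := {z | ∃ x : n → ℂ, ∑ i, ‖x i‖ ^ 2 = 1 ∧ z = star x ⬝ᵥ (A *ᵥ x)}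

lemma nr_WW (A : Matrix n n ℂ) : NR A (WW A) := fun x hx => ⟨x, hx, rfl⟩

lemma NR.WW_subset {A : Matrix n n ℂ} {U : Set ℂ} (h : NR A U) : WW A ⊆ U := by
  rintro z ⟨x, hx, rfl⟩; exact h x hx

lemma NR.mono {A : Matrix n n ℂ} {U V : Set ℂ} (h : NR A U) (hUV : U ⊆ V) : NR A V :=
  fun x hx => hUV (h x hx)

lemma isCompact_WW (A : Matrix n n ℂ) : IsCompact (WW A) := by
  have h1 : IsCompact (univ.pi fun _ : n => closedBall (0 : ℂ) 1) :=
    isCompact_univ_pi fun _ => isCompact_closedBall _ _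
  have h2 : IsCompact {x : n → ℂ | ∑ i, ‖x i‖ ^ 2 = 1} := by
    refine h1.of_isClosed_subset (isClosed_eq (by fun_prop) continuous_const) ?_
    intro x hx i _
    have h3 : ‖x i‖ ^ 2 ≤ ∑ i, ‖x i‖ ^ 2 :=
      Finset.single_le_sum (f := fun i => ‖x i‖ ^ 2) (fun _ _ => by positivity) (Finset.mem_univ i)
    have h4 : ∑ i, ‖x i‖ ^ 2 = 1 := hx
    rw [mem_closedBall_zero_iff]
    nlinarith [norm_nonneg (x i)]
  have h3 : Continuous fun x : n → ℂ => star x ⬝ᵥ (A *ᵥ x) := by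
    simp only [dotProduct, Matrix.mulVec, Pi.star_apply]
    fun_prop
  convert h2.image h3 using 1
  ext z
  simp only [WW, mem_ofPred_eq, mem_image]
  exact ⟨fun ⟨x, hx, hz⟩ => ⟨x, hx, hz.symm⟩, fun ⟨x, hx, hz⟩ => ⟨x, hx, hz.symm⟩⟩

lemma sf_expand (B : Matrix n n ℂ) (x y : n → ℂ) (a b : ℝ) :
    star ((a : ℂ) • x + (b : ℂ) • y) ⬝ᵥ (B *ᵥ ((a : ℂ) • x + (b : ℂ) • y)) =
      a ^ 2 * (star x ⬝ᵥ (B *ᵥ x)) + a * b * (star x ⬝ᵥ (B *ᵥ y) + star y ⬝ᵥ (B *ᵥ x)) +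
        b ^ 2 * (star y ⬝ᵥ (B *ᵥ y)) := by
  simp only [star_add, star_smul, Matrix.mulVec_add, Matrix.mulVec_smul, add_dotProduct,
    dotProduct_add, smul_dotProduct, dotProduct_smul, smul_eq_mul, Complex.star_def,
    Complex.conj_ofReal]
  ring

lemma th_normalized (B : Matrix n n ℂ) (x y : n → ℂ) (hx : ∑ i, ‖x i‖ ^ 2 = 1)
    (hy : ∑ i, ‖y i‖ ^ 2 = 1) (h0 : star x ⬝ᵥ (B *ᵥ x) = 0) (h1 : star y ⬝ᵥ (B *ᵥ y) = 1)
    (t : ℝ) (ht0 : 0 ≤ t) (ht1 : t ≤ 1) : (t : ℂ) ∈ WW B := by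
  -- rotate
  obtain ⟨c, hc, hcr⟩ : ∃ c : ℂ, ‖c‖ = 1 ∧
      (c * (star x ⬝ᵥ (B *ᵥ y) - conj (star y ⬝ᵥ (B *ᵥ x)))).im = 0 := by
    generalize star x ⬝ᵥ (B *ᵥ y) - conj (star y ⬝ᵥ (B *ᵥ x)) = w
    by_cases hw : w = 0
    · exact ⟨1, by simp, by simp [hw]⟩
    · have hn : ‖w‖ ≠ 0 := norm_ne_zero_iff.2 hw
      refine ⟨conj w / (‖w‖ : ℂ), by simp [hn], ?_⟩
      rw [div_mul_eq_mul_div, Complex.conj_mul', ← Complex.ofReal_pow, ← Complex.ofReal_div,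
        Complex.ofReal_im]
  set y' := c • y with hy'
  have hcc : conj c * c = 1 := by rw [Complex.conj_mul', hc]; simp
  have hy1 : ∑ i, ‖y' i‖ ^ 2 = 1 := by simpa [hy', norm_mul, hc] using hy
  have hy2 : star y' ⬝ᵥ (B *ᵥ y') = 1 := by
    rw [hy', star_smul, Matrix.mulVec_smul, smul_dotProduct, dotProduct_smul, h1]
    simpa using hcc
  have hy3 : (star x ⬝ᵥ (B *ᵥ y') + star y' ⬝ᵥ (B *ᵥ x)).im = 0 := by
    rw [hy', star_smul, Matrix.mulVec_smul, smul_dotProduct, dotProduct_smul]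
    simp only [smul_eq_mul, Complex.star_def, Complex.add_im, Complex.mul_im, Complex.conj_re,
      Complex.conj_im, Complex.sub_re, Complex.sub_im] at hcr ⊢
    linarith
  obtain ⟨ρ, hρ⟩ : ∃ ρ : ℝ, star x ⬝ᵥ (B *ᵥ y') + star y' ⬝ᵥ (B *ᵥ x) = ρ :=
    ⟨_, (Complex.ext (by simp) (by simpa using hy3) : _ = ((star x ⬝ᵥ (B *ᵥ y') +
      star y' ⬝ᵥ (B *ᵥ x)).re : ℂ))⟩
  set ζ : ℝ → n → ℂ := fun s => ((1 - s : ℝ) : ℂ) • x + (s : ℂ) • y' with hζ
  have hval : ∀ s : ℝ, star (ζ s) ⬝ᵥ (B *ᵥ ζ s) = (((1 - s) * s * ρ + s ^ 2 : ℝ) : ℂ) := by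
    intro s
    rw [hζ]; simp only
    rw [sf_expand, h0, hy2, hρ]; push_cast; ring
  have hφ : Continuous fun s : ℝ => (1 - s) * s * ρ + s ^ 2 - t * ∑ i, ‖ζ s i‖ ^ 2 := by
    simp only [hζ, Pi.add_apply, Pi.smul_apply, smul_eq_mul]
    fun_prop
  obtain ⟨s, -, hs⟩ := intermediate_value_Icc (zero_le_one (α := ℝ)) hφ.continuousOn
    (show (0 : ℝ) ∈ Icc _ _ from ⟨by simp [hζ, hx, ht0], by simp [hζ, hy1, ht1]⟩)
  simp only at hs
  have hne : ζ s ≠ 0 := by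
    intro h
    have e1 : ((1 - s : ℝ) : ℂ) • x = -((s : ℂ) • y') := eq_neg_of_add_eq_zero_left h
    have e2 := congrArg (fun v => star v ⬝ᵥ (B *ᵥ v)) e1
    simp only [star_smul, star_neg, Matrix.mulVec_smul, Matrix.mulVec_neg, smul_dotProduct,
      dotProduct_smul, neg_dotProduct, dotProduct_neg, h0, hy2, smul_eq_mul, mul_zero, neg_neg,
      mul_one, Complex.star_def, Complex.conj_ofReal] at e2
    have hs0 : s = 0 := by
      have : (s : ℂ) * s = 0 := by linear_combination -e2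
      simpa using this
    rw [hs0] at e1
    simp only [sub_zero, Complex.ofReal_one, one_smul, Complex.ofReal_zero, zero_smul,
      neg_zero] at e1
    simp [e1] at hx
  obtain ⟨a, ha, τ, hτ, e1, e2⟩ := (nr_WW B).exists_eq hne
  rw [star_dot_self] at e1
  have e3 : ∑ i, ‖ζ s i‖ ^ 2 = τ := by exact_mod_cast e1
  rw [hval, sub_eq_zero.1 hs, e3, mul_comm, Complex.ofReal_mul] at e2
  have hτ' : (τ : ℂ) ≠ 0 := by exact_mod_cast hτ.ne'
  rw [mul_left_cancel₀ hτ' e2]; exact ha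

lemma sf_affine (A : Matrix n n ℂ) (α γ : ℂ) (x : n → ℂ) (hx : ∑ i, ‖x i‖ ^ 2 = 1) :
    star x ⬝ᵥ ((γ • (A - α • 1)) *ᵥ x) = γ * (star x ⬝ᵥ (A *ᵥ x) - α) := by
  rw [Matrix.smul_mulVec, Matrix.sub_mulVec, Matrix.smul_mulVec, Matrix.one_mulVec,
    dotProduct_smul, dotProduct_sub, dotProduct_smul, star_dot_self, hx]
  simp

/-- Toeplitz–Hausdorff -/
lemma convex_WW (A : Matrix n n ℂ) : Convex ℝ (WW A) := by
  rintro α ⟨x, hx, hα⟩ β ⟨y, hy, hβ⟩ a b ha hb hab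
  by_cases h : β = α
  · rw [h, ← add_smul, hab, one_smul]; exact ⟨x, hx, hα⟩
  have h' : β - α ≠ 0 := sub_ne_zero.2 h
  obtain ⟨z, hz, e⟩ := th_normalized ((β - α)⁻¹ • (A - α • 1)) x y hx hy
    (by rw [sf_affine _ _ _ _ hx, ← hα]; simp) (by rw [sf_affine _ _ _ _ hy, ← hβ]; field_simp)
    b hb (by linarith)
  refine ⟨z, hz, ?_⟩
  rw [sf_affine _ _ _ _ hz] at e
  have e2 : star z ⬝ᵥ (A *ᵥ z) = α + b * (β - α) := by rw [e]; field_simp; ring
  have e3 : (a : ℂ) = 1 - b := by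
    have : a = 1 - b := by linarith
    rw [this]; push_cast; ring
  rw [e2, Complex.real_smul, Complex.real_smul, e3]; ring

/-- the core estimate -/
theorem core {A : Matrix n n ℂ} {U : Set ℂ} (hU : IsOpen U) (hUc : Convex ℝ U) (hA : NR A U)
    {F : ℂ → Matrix m m ℂ} (hF : MD U F) (hFc : ∀ z ∈ U, Contr (F z)) (x y : Matrix n m ℂ)
    {b : ℂ → Matrix n m ℂ} (hb : MD U b) (h : ∀ s ∈ U, y * F s - x = (s • 1 - A) * b s) :
    hs x ≤ 4 * hs y := by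
  rcases isEmpty_or_nonempty n with hn | ⟨⟨i0⟩⟩
  · simp [hs]
  obtain ⟨z0, hz0⟩ : (WW A).Nonempty := by
    refine ⟨_, Pi.single i0 1, ?_, rfl⟩
    rw [Finset.sum_eq_single i0] <;> simp +contextual [Pi.single_apply]
  set A' := (1 : ℂ) • (A - z0 • (1 : Matrix n n ℂ)) with hA'
  set U' := (fun s => s + z0) ⁻¹' U with hU'
  have hU'o : IsOpen U' := hU.preimage (by fun_prop)
  have hU'c : Convex ℝ U' := hUc.translate_preimage_left z0
  have hA'U : NR A' U' := by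
    intro v hv
    rw [hA', sf_affine _ _ _ _ hv]
    simpa [hU'] using hA v hv
  have h0 : (0 : ℂ) ∈ WW A' := by
    obtain ⟨v, hv, e⟩ := hz0
    exact ⟨v, hv, by rw [hA', sf_affine _ _ _ _ hv, ← e]; simp⟩
  obtain ⟨δ, hδ, hδU⟩ := (isCompact_WW A').exists_cthickening_subset_open hU'o hA'U.WW_subset
  have hint : (0 : ℂ) ∈ interior (cthickening δ (WW A')) :=
    interior_maximal (thickening_subset_cthickening δ _) isOpen_thickening
      (self_subset_thickening hδ _ h0)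
  obtain ⟨q, r, r0, r1, e1, e2, e3, e4, e5, e6, e7, e8⟩ := Crest.Agent.H4.exterior_map
    (cthickening δ (WW A')) U' (isCompact_WW A').cthickening ((convex_WW A').cthickening δ) hint
    hU'o hδU
  have E : Ext (cthickening δ (WW A')) U' q r :=
    ⟨r0, r1, e1, e2, e3, e4, e5, fun w hw => e6 w hw.ge (hw ▸ r1), e7, e8⟩
  have hm : MapsTo (fun s => s + z0) U' U := fun s hs => hs
  have hd : DifferentiableOn ℂ (fun s : ℂ => s + z0) U' := by fun_prop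
  refine E.core hU'o hU'c ((nr_WW A').mono (self_subset_cthickening _)) (hF.comp hd hm)
    (fun z hz => hFc _ hz) x y (hb.comp hd hm) fun s hs => ?_
  rw [h _ hs, hA', one_smul, add_smul]
  congr 1
  abel

end Crest.Agent.H8.Crz
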