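import Mathlib

/-! Means over a circle, boundary values of holomorphic functions. -/

set_option autoImplicit false

open MeasureTheory Metric Set Complex Matrix
open scoped Real ComplexConjugate

namespace Crest.Agent.H8.Crz

/-- normalised angle measure -/
noncomputable def mu : Measure ℝ := (ENNReal.ofReal (2 * π))⁻¹ • volume.restrict (Ioc 0 (2 * π))

instance : IsProbabilityMeasure mu := by
  constructor
  have h : (0 : ℝ) < 2 * π := by positivity
  simp only [mu, Measure.smul_apply, MeasurableSet.univ, Measure.restrict_apply, univ_inter,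
    Real.volume_Ioc, sub_zero, smul_eq_mul]
  exact ENNReal.inv_mul_cancel (by simpa using Real.pi_pos) ENNReal.ofReal_ne_top

lemma integral_mu {E : Type*} [NormedAddCommGroup E] [NormedSpace ℝ E] (f : ℝ → E) :
    ∫ θ, f θ ∂mu = (2 * π)⁻¹ • ∫ θ in (0 : ℝ)..2 * π, f θ := by
  have h : (0 : ℝ) < 2 * π := by positivity
  rw [mu, integral_smul_measure, intervalIntegral.integral_of_le h.le]
  congr 1
  rw [ENNReal.toReal_inv, ENNReal.toReal_ofReal h.le]

lemma integrable_mu {E : Type*} [NormedAddCommGroup E] {f : ℝ → E} (hf : Continuous f) :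
    Integrable f mu := by
  unfold mu
  refine Integrable.smul_measure ?_ (by simpa using Real.pi_pos)
  exact (hf.integrableOn_Icc).mono_set Ioc_subset_Icc_self

lemma mu_countable {s : Set ℝ} (hs : s.Countable) : mu s = 0 := by
  have : (volume.restrict (Ioc 0 (2 * π))) s = 0 := hs.measure_zero _
  simp [mu, this]

lemma ae_circ_ne {r : ℝ} (hr : r ≠ 0) (u : ℂ) : ∀ᵐ θ ∂mu, circleMap 0 r θ ≠ u := by
  have : (circleMap 0 r ⁻¹' {u}).Countable := (countable_singleton u).preimage_circleMap 0 hr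
  rw [ae_iff]
  refine mu_countable ?_
  convert this using 1
  ext θ; simp

/-- `f` is the boundary function on the circle of radius `r` of a function holomorphic on the unit
disc, with value `z` at zero -/
def Hardy (r : ℝ) (f : ℝ → ℂ) (z : ℂ) : Prop :=
  ∃ F : ℂ → ℂ, DifferentiableOn ℂ F (ball 0 1) ∧ F 0 = z ∧ ∀ θ, f θ = F (circleMap 0 r θ)

variable {r : ℝ}

lemma circ_mem_ball (h0 : 0 < r) (h1 : r < 1) (θ : ℝ) : circleMap 0 r θ ∈ ball (0 : ℂ) 1 := by
  simp [abs_of_pos h0, h1]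

lemma circ_norm (h0 : 0 < r) (θ : ℝ) : ‖circleMap 0 r θ‖ = r := by
  simp [abs_of_pos h0]

lemma circ_ne (h0 : 0 < r) (θ : ℝ) : circleMap 0 r θ ≠ 0 := circleMap_ne_center h0.ne'

lemma cont_circ (h0 : 0 < r) (h1 : r < 1) {F : ℂ → ℂ} (hF : DifferentiableOn ℂ F (ball 0 1)) :
    Continuous fun θ => F (circleMap 0 r θ) :=
  hF.continuousOn.comp_continuous (continuous_circleMap 0 r) (circ_mem_ball h0 h1)

lemma mean_holo (h0 : 0 < r) (h1 : r < 1) {F : ℂ → ℂ} (hF : DifferentiableOn ℂ F (ball 0 1)) :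
    ∫ θ, F (circleMap 0 r θ) ∂mu = F 0 := by
  rw [integral_mu]
  have : DiffContOnCl ℂ F (ball 0 |r|) := by
    rw [abs_of_pos h0]
    refine DifferentiableOn.diffContOnCl ?_
    rw [closure_ball _ h0.ne']
    exact hF.mono (closedBall_subset_ball h1)
  exact this.circleAverage

namespace Hardy

lemma cont {f : ℝ → ℂ} {z : ℂ} (h : Hardy r f z) (h0 : 0 < r) (h1 : r < 1) : Continuous f := by
  obtain ⟨F, hF, -, hf⟩ := h
  have : f = fun θ => F (circleMap 0 r θ) := funext hf
  rw [this]; exact cont_circ h0 h1 hF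

lemma mean {f : ℝ → ℂ} {z : ℂ} (h : Hardy r f z) (h0 : 0 < r) (h1 : r < 1) :
    ∫ θ, f θ ∂mu = z := by
  obtain ⟨F, hF, hz, hf⟩ := h
  have : f = fun θ => F (circleMap 0 r θ) := funext hf
  rw [this, mean_holo h0 h1 hF, hz]

lemma const (c : ℂ) : Hardy r (fun _ => c) c :=
  ⟨fun _ => c, differentiableOn_const c, rfl, fun _ => rfl⟩

lemma add {f g : ℝ → ℂ} {z w : ℂ} (hf : Hardy r f z) (hg : Hardy r g w) :
    Hardy r (fun θ => f θ + g θ) (z + w) := by
  obtain ⟨F, hF, hz, hf⟩ := hf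
  obtain ⟨G, hG, hw, hg⟩ := hg
  exact ⟨fun x => F x + G x, hF.add hG, by simp [hz, hw], fun θ => by simp [hf, hg]⟩

lemma sub {f g : ℝ → ℂ} {z w : ℂ} (hf : Hardy r f z) (hg : Hardy r g w) :
    Hardy r (fun θ => f θ - g θ) (z - w) := by
  obtain ⟨F, hF, hz, hf⟩ := hf
  obtain ⟨G, hG, hw, hg⟩ := hg
  exact ⟨fun x => F x - G x, hF.sub hG, by simp [hz, hw], fun θ => by simp [hf, hg]⟩

lemma mul {f g : ℝ → ℂ} {z w : ℂ} (hf : Hardy r f z) (hg : Hardy r g w) :
    Hardy r (fun θ => f θ * g θ) (z * w) := by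
  obtain ⟨F, hF, hz, hf⟩ := hf
  obtain ⟨G, hG, hw, hg⟩ := hg
  exact ⟨fun x => F x * G x, hF.mul hG, by simp [hz, hw], fun θ => by simp [hf, hg]⟩

lemma sum {ι : Type*} (s : Finset ι) {f : ι → ℝ → ℂ} {z : ι → ℂ}
    (h : ∀ i ∈ s, Hardy r (f i) (z i)) : Hardy r (fun θ => ∑ i ∈ s, f i θ) (∑ i ∈ s, z i) := by
  classical
  induction s using Finset.induction_on with
  | empty => simpa using const 0
  | insert a s ha ih =>
    simp only [Finset.sum_insert ha]
    exact (h a (Finset.mem_insert_self _ _)).add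
      (ih fun i hi => h i (Finset.mem_insert_of_mem hi))

lemma congr {f g : ℝ → ℂ} {z w : ℂ} (hf : Hardy r f z) (h : ∀ θ, g θ = f θ) (hz : w = z) :
    Hardy r g w := by
  have : g = f := funext h
  rw [this, hz]; exact hf

end Hardy

/-- matrix version -/
def MH {a b : Type*} (r : ℝ) (X : ℝ → Matrix a b ℂ) (Z : Matrix a b ℂ) : Prop :=
  ∀ i j, Hardy r (fun θ => X θ i j) (Z i j)

namespace MH

variable {a b c : Type*}

lemma cont {X : ℝ → Matrix a b ℂ} {Z : Matrix a b ℂ} (h : MH r X Z) (h0 : 0 < r) (h1 : r < 1) :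
    Continuous X :=
  continuous_matrix fun i j => (h i j).cont h0 h1

lemma const (Z : Matrix a b ℂ) : MH r (fun _ => Z) Z := fun _ _ => Hardy.const _

lemma add {X Y : ℝ → Matrix a b ℂ} {Z W : Matrix a b ℂ} (hX : MH r X Z) (hY : MH r Y W) :
    MH r (fun θ => X θ + Y θ) (Z + W) := fun i j => (hX i j).add (hY i j)

lemma sub {X Y : ℝ → Matrix a b ℂ} {Z W : Matrix a b ℂ} (hX : MH r X Z) (hY : MH r Y W) :
    MH r (fun θ => X θ - Y θ) (Z - W) := fun i j => (hX i j).sub (hY i j)

lemma mul [Fintype b] {X : ℝ → Matrix a b ℂ} {Y : ℝ → Matrix b c ℂ} {Z : Matrix a b ℂ}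
    {W : Matrix b c ℂ} (hX : MH r X Z) (hY : MH r Y W) :
    MH r (fun θ => X θ * Y θ) (Z * W) := fun i j => by
  simp only [Matrix.mul_apply]
  exact Hardy.sum _ fun k _ => (hX i k).mul (hY k j)

lemma trace [Fintype a] {X : ℝ → Matrix a a ℂ} {Z : Matrix a a ℂ} (hX : MH r X Z) :
    Hardy r (fun θ => (X θ).trace) Z.trace := by
  simp only [Matrix.trace, Matrix.diag]
  exact Hardy.sum _ fun k _ => hX k k

lemma congr {X Y : ℝ → Matrix a b ℂ} {Z W : Matrix a b ℂ} (hX : MH r X Z) (h : ∀ θ, Y θ = X θ)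
    (hz : W = Z) : MH r Y W := by
  have : Y = X := funext h
  rw [this, hz]; exact hX

end MH

/-- entrywise mean -/
noncomputable def mm {a b : Type*} (X : ℝ → Matrix a b ℂ) : Matrix a b ℂ :=
  Matrix.of fun i j => ∫ θ, X θ i j ∂mu

section mm
variable {a b c : Type*}

lemma mm_apply (X : ℝ → Matrix a b ℂ) (i : a) (j : b) : mm X i j = ∫ θ, X θ i j ∂mu := rfl

lemma MH.mm_eq {X : ℝ → Matrix a b ℂ} {Z : Matrix a b ℂ} (h : MH r X Z) (h0 : 0 < r) (h1 : r < 1) :
    mm X = Z := by
  ext i j; exact (h i j).mean h0 h1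

lemma mm_add {X Y : ℝ → Matrix a b ℂ} (hX : Continuous X) (hY : Continuous Y) :
    mm (fun θ => X θ + Y θ) = mm X + mm Y := by
  ext i j
  simp only [mm_apply, Matrix.add_apply]
  exact integral_add (integrable_mu (hX.matrix_elem i j)) (integrable_mu (hY.matrix_elem i j))

lemma mm_sub {X Y : ℝ → Matrix a b ℂ} (hX : Continuous X) (hY : Continuous Y) :
    mm (fun θ => X θ - Y θ) = mm X - mm Y := by
  ext i j
  simp only [mm_apply, Matrix.sub_apply]
  exact integral_sub (integrable_mu (hX.matrix_elem i j)) (integrable_mu (hY.matrix_elem i j))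

lemma mm_smul (s : ℂ) (X : ℝ → Matrix a b ℂ) : mm (fun θ => s • X θ) = s • mm X := by
  ext i j
  simp only [mm_apply, Matrix.smul_apply, smul_eq_mul]
  exact integral_const_mul _ _

lemma mm_const_mul [Fintype b] (C : Matrix a b ℂ) {X : ℝ → Matrix b c ℂ} (hX : Continuous X) :
    mm (fun θ => C * X θ) = C * mm X := by
  ext i j
  simp only [mm_apply, Matrix.mul_apply]
  rw [integral_finsetSum]
  · exact Finset.sum_congr rfl fun k _ => integral_const_mul _ _
  · intro k _
    exact (integrable_mu (hX.matrix_elem k j)).const_mul _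

lemma mm_mul_const [Fintype b] {X : ℝ → Matrix a b ℂ} (hX : Continuous X) (C : Matrix b c ℂ) :
    mm (fun θ => X θ * C) = mm X * C := by
  ext i j
  simp only [mm_apply, Matrix.mul_apply]
  rw [integral_finsetSum]
  · exact Finset.sum_congr rfl fun k _ => integral_mul_const _ _
  · intro k _
    exact (integrable_mu (hX.matrix_elem i k)).mul_const _

lemma mm_trace [Fintype a] {X : ℝ → Matrix a a ℂ} (hX : Continuous X) :
    ∫ θ, (X θ).trace ∂mu = (mm X).trace := by
  simp only [Matrix.trace, Matrix.diag, mm_apply]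
  rw [integral_finsetSum]
  intro k _
  exact integrable_mu (hX.matrix_elem k k)

end mm

end Crest.Agent.H8.Crz
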