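import Crest.Agent.H8.CrzDual
import Crest.Agent.H4.SpecDiv

/-! The metric problem. -/

set_option autoImplicit false
set_option linter.unusedSectionVars false

open Metric Set Complex Matrix Polynomial Filter
open scoped Real ComplexConjugate ComplexOrder Topology

namespace Crest.Agent.H8.Crz

variable {n : Type*} [Fintype n] [DecidableEq n]

lemma exists_pinv {G : Matrix n n ℂ} (hG : G.IsHermitian) :
    ∃ J : Matrix n n ℂ, J.IsHermitian ∧ J * G * J = J ∧ G * J * G = G := by
  set U : Matrix n n ℂ := (hG.eigenvectorUnitary : Matrix n n ℂ) with hU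
  have h1 : Uᴴ * U = 1 := Unitary.coe_star_mul_self hG.eigenvectorUnitary
  have h2 : G = U * diagonal (fun i => (hG.eigenvalues i : ℂ)) * Uᴴ := by
    conv_lhs => rw [hG.spectral_theorem, Unitary.conjStarAlgAut_apply]
    rfl
  have hm : ∀ a b : n → ℂ, (U * diagonal a * Uᴴ) * (U * diagonal b * Uᴴ) =
      U * diagonal (fun i => a i * b i) * Uᴴ := by
    intro a b
    rw [← Matrix.diagonal_mul_diagonal]
    simp only [Matrix.mul_assoc]
    rw [← Matrix.mul_assoc Uᴴ U, h1, Matrix.one_mul]
  refine ⟨U * diagonal (fun i => (hG.eigenvalues i : ℂ)⁻¹) * Uᴴ, ?_, ?_, ?_⟩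
  · refine Matrix.isHermitian_mul_mul_conjTranspose U ?_
    rw [Matrix.isHermitian_diagonal_iff]
    intro i
    simp [IsSelfAdjoint]
  · generalize hG.eigenvalues = d at h2
    rw [h2, hm, hm]
    congr 3
    funext i
    by_cases h : (d i : ℂ) = 0
    · simp [h]
    · field_simp
  · generalize hG.eigenvalues = d at h2
    rw [h2, hm, hm]
    congr 3
    funext i
    by_cases h : (d i : ℂ) = 0
    · simp [h]
    · field_simp

/-- Schur function realisation -/
lemma exists_schur (T x y z : Matrix n n ℂ)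
    (h : x * xᴴ + z * zᴴ = y * yᴴ + T * (z * zᴴ) * Tᴴ) :
    ∃ F b : ℂ → Matrix n n ℂ, MD (ball 0 1) F ∧ MD (ball 0 1) b ∧
      (∀ w ∈ ball (0 : ℂ) 1, Contr (F w)) ∧
      ∀ w ∈ ball (0 : ℂ) 1, y * F w - x = (w • 1 - T) * b w := by
  set G := x * xᴴ + z * zᴴ with hG
  have hG2 : G = y * yᴴ + (T * z) * (T * z)ᴴ := by
    rw [h]; simp only [Matrix.conjTranspose_mul, Matrix.mul_assoc]
  have hGh : G.IsHermitian :=
    (Matrix.isHermitian_mul_conjTranspose_self x).add (Matrix.isHermitian_mul_conjTranspose_self z)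
  clear_value G
  obtain ⟨J, hJ, hJ1, hJ2⟩ := exists_pinv hGh
  have hproj : G * J * x = x ∧ G * J * z = z := by
    have e1 : (1 - G * J) * G = 0 := by rw [Matrix.sub_mul, Matrix.one_mul, hJ2, sub_self]
    have e2 : ((hs ((1 - G * J) * x) + hs ((1 - G * J) * z) : ℝ) : ℂ) = 0 := by
      have : ((1 - G * J) * G * (1 - G * J)ᴴ).trace = 0 := by rw [e1]; simp
      rw [← this]
      push_cast
      rw [← trace_self, ← trace_self, Matrix.trace_mul_comm, Matrix.trace_mul_comm _ (_ * z),
        ← Matrix.trace_add]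
      congr 1
      generalize 1 - G * J = P
      rw [hG]
      simp only [Matrix.conjTranspose_mul, Matrix.mul_assoc, Matrix.mul_add, Matrix.add_mul]
    have e3 : hs ((1 - G * J) * x) + hs ((1 - G * J) * z) = 0 := by exact_mod_cast e2
    have a1 := hs_nonneg ((1 - G * J) * x)
    have a2 := hs_nonneg ((1 - G * J) * z)
    have b1 := hs_eq_zero (X := (1 - G * J) * x) (by linarith)
    have b2 := hs_eq_zero (X := (1 - G * J) * z) (by linarith)
    rw [Matrix.sub_mul, Matrix.one_mul, sub_eq_zero] at b1 b2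
    exact ⟨b1.symm, b2.symm⟩
  set a := (T * z)ᴴ * J * z with ha
  set b := (T * z)ᴴ * J * x with hb
  set c := yᴴ * J * z with hc
  set d := yᴴ * J * x with hd
  have hz : T * z * a + y * c = z := by
    conv_rhs => rw [← hproj.2, hG2]
    simp only [ha, hc, Matrix.mul_assoc, Matrix.add_mul]
    abel
  have hx : T * z * b + y * d = x := by
    conv_rhs => rw [← hproj.1, hG2]
    simp only [hb, hd, Matrix.mul_assoc, Matrix.add_mul]
    abel
  have hV : ∀ u1 u2 : Matrix n Unit ℂ,
      hs (a * u1 + b * u2) + hs (c * u1 + d * u2) ≤ hs u1 + hs u2 := by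
    intro u1 u2
    set W := z * u1 + x * u2 with hW
    set β := J * W with hβ
    have e1 : a * u1 + b * u2 = (T * z)ᴴ * β := by
      simp only [ha, hb, hβ, hW, Matrix.mul_assoc, Matrix.mul_add]
    have e2 : c * u1 + d * u2 = yᴴ * β := by
      simp only [hc, hd, hβ, hW, Matrix.mul_assoc, Matrix.mul_add]
    have gen : ∀ p q : Matrix n n ℂ, p * pᴴ + q * qᴴ = G →
        hs (pᴴ * β) + hs (qᴴ * β) = (ip β W).re := by
      intro p q hpq
      have : ip β W = ip (pᴴ * β) (pᴴ * β) + ip (qᴴ * β) (qᴴ * β) := by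
        have e : ip β W = (βᴴ * G * β).trace := by
          rw [ip, hβ]
          simp only [Matrix.conjTranspose_mul, hJ.eq]
          have hW2 : G * (J * W) = W := by
            rw [hW]
            simp only [Matrix.mul_add, ← Matrix.mul_assoc, hproj.1, hproj.2]
          simp only [Matrix.mul_assoc, hW2]
        rw [e, ← hpq]
        simp only [ip, Matrix.conjTranspose_mul, Matrix.conjTranspose_conjTranspose,
          Matrix.mul_assoc, Matrix.mul_add, Matrix.add_mul, Matrix.trace_add]
      rw [this, Complex.add_re, ip_self_re, ip_self_re]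
    have e3 := gen y (T * z) hG2.symm
    have e4 := gen x z hG.symm
    have e5 : (ip β W).re = (ip (zᴴ * β) u1).re + (ip (xᴴ * β) u2).re := by
      rw [hW, ip_add_right, Complex.add_re]
      simp only [ip, Matrix.conjTranspose_mul, Matrix.conjTranspose_conjTranspose,
        Matrix.mul_assoc]
    have e6 := two_re_ip_le (zᴴ * β) u1
    have e7 := two_re_ip_le (xᴴ * β) u2
    rw [e1, e2]
    linarith
  clear_value a b c d
  have hdet : ∀ w ∈ ball (0 : ℂ) 1, ((1 : Matrix n n ℂ) - w • a).det ≠ 0 := by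
    intro w hw hdet
    obtain ⟨v, hv, h0⟩ := Matrix.exists_mulVec_eq_zero_iff.2 hdet
    set u : Matrix n Unit ℂ := Matrix.of fun i _ => v i with hu
    have hu0 : u ≠ 0 := fun h => hv (by ext i; exact congrFun (congrFun h i) ())
    have e1 : a * (w • u) = u := by
      rw [Matrix.sub_mulVec, Matrix.one_mulVec, sub_eq_zero] at h0
      ext i j
      have := congrFun h0 i
      simp only [Matrix.mulVec, dotProduct, Matrix.smul_apply, smul_eq_mul] at this
      simp only [hu, Matrix.mul_apply, Matrix.smul_apply, Matrix.of_apply, smul_eq_mul]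
      rw [this]
      exact Finset.sum_congr rfl fun k _ => by ring
    have e2 := hV (w • u) 0
    rw [Matrix.mul_zero, add_zero, e1, hs_smul, hs_zero] at e2
    have e3 := hs_pos hu0
    have e4 := hs_nonneg (c * w • u + d * (0 : Matrix n Unit ℂ))
    have e5 : ‖w‖ ^ 2 < 1 := by
      have := mem_ball_zero_iff.1 hw
      nlinarith [norm_nonneg w]
    nlinarith
  have hS : MD (ball 0 1) fun w : ℂ => ((1 : Matrix n n ℂ) - w • a)⁻¹ :=
    MD.inv ((MD.const _).sub (MD.smul differentiableOn_id (MD.const _))) hdet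
  have hS1 : ∀ w ∈ ball (0 : ℂ) 1, ((1 : Matrix n n ℂ) - w • a)⁻¹ =
      1 + w • (a * ((1 : Matrix n n ℂ) - w • a)⁻¹) := by
    intro w hw
    have := Matrix.mul_nonsing_inv _ (isUnit_iff_ne_zero.2 (hdet w hw))
    rw [Matrix.sub_mul, Matrix.one_mul, Matrix.smul_mul] at this
    exact eq_add_of_sub_eq this
  refine ⟨fun w => d + w • (c * (((1 : Matrix n n ℂ) - w • a)⁻¹ * b)),
    fun w => z * (((1 : Matrix n n ℂ) - w • a)⁻¹ * b),
    (MD.const _).add (MD.smul differentiableOn_id ((MD.const _).mul (hS.mul (MD.const _)))),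
    (MD.const _).mul (hS.mul (MD.const _)), fun w hw => ?_, fun w hw => ?_⟩
  · intro v
    set u : Matrix n Unit ℂ := Matrix.of fun i _ => v i with hu
    have e0 := hS1 w hw
    simp only
    generalize ((1 : Matrix n n ℂ) - w • a)⁻¹ = S at e0 ⊢
    have e1 := hV (w • (S * (b * u))) u
    have e2 : a * (w • (S * (b * u))) + b * u = S * (b * u) := by
      conv_rhs => rw [e0]
      simp only [Matrix.mul_smul, Matrix.add_mul, Matrix.one_mul, Matrix.smul_mul,
        Matrix.mul_assoc]
      abel
    have e3 : c * (w • (S * (b * u))) + d * u = (d + w • (c * (S * b))) * u := by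
      simp only [Matrix.mul_smul, Matrix.add_mul, Matrix.smul_mul, Matrix.mul_assoc]
      abel
    rw [e2, e3, hs_smul] at e1
    have e5 : ‖w‖ ^ 2 ≤ 1 := by
      have := mem_ball_zero_iff.1 hw
      nlinarith [norm_nonneg w]
    have e6 : hs ((d + w • (c * (S * b))) * u) ≤ hs u := by
      nlinarith [hs_nonneg (S * (b * u))]
    simpa [hs, hu, Matrix.mul_apply, Matrix.mulVec, dotProduct] using e6
  · have e0 := hS1 w hw
    simp only
    generalize ((1 : Matrix n n ℂ) - w • a)⁻¹ = S at e0 ⊢
    have e1 : y * c = z - T * z * a := eq_sub_of_add_eq' hz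
    have e2 : T * z * (S * b) = T * z * b + w • (T * z * a * (S * b)) := by
      conv_lhs => rw [e0]
      simp only [Matrix.mul_smul, Matrix.add_mul, Matrix.mul_add, Matrix.one_mul, Matrix.smul_mul,
        Matrix.mul_assoc]
    rw [Matrix.mul_add, Matrix.mul_smul, ← Matrix.mul_assoc y c, e1, Matrix.sub_mul, Matrix.sub_mul,
      Matrix.smul_mul, Matrix.one_mul, ← Matrix.mul_assoc T z, e2, smul_sub]
    conv_lhs => rw [← hx]
    abel

end Crest.Agent.H8.Crz
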