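import Crest.Agent.H8.CrzHS

/-! Singular pairs of a linear map between matrix spaces. -/

set_option autoImplicit false

open Complex Matrix Set Metric
open scoped ComplexConjugate ComplexOrder

namespace Crest.Agent.H8.Crz

variable {a b : Type*} [Fintype a] [Fintype b]

lemma isCompact_hs_le (c : ℝ) : IsCompact {X : Matrix a b ℂ | hs X ≤ c} := by
  have h1 : IsCompact (univ.pi fun _ : a => univ.pi fun _ : b => closedBall (0 : ℂ) (c + 1)) :=
    isCompact_univ_pi fun _ => isCompact_univ_pi fun _ => isCompact_closedBall _ _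
  refine IsCompact.of_isClosed_subset (X := Matrix a b ℂ) h1
    (isClosed_le (continuous_hs continuous_id) continuous_const) ?_
  intro X hX i _ j _
  have h2 := sq_entry_le_hs X i j
  have h3 : hs X ≤ c := hX
  rw [mem_closedBall_zero_iff]
  nlinarith [norm_nonneg (X i j), sq_nonneg (‖X i j‖ - 1)]

lemma lin_eq_zero_of_quad {α β : ℝ} (h : ∀ t : ℝ, 0 ≤ 2 * t * α + t ^ 2 * β) : α = 0 := by
  by_contra hα
  have hβ : 0 < |β| + 1 := by positivity
  have := h (-α / (|β| + 1))
  have h2 : 2 * (-α / (|β| + 1)) * α + (-α / (|β| + 1)) ^ 2 * β =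
      (α / (|β| + 1)) ^ 2 * (β - 2 * (|β| + 1)) := by
    field_simp; ring
  rw [h2] at this
  have h3 : 0 < (α / (|β| + 1)) ^ 2 := by positivity
  have h4 : β - 2 * (|β| + 1) < 0 := by
    have := le_abs_self β
    have := abs_nonneg β
    linarith
  nlinarith

lemma hs_bound_of_singular (L : Matrix a b ℂ →ₗ[ℂ] Matrix a b ℂ) (c : ℝ) (hc : 0 ≤ c)
    (H : ∀ (k : ℝ) (x y : Matrix a b ℂ), 0 < k → y ≠ 0 → L y = (k : ℂ) • x →
      (∀ z, ip x (L z) = k * ip y z) → k ^ 2 ≤ c) (y : Matrix a b ℂ) :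
    hs (L y) ≤ c * hs y := by
  have hscale : ∀ z : Matrix a b ℂ, z ≠ 0 → hs ((((√(hs z))⁻¹ : ℝ) : ℂ) • z) = 1 := by
    intro z hz
    have := hs_pos hz
    rw [hs_smul_real, inv_pow, Real.sq_sqrt this.le, inv_mul_cancel₀ this.ne']
  by_cases hy : y = 0
  · simp [hy]
  have hS : IsCompact {X : Matrix a b ℂ | hs X = 1} :=
    (isCompact_hs_le 1).of_isClosed_subset
      (isClosed_eq (continuous_hs continuous_id) continuous_const) fun X hX => le_of_eq hX
  have hL : Continuous L := L.continuous_of_finiteDimensional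
  obtain ⟨y0, hy0, hmax⟩ := hS.exists_isMaxOn ⟨_, hscale y hy⟩
    (continuous_hs hL).continuousOn
  have hy1 : hs y0 = 1 := hy0
  set lam := hs (L y0) with hlam
  have hb : ∀ z, hs (L z) ≤ lam * hs z := by
    intro z
    by_cases hz : z = 0
    · simp [hz]
    have h1 : hs (L ((((√(hs z))⁻¹ : ℝ) : ℂ) • z)) ≤ lam := hmax (hscale z hz)
    have h2 := hs_pos hz
    rw [map_smul, hs_smul_real, inv_pow, Real.sq_sqrt h2.le, inv_mul_le_iff₀ h2] at h1
    linarith
  by_cases hlc : lam ≤ c
  · exact (hb y).trans (mul_le_mul_of_nonneg_right hlc (hs_nonneg y))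
  exfalso
  have hl0 : 0 < lam := by linarith [not_le.1 hlc]
  have hre : ∀ z, lam * (ip y0 z).re - (ip (L y0) (L z)).re = 0 := by
    intro z
    refine lin_eq_zero_of_quad (β := lam * hs z - hs (L z)) fun t => ?_
    have := hb (y0 + (t : ℂ) • z)
    rw [map_add, map_smul, hs_add, hs_add, hs_smul_real, hs_smul_real, ip_smul_right,
      ip_smul_right, hy1, Complex.re_ofReal_mul, Complex.re_ofReal_mul, ← hlam] at this
    nlinarith
  have hfull : ∀ z, ip (L y0) (L z) = lam * ip y0 z := by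
    intro z
    have h1 := hre z
    have h2 := hre (I • z)
    rw [map_smul, ip_smul_right, ip_smul_right] at h2
    simp only [Complex.mul_re, Complex.I_re, Complex.I_im] at h2
    apply Complex.ext
    · simp only [Complex.re_ofReal_mul]; linarith
    · simp only [Complex.im_ofReal_mul]; linarith
  have hk : 0 < √lam := Real.sqrt_pos.2 hl0
  have hk' : ((√lam : ℝ) : ℂ) ≠ 0 := by exact_mod_cast hk.ne'
  have hkk : ((√lam : ℝ) : ℂ) * ((√lam : ℝ) : ℂ) = lam := by
    rw [← Complex.ofReal_mul, Real.mul_self_sqrt hl0.le]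
  have := H (√lam) (((√lam : ℝ) : ℂ)⁻¹ • L y0) y0 hk
    (fun h => by rw [h] at hy1; simp at hy1)
    (by rw [smul_smul, mul_inv_cancel₀ hk', one_smul])
    (fun z => by
      rw [ip_smul_left, hfull, map_inv₀, Complex.conj_ofReal, ← hkk]
      field_simp)
  rw [Real.sq_sqrt hl0.le] at this
  exact hlc this

end Crest.Agent.H8.Crz
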