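import Crest.Agent.H8.CrzKernel
import Crest.Agent.H8.CrzSing

/-! The resolvent along the curve. -/

set_option autoImplicit false

open MeasureTheory Metric Set Complex Matrix Polynomial
open scoped Real ComplexConjugate ComplexOrder

namespace Crest.Agent.H8.Crz

/-- entrywise holomorphic matrix functions -/
def MD {a b : Type*} (U : Set ℂ) (F : ℂ → Matrix a b ℂ) : Prop :=
  ∀ i j, DifferentiableOn ℂ (fun z => F z i j) U

namespace MD
variable {a b c : Type*} {U : Set ℂ}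

lemma const (Z : Matrix a b ℂ) : MD U fun _ => Z := fun _ _ => differentiableOn_const _

lemma add {F G : ℂ → Matrix a b ℂ} (hF : MD U F) (hG : MD U G) : MD U fun z => F z + G z :=
  fun i j => (hF i j).add (hG i j)

lemma sub {F G : ℂ → Matrix a b ℂ} (hF : MD U F) (hG : MD U G) : MD U fun z => F z - G z :=
  fun i j => (hF i j).sub (hG i j)

lemma smul {s : ℂ → ℂ} {F : ℂ → Matrix a b ℂ} (hs : DifferentiableOn ℂ s U) (hF : MD U F) :
    MD U fun z => s z • F z := fun i j => hs.mul (hF i j)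

lemma mul [Fintype b] {F : ℂ → Matrix a b ℂ} {G : ℂ → Matrix b c ℂ} (hF : MD U F) (hG : MD U G) :
    MD U fun z => F z * G z := fun i j => by
  simp only [Matrix.mul_apply]
  exact DifferentiableOn.fun_sum fun k _ => (hF i k).mul (hG k j)

lemma mono {V : Set ℂ} {F : ℂ → Matrix a b ℂ} (hF : MD U F) (h : V ⊆ U) : MD V F :=
  fun i j => (hF i j).mono h

lemma comp {V : Set ℂ} {F : ℂ → Matrix a b ℂ} (hF : MD U F) {f : ℂ → ℂ}
    (hf : DifferentiableOn ℂ f V) (h : MapsTo f V U) : MD V fun z => F (f z) :=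
  fun i j => (hF i j).comp hf h

lemma det [Fintype a] [DecidableEq a] {F : ℂ → Matrix a a ℂ} (hF : MD U F) :
    DifferentiableOn ℂ (fun z => (F z).det) U := by
  simp only [Matrix.det_apply']
  refine DifferentiableOn.fun_sum fun σ _ => DifferentiableOn.const_mul ?_ _
  exact DifferentiableOn.fun_finsetProd fun i _ => hF _ _

lemma adjugate [Fintype a] [DecidableEq a] {F : ℂ → Matrix a a ℂ} (hF : MD U F) :
    MD U fun z => (F z).adjugate := fun i j => by
  simp only [Matrix.adjugate_apply]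
  refine MD.det fun k l => ?_
  simp only [Matrix.updateRow_apply]
  split_ifs
  · exact differentiableOn_const _
  · exact hF _ _

lemma inv [Fintype a] [DecidableEq a] {F : ℂ → Matrix a a ℂ} (hF : MD U F)
    (h : ∀ z ∈ U, (F z).det ≠ 0) : MD U fun z => (F z)⁻¹ := by
  simp only [Matrix.inv_def, Ring.inverse_eq_inv']
  exact MD.smul (hF.det.inv h) hF.adjugate

lemma cont {F : ℂ → Matrix a b ℂ} (hF : MD U F) {g : ℝ → ℂ} (hg : Continuous g)
    (h : ∀ θ, g θ ∈ U) : Continuous fun θ => F (g θ) :=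
  continuous_matrix fun i j => (hF i j).continuousOn.comp_continuous hg h

end MD

variable {n : Type*} [Fintype n] [DecidableEq n]

/-- division of `s(z) - s(A)` by `z - A` -/
lemma poly_div (A : Matrix n n ℂ) (s : ℂ[X]) : ∃ D : ℂ → Matrix n n ℂ, MD univ D ∧
    (∀ z, s.eval z • (1 : Matrix n n ℂ) - aeval A s = D z * (z • 1 - A)) ∧
    (∀ z, s.eval z • (1 : Matrix n n ℂ) - aeval A s = (z • 1 - A) * D z) := by
  induction s using Polynomial.induction_on with
  | C a =>
    refine ⟨fun _ => 0, MD.const _, fun z => ?_, fun z => ?_⟩ <;>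
      simp [Algebra.algebraMap_eq_smul_one]
  | add p q hp hq =>
    obtain ⟨D, hD, h1, h2⟩ := hp
    obtain ⟨D', hD', h1', h2'⟩ := hq
    refine ⟨fun z => D z + D' z, hD.add hD', fun z => ?_, fun z => ?_⟩
    · rw [Matrix.add_mul, ← h1, ← h1', eval_add, map_add, add_smul]; abel
    · rw [Matrix.mul_add, ← h2, ← h2', eval_add, map_add, add_smul]; abel
  | monomial k a h =>
    obtain ⟨D, hD, h1, h2⟩ := h
    refine ⟨fun z => z • D z + aeval A (C a * X ^ k),
      (MD.smul differentiableOn_id hD).add (MD.const _), fun z => ?_, fun z => ?_⟩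
    · rw [Matrix.add_mul, Matrix.smul_mul, ← h1, pow_succ, ← mul_assoc, eval_mul, map_mul,
        eval_X, aeval_X, Matrix.mul_sub, Matrix.mul_smul, Matrix.mul_one, smul_sub, smul_smul,
        mul_comm z]
      abel
    · rw [Matrix.mul_add, Matrix.mul_smul, ← h2, pow_succ', ← mul_assoc, mul_comm (C a) X,
        mul_assoc, eval_mul, map_mul,
        eval_X, aeval_X, Matrix.sub_mul, Matrix.smul_mul, Matrix.one_mul, smul_sub, smul_smul]
      abel

/-- the numerical range of `A` lies in `K` -/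
def NR (A : Matrix n n ℂ) (K : Set ℂ) : Prop :=
  ∀ x : n → ℂ, ∑ i, ‖x i‖ ^ 2 = 1 → star x ⬝ᵥ (A *ᵥ x) ∈ K

lemma star_dot_self (x : n → ℂ) : star x ⬝ᵥ x = ((∑ i, ‖x i‖ ^ 2 : ℝ) : ℂ) := by
  simp only [dotProduct, Pi.star_apply]
  push_cast
  exact Finset.sum_congr rfl fun i _ => Complex.conj_mul' _

lemma NR.exists_eq {A : Matrix n n ℂ} {K : Set ℂ} (h : NR A K) {x : n → ℂ} (hx : x ≠ 0) :
    ∃ a ∈ K, ∃ t : ℝ, 0 < t ∧ star x ⬝ᵥ x = t ∧ star x ⬝ᵥ (A *ᵥ x) = t * a := by
  set t : ℝ := ∑ i, ‖x i‖ ^ 2 with ht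
  have ht0 : 0 < t := by
    obtain ⟨i, hi⟩ := Function.ne_iff.1 hx
    exact Finset.sum_pos' (fun _ _ => by positivity)
      ⟨i, Finset.mem_univ _, by have := norm_pos_iff.2 hi; positivity⟩
  have hs : 0 < √t := Real.sqrt_pos.2 ht0
  have h1 := h ((((√t)⁻¹ : ℝ) : ℂ) • x) (by
    simp only [Pi.smul_apply, smul_eq_mul, norm_mul, mul_pow, ← Finset.mul_sum, ← ht,
      Complex.norm_real, Real.norm_eq_abs, sq_abs, inv_pow, Real.sq_sqrt ht0.le]
    exact inv_mul_cancel₀ ht0.ne')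
  refine ⟨_, h1, t, ht0, star_dot_self x, ?_⟩
  rw [star_smul, Matrix.mulVec_smul, smul_dotProduct, dotProduct_smul]
  simp only [smul_eq_mul, Complex.star_def, Complex.conj_ofReal]
  have h2 : (t : ℂ) = (√t : ℝ) * (√t : ℝ) := by
    rw [← Complex.ofReal_mul, Real.mul_self_sqrt ht0.le]
  have h3 : ((√t : ℝ) : ℂ) ≠ 0 := by exact_mod_cast hs.ne'
  conv_rhs => rw [h2]
  push_cast
  field_simp

lemma NR.det_ne {A : Matrix n n ℂ} {K : Set ℂ} (h : NR A K) {z : ℂ} (hz : z ∉ K) :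
    (z • (1 : Matrix n n ℂ) - A).det ≠ 0 := by
  intro hd
  obtain ⟨v, hv, h0⟩ := Matrix.exists_mulVec_eq_zero_iff.2 hd
  obtain ⟨a, ha, t, ht, h1, h2⟩ := h.exists_eq hv
  rw [Matrix.sub_mulVec, Matrix.smul_mulVec, Matrix.one_mulVec, sub_eq_zero] at h0
  rw [← h0, dotProduct_smul, h1, smul_eq_mul, mul_comm] at h2
  have ht' : (t : ℂ) ≠ 0 := by exact_mod_cast ht.ne'
  exact hz (mul_left_cancel₀ ht' h2 ▸ ha)

variable {K U : Set ℂ} {q : ℂ → ℂ} {r : ℝ}

/-- properties of the resolvent along the curve -/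
structure Res (A : Matrix n n ℂ) (q : ℂ → ℂ) (r : ℝ) (R : ℝ → Matrix n n ℂ) : Prop where
  hol : MH r R 1
  left : ∀ θ, R θ * (gg q r θ • 1 - A) = nu q r θ • 1
  right : ∀ θ, (gg q r θ • 1 - A) * R θ = nu q r θ • 1
  psd : ∀ θ, (R θ + (R θ)ᴴ).PosSemidef

lemma Ext.exists_res (E : Ext K U q r) {A : Matrix n n ℂ} (hA : NR A K) : ∃ R, Res A q r R := by
  have h0 := E.r0
  have h1 := E.r1
  have hfac : ∀ w : ℂ, w ≠ 0 → q w • (1 : Matrix n n ℂ) - w • A = w • ((q w / w) • 1 - A) := by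
    intro w hw
    rw [smul_sub, smul_smul, mul_div_cancel₀ _ hw]
  have hdet : ∀ w ∈ ball (0 : ℂ) 1, (q w • (1 : Matrix n n ℂ) - w • A).det ≠ 0 := by
    intro w hw
    by_cases hw0 : w = 0
    · simp [hw0, E.q0]
    · rw [hfac w hw0, Matrix.det_smul]
      exact mul_ne_zero (pow_ne_zero _ hw0) (hA.det_ne (E.notK w hw hw0))
  have hM : MD (ball 0 1) fun w => (q w - w * deriv q w) • (q w • (1 : Matrix n n ℂ) - w • A)⁻¹ :=
    MD.smul E.hol_dq (MD.inv ((MD.smul E.hol (MD.const _)).sub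
      (MD.smul differentiableOn_id (MD.const _))) hdet)
  set R : ℝ → Matrix n n ℂ := fun θ => (q (circleMap 0 r θ) - circleMap 0 r θ *
    deriv q (circleMap 0 r θ)) • (q (circleMap 0 r θ) • (1 : Matrix n n ℂ) -
      circleMap 0 r θ • A)⁻¹ with hR
  have hinv : ∀ θ, gg q r θ • (1 : Matrix n n ℂ) - A = (circleMap 0 r θ)⁻¹ •
      (q (circleMap 0 r θ) • (1 : Matrix n n ℂ) - circleMap 0 r θ • A) := by
    intro θ
    rw [hfac _ (circ_ne h0 θ), smul_smul, inv_mul_cancel₀ (circ_ne h0 θ), one_smul]; rfl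
  have hl : ∀ θ, R θ * (gg q r θ • 1 - A) = nu q r θ • 1 := by
    intro θ
    rw [hinv, hR]
    simp only
    rw [Matrix.smul_mul, Matrix.mul_smul,
      Matrix.nonsing_inv_mul _ (isUnit_iff_ne_zero.2 (hdet _ (circ_mem_ball h0 h1 θ))), smul_smul,
      nu, div_eq_mul_inv]
  have hr : ∀ θ, (gg q r θ • 1 - A) * R θ = nu q r θ • 1 := by
    intro θ
    rw [hinv, hR]
    simp only
    rw [Matrix.smul_mul, Matrix.mul_smul,
      Matrix.mul_nonsing_inv _ (isUnit_iff_ne_zero.2 (hdet _ (circ_mem_ball h0 h1 θ))), smul_smul,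
      nu, div_eq_inv_mul]
  refine ⟨R, fun i j => ⟨_, hM i j, ?_, fun θ => rfl⟩, hl, hr, fun θ => ?_⟩
  · have := E.q0
    simp only [zero_mul, sub_zero, zero_smul]
    have h2 : (q 0 • (1 : Matrix n n ℂ))⁻¹ = (q 0)⁻¹ • 1 := by
      apply Matrix.inv_eq_left_inv
      rw [Matrix.smul_mul, Matrix.one_mul, smul_smul, inv_mul_cancel₀ this, one_smul]
    rw [h2, smul_smul, mul_inv_cancel₀ this, one_smul]
  · set ν := nu q r θ with hν
    set G := gg q r θ • (1 : Matrix n n ℂ) - A with hG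
    have hν0 : ν ≠ 0 := div_ne_zero (E.dne _ (circ_mem_ball h0 h1 θ)) (circ_ne h0 θ)
    have hN : (conj ν • G + ν • Gᴴ).PosSemidef := by
      refine Matrix.PosSemidef.of_dotProduct_mulVec_nonneg ?_ fun x => ?_
      · simp [Matrix.IsHermitian, add_comm]
      · by_cases hx : x = 0
        · simp [hx]
        obtain ⟨a, ha, t, ht, e1, e2⟩ := hA.exists_eq hx
        have e3 : star x ⬝ᵥ (G *ᵥ x) = t * (gg q r θ - a) := by
          rw [hG, Matrix.sub_mulVec, Matrix.smul_mulVec, Matrix.one_mulVec, dotProduct_sub,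
            dotProduct_smul, e1, e2, smul_eq_mul]; ring
        have e4 : star x ⬝ᵥ (Gᴴ *ᵥ x) = conj (t * (gg q r θ - a)) := by
          rw [← e3, Matrix.dotProduct_mulVec, ← Matrix.star_mulVec, Complex.star_def.symm,
            ← star_dotProduct]
        have e5 := E.posK _ (circ_mem_ball h0 h1 θ) (circ_ne h0 θ) a ha
        change 0 ≤ (conj ν * (gg q r θ - a)).re at e5
        rw [Matrix.add_mulVec, Matrix.smul_mulVec, Matrix.smul_mulVec, dotProduct_add,
          dotProduct_smul, dotProduct_smul, e3, e4, smul_eq_mul, smul_eq_mul]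
        have e6 : conj ν * (t * (gg q r θ - a)) + ν * conj (t * (gg q r θ - a)) =
            ((2 * (t * (conj ν * (gg q r θ - a)).re) : ℝ) : ℂ) := by
          have : ν * conj (t * (gg q r θ - a)) = conj (conj ν * (t * (gg q r θ - a))) := by
            rw [map_mul (starRingEnd ℂ) (conj ν), Complex.conj_conj]
          rw [this, Complex.add_conj, mul_left_comm, Complex.re_ofReal_mul]
        rw [e6]
        exact Complex.zero_le_real.2 (by positivity)
    have h3 := (hN.conjTranspose_mul_mul_same (R θ)).smul (a := ((‖ν‖ ^ 2)⁻¹ : ℝ))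
      (by positivity)
    convert h3 using 1
    have e1 : (R θ)ᴴ * Gᴴ = conj ν • 1 := by
      rw [← Matrix.conjTranspose_mul, hG, hr θ]; simp [hν]
    have e2 : G * R θ = ν • 1 := hr θ
    have e3 : (‖ν‖ ^ 2 : ℝ) ≠ 0 := by have := norm_pos_iff.2 hν0; positivity
    generalize R θ = S at e1 e2 ⊢
    rw [Matrix.mul_add, Matrix.add_mul, Matrix.mul_smul, Matrix.mul_smul, Matrix.smul_mul,
      Matrix.smul_mul, e1, Matrix.mul_assoc, e2, Matrix.mul_smul, Matrix.smul_mul, Matrix.mul_one,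
      Matrix.one_mul, smul_smul, smul_smul, Complex.conj_mul', Complex.mul_conj', ← smul_add,
      ← Complex.ofReal_pow, Complex.coe_smul, smul_smul, inv_mul_cancel₀ e3, one_smul, add_comm]

end Crest.Agent.H8.Crz
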