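import Crest.Agent.H3.IMFld
import Crest.Agent.H3.IMArith
import Crest.Agent.H6.CCList

set_option autoImplicit false
set_option linter.unusedSectionVars false
set_option linter.unusedVariables false
set_option linter.unusedSimpArgs false

/-! Row 326: permutations with few non-fixed points (`FixStmt`). -/

namespace Crest.Agent.H8.IM
open Crest.Agent.H3.Ptime Crest.Agent.H9.IM

section
variable {Q : Type} [Enc Q]

def gen (σ ς : Q → ℕ → ℕ) (b : Bool) (s : Q × ℕ) (c : List ℕ) : (Q × ℕ) × List (ℕ × List ℕ) :=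
  ((s.1, s.2 + 1), bif Bool.xor (decide (σ s.1 s.2 = s.2)) b then [] else [(ς s.1 s.2, c)])

theorem gen_run (σ ς : Q → ℕ → ℕ) (b : Bool) (q : Q) (l : Arr) (s : ℕ) :
    (mapAcc (gen σ ς b) (q, s) l).2 = ((l.zipIdx s).filter
      (fun x => !Bool.xor (decide (σ q x.2 = x.2)) b)).map (fun x => (ς q x.2, x.1)) := by
  induction l generalizing s with
  | nil => rfl
  | cons c l ih =>
    simp only [mapAcc, gen, List.zipIdx_cons, List.filter_cons]
    rw [show (mapAcc (gen σ ς b) (q, s + 1) l).2 = _ from ih (s + 1)]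
    cases Bool.xor (decide (σ q s = s)) b <;> simp

theorem zipIdx_eq (A : Arr) (z : List ℕ) :
    A.zipIdx 0 = (List.range A.length).map (fun j => (A.getD j z, j)) := by
  refine List.ext_getElem (by simp) (fun n h1 h2 => ?_)
  simp at h1
  simp [List.getD, h1]

def part (σ ς : Q → ℕ → ℕ) (b : Bool) (q : Q) (A : Arr) : List (ℕ × List ℕ) :=
  (mapAcc (gen σ ς b) (q, 0) A).2

theorem part_eq (σ ς : Q → ℕ → ℕ) (b : Bool) (q : Q) (A : Arr) (z : List ℕ) :
    part σ ς b q A = ((List.range A.length).filter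
      (fun j => !Bool.xor (decide (σ q j = j)) b)).map (fun j => (ς q j, A.getD j z)) := by
  unfold part
  rw [gen_run, zipIdx_eq A z, List.filter_map, List.map_map]; rfl

theorem range_perm {σ ς : ℕ → ℕ} {N : ℕ} (h : ∀ i < N, σ i < N ∧ ς (σ i) = i) :
    ((List.range N).map σ).Perm (List.range N) := by
  refine (List.subperm_of_subset (List.nodup_range.map_on (fun x hx y hy e => ?_))
    (fun x hx => ?_)).perm_of_length_le (by simp)
  · rw [← (h x (by simpa using hx)).2, e, (h y (by simpa using hy)).2]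
  · obtain ⟨y, hy, rfl⟩ := List.mem_map.1 hx
    simpa using (h y (by simpa using hy)).1

theorem inv_lt {σ ς : ℕ → ℕ} {N : ℕ} (h : ∀ i < N, σ i < N ∧ ς (σ i) = i) {j : ℕ} (hj : j < N) :
    ς j < N ∧ σ (ς j) = j := by
  obtain ⟨i, hi, rfl⟩ := List.mem_map.1 ((range_perm h).mem_iff.2 (List.mem_range.2 hj))
  rw [(h i (by simpa using hi)).2]; exact ⟨by simpa using hi, rfl⟩

theorem fix_eq (σ ς : Q → ℕ → ℕ) (q : Q) (A : Arr) (S : List (ℕ × List ℕ))
    (h : ∀ i < A.length, σ q i < A.length ∧ ς q (σ q i) = i) (h1 : S.Perm (part σ ς false q A))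
    (h2 : S.Pairwise (fun a b => a.1 ≤ b.1)) :
    (List.merge (part σ ς true q A) S (fun a b => decide (a.1 ≤ b.1))).map Prod.snd =
      pullN A.length (σ q) A := by
  have e : List.merge (part σ ς true q A) S (fun a b => decide (a.1 ≤ b.1)) =
      (List.range A.length).map (fun i => (i, A.getD (σ q i) (zc A))) := by
    have hp : (List.merge (part σ ς true q A) S (fun a b => decide (a.1 ≤ b.1))).Perm
        ((List.range A.length).map (fun i => (i, A.getD (σ q i) (zc A)))) := by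
      refine (List.merge_perm_append _).trans ((h1.append_left _).trans ?_)
      rw [part_eq _ _ _ _ _ (zc A), part_eq _ _ _ _ _ (zc A), ← List.map_append]
      have := List.filter_append_perm (fun j => !Bool.xor (decide (σ q j = j)) true)
        (List.range A.length)
      simp only [Bool.xor_true, Bool.not_not, Bool.xor_false] at this ⊢
      refine ((this.trans (range_perm h).symm).map _).trans ?_
      rw [List.map_map]
      refine List.Perm.of_eq (List.map_congr_left (fun i hi => ?_))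
      simp [(h i (by simpa using hi)).2]
    refine List.Perm.eq_of_pairwise (le := fun a b => decide (a.1 ≤ b.1) = true)
      (fun a b ha hb h1 h2 => ?_) (List.pairwise_merge (fun a b c => by simp; omega)
        (fun a b => by simp; omega) _ _ ?_ (by simpa using h2)) ?_ hp
    · obtain ⟨i, -, rfl⟩ := List.mem_map.1 (hp.mem_iff.1 ha)
      obtain ⟨j, -, rfl⟩ := List.mem_map.1 hb
      simp at h1 h2
      rw [le_antisymm h1 h2]
    · rw [part_eq _ _ _ _ _ (zc A), List.pairwise_map]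
      refine ((List.pairwise_lt_range (n := A.length)).filter _).imp_of_mem
        (fun {a b} ha hb hab => ?_)
      simp at ha hb
      have e1 := (h a ha.1).2
      have e2 := (h b hb.1).2
      rw [ha.2] at e1; rw [hb.2] at e2
      simp [e1, e2, hab.le]
    · rw [List.pairwise_map]
      exact (List.pairwise_lt_range (n := A.length)).imp (fun h => by simpa using h.le)
  rw [e, List.map_map]; rfl

theorem sz_cell {V w : ℕ} {c : List ℕ} (h : c.length = V ∧ ∀ x ∈ c, x < 2 ^ w) :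
    sz c ≤ 5 * (V * (w + 1)) + 1 := by
  have := sz_le_mul c (4 * w + 4) (fun x hx => (sz_nat_le x).trans (by
    have := Nat.size_le.2 (h.2 x hx); omega))
  rw [h.1] at this
  nlinarith

theorem sz_idx {i Λ : ℕ} (h : i ≤ 2 ^ Λ) : sz i ≤ 4 * Λ + 8 := by
  have := sz_nat_le i
  have : i.size ≤ Λ + 1 := Nat.size_le.2 (by rw [pow_succ]; have := Nat.two_pow_pos Λ; omega)
  omega

theorem cost_nat {N V w Λ k T : ℕ} {X : ℝ} (hX : 0 ≤ X)
    (h : (N + 1 : ℝ) * (V * (w + 1 : ℝ) ^ (1 + gam) * (X + 1) + (Λ : ℝ) ^ k) ≤ T) :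
    (N + 1) * (V * (w + 1) + Λ ^ k) ≤ T := by
  have h1 : (w + 1 : ℝ) ≤ (w + 1 : ℝ) ^ (1 + gam) := by
    conv_lhs => rw [← Real.rpow_one (w + 1 : ℝ)]
    exact Real.rpow_le_rpow_of_exponent_le (by simp) (by unfold gam; simp)
  have h2 : (V : ℝ) * (w + 1) ≤ V * (w + 1 : ℝ) ^ (1 + gam) * (X + 1) := by
    have : (0 : ℝ) ≤ V * (w + 1 : ℝ) ^ (1 + gam) := by positivity
    have : (V : ℝ) * (w + 1) ≤ V * (w + 1 : ℝ) ^ (1 + gam) := by gcongr
    nlinarith
  have : ((N + 1 : ℝ)) * (V * (w + 1) + (Λ : ℝ) ^ k) ≤ T := le_trans (by gcongr) h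
  exact_mod_cast this

theorem cc_part {σ ς : Q → ℕ → ℕ} (h1 : PT (fun x : Q × ℕ => σ x.1 x.2))
    (h2 : PT (fun x : Q × ℕ => ς x.1 x.2)) (b : Bool) : ∃ k, ∀ k' ≥ k,
    CC (fun x : Q × Arr => part σ ς b x.1 x.2) (fun x T => ∃ Λ, sz x.1 ≤ Λ ∧ x.2.length ≤ 2 ^ Λ ∧
      2 ≤ Λ ∧ x.2.length * Λ ^ k' ≤ T) := by
  obtain ⟨k, hk⟩ := CC.ofPT (h1.pair h2)
  refine ⟨k + 1, fun k' hk' => ?_⟩
  have hs : CC (fun p : (Q × ℕ) × List ℕ => (σ p.1.1 p.1.2, ς p.1.1 p.1.2))
      (fun p T => sz p.1 ^ k ≤ T) := hk.comp2 (f := fun p : (Q × ℕ) × List ℕ => p.1)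
        (by fun_prop) (fun _ _ h => h)
  have hs1 := hs.fst
  have hs2 := hs.snd
  have hg : CC (fun p : (Q × ℕ) × List ℕ => gen σ ς b p.1 p.2) (fun p T => sz p.1 ^ k ≤ T) := by
    unfold gen
    exact CC.pair (by fun_prop) (CC.cond (CC.xor (CC.eq hs1 (by fun_prop)) (by fun_prop))
      (by fun_prop) (CC.cons (CC.pair hs2 (by fun_prop)) (by fun_prop)))
  refine (hg.mapAcc.comp3 (f := fun x : Q × Arr => ((x.1, 0), x.2)) (by fun_prop) (10 ^ k + 10)
    (fun x T ⟨Λ, a1, a2, a3, a4⟩ => ⟨_, AccRun.of_inv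
      (fun s l => s.1 = x.1 ∧ s.2 + l.length = x.2.length) (fun _ => (10 ^ k + 10) * Λ ^ k')
      ?_ _ _ ⟨rfl, by simp⟩, ?_⟩)).snd
  · rintro s c l ⟨b1, b2⟩
    refine ⟨⟨b1, by simp [gen] at b2 ⊢; omega⟩, _, le_rfl, ?_⟩
    have : sz s ≤ 10 * Λ := by
      have e1 : sz s = _ := sz_pair s.1 s.2
      have := sz_idx (i := s.2) (Λ := Λ) (by omega)
      rw [b1] at e1
      omega
    have c1 : sz s ^ k ≤ 10 ^ k * Λ ^ k' := by
      refine (Nat.pow_le_pow_left this k).trans ?_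
      rw [mul_pow]
      exact Nat.mul_le_mul_left _ (Nat.pow_le_pow_right (by omega) (by omega))
    have c2 : Λ ≤ Λ ^ k' := Nat.le_self_pow (by omega) _
    simp only
    rw [add_mul]; omega
  · simp only [List.map_const', List.sum_replicate, smul_eq_mul]
    rw [mul_left_comm]
    exact Nat.mul_le_mul_left _ (by omega)

theorem bd_pull {V w : ℕ} {A : Arr} (h : Bd V w A) (n : ℕ) (π : ℕ → ℕ)
    (hπ : ∀ i < n, π i < A.length) : Bd V w (pullN n π A) := by
  intro c hc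
  obtain ⟨i, hi, rfl⟩ := List.mem_map.1 hc
  have := hπ i (by simpa using hi)
  rw [List.getD_eq_getElem _ _ this]
  exact h _ (List.getElem_mem _)

end

theorem fixStmt (hC : CoreStmt) (hS : SortStmt) : FixStmt := by
  intro Q _ σ ς h1 h2
  refine ⟨?_, fun q N h i hi => (h.1 i hi).1⟩
  obtain ⟨srt, k3, hs1, hs2⟩ := hS
  obtain ⟨k1, hp1⟩ := cc_part h1 h2 true
  obtain ⟨k2, hp2⟩ := cc_part h1 h2 false
  refine ⟨k1 + k2 + k3 + 1, ?_, fun q V w A hP hB => ⟨bd_pull hB _ _ (fun i hi => (hP.1 i hi).1),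
    by simp [pullN]; nlinarith⟩⟩
  set k := k1 + k2 + k3 + 1 with hk
  set S : Q × Arr → ℕ → Prop := fun x T => ∃ V w Λ : ℕ,
    ((∀ i < x.2.length, σ x.1 i < x.2.length ∧ ς x.1 (σ x.1 i) = i) ∧
      ((Finset.range x.2.length).filter (fun i => σ x.1 i ≠ i)).card *
        (Nat.log 2 x.2.length + 1) ≤ x.2.length) ∧ Bd V w x.2 ∧ sz x.1 ≤ Λ ∧ x.2.length ≤ 2 ^ Λ ∧
      2 ≤ Λ ∧ x.2.length * (V * (w + 1) + Λ ^ k) ≤ T with hSd
  have hsz : ∀ (b : Bool) (x : Q × Arr) (V w Λ : ℕ),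
      (∀ i < x.2.length, σ x.1 i < x.2.length ∧ ς x.1 (σ x.1 i) = i) → Bd V w x.2 →
      x.2.length ≤ 2 ^ Λ → 2 ≤ Λ → ∀ y ∈ part σ ς b x.1 x.2, sz y.1 ≤ 8 * Λ ∧
        sz y ≤ 9 * (V * (w + 1) + Λ ^ k) := by
    intro b x V w Λ a1 a2 a3 a4 y hy
    rw [part_eq _ _ _ _ _ []] at hy
    obtain ⟨j, hj, rfl⟩ := List.mem_map.1 hy
    have hj' : j < x.2.length := by simpa using (List.mem_filter.1 hj).1
    have e1 := sz_idx (i := ς x.1 j) (Λ := Λ) (by have := (inv_lt a1 hj').1; omega)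
    have e2 := sz_cell (a2 _ (List.getElem_mem hj'))
    have c2 : Λ ≤ Λ ^ k := Nat.le_self_pow (by omega) _
    rw [sz_pair, List.getD_eq_getElem _ _ hj']
    simp only
    constructor <;> omega
  have c1 : CC (fun x : Q × Arr => part σ ς true x.1 x.2) S :=
    (hp1 k (by omega)).mono (fun x T ⟨V, w, Λ, _, _, a1, a2, a3, a4⟩ =>
      ⟨Λ, a1, a2, a3, le_trans (Nat.mul_le_mul_left _ (by omega)) a4⟩)
  have c2 : CC (fun x : Q × Arr => part σ ς false x.1 x.2) S :=
    (hp2 k (by omega)).mono (fun x T ⟨V, w, Λ, _, _, a1, a2, a3, a4⟩ =>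
      ⟨Λ, a1, a2, a3, le_trans (Nat.mul_le_mul_left _ (by omega)) a4⟩)
  have c3 : CC (fun x : Q × Arr => srt (part σ ς false x.1 x.2)) S := by
    refine hs2.comp3 c2 (9 + 9 ^ k3) (fun x T ⟨V, w, Λ, ⟨b1, b2⟩, b3, a1, a2, a3, a4⟩ =>
      ⟨_, ⟨8 * Λ, _, hsz false x V w Λ b1 b3 a2 a3, le_rfl⟩, ?_⟩)
    have e : (part σ ς false x.1 x.2).length =
        ((Finset.range x.2.length).filter (fun i => σ x.1 i ≠ i)).card := by
      rw [part_eq _ _ _ _ _ [], List.length_map, ← List.toFinset_range,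
        List.nodup_range.card_eq_countP, List.countP_eq_length_filter]
      simp
    have e' : (part σ ς false x.1 x.2).length ≤ x.2.length := by
      rw [e]; exact (Finset.card_filter_le _ _).trans (by simp)
    rw [← e] at b2
    have d1 : (Nat.log 2 (part σ ς false x.1 x.2).length + 1) * (part σ ς false x.1 x.2).length
        ≤ x.2.length := by
      rw [mul_comm]
      exact le_trans (Nat.mul_le_mul_left _ (Nat.add_le_add_right (Nat.log_mono_right e') _)) b2
    have d2 : (8 * Λ + 2) ^ k3 ≤ 9 ^ k3 * (V * (w + 1) + Λ ^ k) := by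
      refine (Nat.pow_le_pow_left (show 8 * Λ + 2 ≤ 9 * Λ by omega) _).trans ?_
      rw [mul_pow]
      exact Nat.mul_le_mul_left _ ((Nat.pow_le_pow_right (by omega) (by omega)).trans
        (Nat.le_add_left _ _))
    calc _ ≤ x.2.length * ((9 + 9 ^ k3) * (V * (w + 1) + Λ ^ k)) :=
          Nat.mul_le_mul d1 (by rw [add_mul]; omega)
      _ ≤ _ := by rw [mul_left_comm]; exact Nat.mul_le_mul_left _ (by omega)
  have hle : CC (fun p : (ℕ × List ℕ) × (ℕ × List ℕ) => decide (p.1.1 ≤ p.2.1)) (fun _ _ => True) := by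
    fun_prop
  have c4 : CC (fun x : Q × Arr => List.merge (part σ ς true x.1 x.2)
      (srt (part σ ς false x.1 x.2)) (fun a b => decide (a.1 ≤ b.1))) S := by
    refine (hC.merge hle).comp3 (c1.pair c3) 9
      (fun x T ⟨V, w, Λ, ⟨b1, b2⟩, b3, a1, a2, a3, a4⟩ => ⟨_, ⟨0, 9 * (V * (w + 1) + Λ ^ k),
        fun _ _ _ _ => trivial, fun y hy => ?_, le_rfl⟩, ?_⟩)
    · rcases List.mem_append.1 hy with hy | hy
      · exact (hsz true x V w Λ b1 b3 a2 a3 y hy).2
      · exact (hsz false x V w Λ b1 b3 a2 a3 y ((hs1 _).1.mem_iff.1 hy)).2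
    · have := congrArg List.length (fix_eq σ ς x.1 x.2 _ b1 (hs1 _).1 (hs1 _).2)
      simp only [List.length_map, List.length_merge, pullN, List.length_range] at this
      simp only [this, zero_add]
      rw [mul_left_comm]; exact Nat.mul_le_mul_left _ (by omega)
  have c5 := (c4.mapL (f := Prod.snd) (by fun_prop)).congr
    (g := fun x : Q × Arr => pullN x.2.length (σ x.1) x.2)
    (fun x T ⟨V, w, Λ, ⟨b1, b2⟩, _⟩ => fix_eq σ ς x.1 x.2 _ b1 (hs1 _).1 (hs1 _).2)
  refine c5.mono (fun x T ⟨V, w, Λ, a1, a2, a3, a4, a5, a6, a7, a8⟩ =>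
    ⟨V, w, Λ, a1, a2, a3, a5, a6, ?_⟩)
  exact le_trans (Nat.mul_le_mul_right _ (Nat.le_succ _)) (cost_nat a7 a8)

end Crest.Agent.H8.IM
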