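import Crest.Agent.H8.IMLayA

set_option autoImplicit false
set_option linter.unusedSectionVars false
set_option linter.unusedVariables false
set_option linter.unusedSimpArgs false

/-! Row 326: the layout permutation (`LayStmt`). -/

namespace Crest.Agent.H8.IM
open Crest.Agent.H3.Ptime Crest.Agent.H9.IM Finset

def PP (q : TQ) (l : ℕ) : ℕ := q.2.1 * (q.2.2.1.take l).prod
def QQ (q : TQ) (l : ℕ) : ℕ := q.2.2.1.getD l 1
def UU (q : TQ) (l : ℕ) : ℕ := q.2.1 * q.1 ^ (min l (tK q))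
def ex (q : TQ) (m : ℕ) : ℕ := mr (UU q) (m % q.2.1) (fun l => fld (PP q l) (QQ q l) m) (tK q)
def dec (q : TQ) (j u : ℕ) : ℕ := mr (PP q) (u % q.2.1) (fun l => fld (UU q l) q.1 u) (min j (tK q))
def fA (q : TQ) (j u : ℕ) : ℕ := q.2.2.2.getD j 0 * dec q j u
def aA (q : TQ) (j i : ℕ) : ℕ := ad (UU q j) q.1 (QQ q j) (fA q j) i
def aB (q : TQ) (j i : ℕ) : ℕ := ad (UU q j) q.1 (QQ q j) (fun u => (QQ q j - 1) * fA q j u) i
def fwd (q : TQ) (i : ℕ) : ℕ := (List.range (tK q)).foldr (aA q) i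
def bwd (q : TQ) (i : ℕ) : ℕ := (List.range (tK q)).foldl (fun i j => aB q j i) i
def bad (q : TQ) (i : ℕ) : ℕ := ∑ l ∈ range (tK q), if fld (UU q l) q.1 i < QQ q l then 0 else 1
def dx (q : TQ) (i : ℕ) : ℕ := if bad q i = 0 then dec q (tK q) i else tM q

theorem PP_succ (q : TQ) (l : ℕ) : PP q (l + 1) = PP q l * QQ q l := by
  unfold PP QQ
  rw [List.take_add_one, List.prod_append, mul_assoc, List.getD_eq_getElem?_getD]
  cases q.2.2.1[l]? <;> simp
theorem PP_zero (q : TQ) : PP q 0 = q.2.1 := by simp [PP]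
theorem PP_top (q : TQ) : PP q (tK q) = tM q := by simp [PP, tK, tM]
theorem UU_succ (q : TQ) : ∀ l < tK q, UU q (l + 1) = UU q l * (fun _ => q.1) l := fun l hl => by
  unfold UU; rw [min_eq_left hl, min_eq_left hl.le, pow_succ, mul_assoc]
theorem UU_zero (q : TQ) : UU q 0 = q.2.1 := by simp [UU]
theorem UU_top (q : TQ) : UU q (tK q) = tN q := by simp [UU, tN]

variable {q : TQ}

theorem tp_S (h : TP q) : 0 < q.2.1 := by
  obtain ⟨B, s, h1, h2, -⟩ := h; rw [h2]; positivity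
theorem tp_D (h : TP q) : 0 < q.1 := by
  obtain ⟨B, s, h1, h2, -⟩ := h; rw [h1]; positivity
theorem tp_Q (h : TP q) {l : ℕ} (hl : l < tK q) : 0 < QQ q l ∧ QQ q l ≤ q.1 := by
  obtain ⟨B, s, -, -, -, -, -, -, -, h, -⟩ := h
  unfold QQ
  rw [List.getD_eq_getElem _ _ hl]
  exact h _ (List.getElem_mem _)
theorem tp_U (h : TP q) (l : ℕ) : 0 < UU q l := Nat.mul_pos (tp_S h) (pow_pos (tp_D h) _)
theorem tp_dvd (h : TP q) (l : ℕ) : q.1 ∣ UU q l := by
  obtain ⟨B, s, h1, h2, h3, h4, h5, -⟩ := h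
  refine Dvd.dvd.mul_right ?_ _
  rw [h1, h2]; exact pow_dvd_pow _ (by omega)
theorem tp_M (h : TP q) : 0 < tM q ∧ tM q ≤ tN q := by
  have : ∀ l ≤ tK q, 0 < PP q l ∧ PP q l ≤ UU q l := by
    intro l
    induction l with
    | zero => intro _; rw [PP_zero, UU_zero]; exact ⟨tp_S h, le_rfl⟩
    | succ l ih =>
      intro hl
      rw [PP_succ, UU_succ q l hl]
      exact ⟨Nat.mul_pos (ih (by omega)).1 (tp_Q h hl).1, Nat.mul_le_mul (ih (by omega)).2 (tp_Q h hl).2⟩
  simpa [PP_top, UU_top] using this _ le_rfl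

theorem ng_add' {L : ℕ} (hL : 0 < L) (a : ℕ) : (a + (L - 1) * a) % L = 0 := by
  obtain ⟨l, rfl⟩ : ∃ l, L = l + 1 := ⟨L - 1, by omega⟩
  rw [Nat.add_sub_cancel, show a + l * a = (l + 1) * a by ring, Nat.mul_mod_right]

theorem fwd_bwd (h : TP q) (i : ℕ) : fwd q (bwd q i) = i :=
  foldr_foldl _ (fun j hj i => ad_ad (tp_U h j) (tp_Q h (List.mem_range.1 hj)).1
    (tp_Q h (List.mem_range.1 hj)).2
    (fun u => by rw [add_comm]; exact ng_add' (tp_Q h (List.mem_range.1 hj)).1 _) i) i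

theorem bwd_fwd (h : TP q) (i : ℕ) : bwd q (fwd q i) = i :=
  foldl_foldr _ (fun j hj i => ad_ad (tp_U h j) (tp_Q h (List.mem_range.1 hj)).1
    (tp_Q h (List.mem_range.1 hj)).2 (fun u => ng_add' (tp_Q h (List.mem_range.1 hj)).1 _) i) i

theorem pos_eq (q : TQ) (m : ℕ) :
    pos q m = mr (UU q) (m % q.2.1) (fun l => q.2.2.2.getD l 0 * m % QQ q l) (tK q) := by
  unfold pos mr
  rw [mul_sum, sum_congr rfl (fun l hl => ?_)]
  unfold UU QQ
  rw [min_eq_left (mem_range.1 hl).le]; ring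

theorem fwd_ex (h : TP q) (m : ℕ) : fwd q (ex q m) = pos q m := by
  have hτ : m % q.2.1 < UU q 0 := by rw [UU_zero]; exact Nat.mod_lt _ (tp_S h)
  have := foldr_stage (aA q) (fun j => mr (UU q) (m % q.2.1) (fun l => if l < j then
    fld (PP q l) (QQ q l) m else q.2.2.2.getD l 0 * m % QQ q l) (tK q)) (tK q) (fun j hj => ?_)
  · rw [pos_eq, fwd, ex, mr_congr (d' := fun l => if l < tK q then
      fld (PP q l) (QQ q l) m else q.2.2.2.getD l 0 * m % QQ q l) (fun l hl => by simp [hl]), this]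
    simp
  obtain ⟨hq, hq'⟩ := tp_Q h hj
  have hd : ∀ l < tK q, (if l < j + 1 then fld (PP q l) (QQ q l) m else
      q.2.2.2.getD l 0 * m % QQ q l) < (fun _ => q.1) l := fun l hl => by
    refine lt_of_lt_of_le ?_ (tp_Q h hl).2
    split_ifs
    · exact fld_lt (tp_Q h hl).1
    · exact Nat.mod_lt _ (tp_Q h hl).1
  have hz : ∀ l < tK q, (if l = j then 0 else if l < j + 1 then fld (PP q l) (QQ q l) m else
      q.2.2.2.getD l 0 * m % QQ q l) < (fun _ => q.1) l := fun l hl => by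
    by_cases e : l = j
    · rw [if_pos e]; exact tp_D h
    · rw [if_neg e]; exact hd l hl
  have e1 := mr_fld (UU_succ q) hτ hd hj
  have e2 := mr_setf (UU_succ q) hτ hd hj (d' := fun l => if l = j then 0 else if l < j + 1 then
    fld (PP q l) (QQ q l) m else q.2.2.2.getD l 0 * m % QQ q l) (fun l _ e => by simp [e])
  have e3 := mr_setf (UU_succ q) hτ hd hj (d' := fun l => if l < j then
    fld (PP q l) (QQ q l) m else q.2.2.2.getD l 0 * m % QQ q l) (fun l _ e => by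
      by_cases h1 : l < j
      · simp [h1, h1.le, Nat.lt_succ_iff]
      · rw [if_neg h1, if_neg (by omega)])
  simp only [if_true, lt_irrefl, if_false, Nat.lt_succ_self] at e1 e2 e3
  unfold aA ad
  rw [e1, if_pos (fld_lt hq), e2, ← e3]
  congr 1
  have e4 := mr_mod (UU_succ q) hτ hz (Nat.zero_le _)
  rw [UU_zero] at e4
  unfold fA dec
  rw [min_eq_left hj.le, e4, mr_congr (d' := fun l => fld (PP q l) (QQ q l) m) (fun l hl => by
    have := mr_fld (UU_succ q) hτ hz (hl.trans hj)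
    rw [this, if_neg (by omega), if_pos (by omega)])]
  have e5 := mr_self (K := j) (fun l _ => PP_succ q l) m
  rw [PP_zero] at e5
  simp only [mr, sum_range_zero, add_zero] at e5 ⊢
  rw [e5]
  obtain ⟨B, s, -, -, -, -, -, -, -, -, -, h, -⟩ := h
  have h1 : q.2.2.2.getD j 0 * PP q j ≡ 1 [MOD QQ q j] := h j hj
  have h2 := fld_decomp (PP q j) (QQ q j) m
  generalize q.2.2.2.getD j 0 = c at *
  generalize fld (PP q j) (QQ q j) m = a at *
  have h3 : c * m = c * PP q j * a + c * (m % PP q j) + QQ q j * (c * PP q j * (m / (PP q j * QQ q j))) := by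
    conv_lhs => rw [h2]
    ring
  rw [h3, Nat.add_mul_mod_self_left]
  have := ((h1.mul_right a).add_right (c * (m % PP q j))).symm
  rwa [one_mul] at this

theorem ex_lt (h : TP q) (m : ℕ) : ex q m < tN q := by
  rw [← UU_top]
  exact mr_lt (UU_succ q) (by rw [UU_zero]; exact Nat.mod_lt _ (tp_S h))
    (fun l hl => lt_of_lt_of_le (fld_lt (tp_Q h hl).1) (tp_Q h hl).2)

theorem pos_lt (h : TP q) (m : ℕ) : pos q m < tN q := by
  rw [← UU_top, pos_eq]
  exact mr_lt (UU_succ q) (by rw [UU_zero]; exact Nat.mod_lt _ (tp_S h))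
    (fun l hl => lt_of_lt_of_le (Nat.mod_lt _ (tp_Q h hl).1) (tp_Q h hl).2)

theorem ex_mono (h : TP q) {m m' : ℕ} (h1 : m < m') (h2 : m' < tM q) : ex q m < ex q m' := by
  have := mr_mono (fun l _ => PP_succ q l) (UU_succ q) (by rw [PP_zero, UU_zero])
    (fun l hl => (tp_Q h hl).2) m m' h1 (by rwa [PP_top])
  rwa [PP_zero] at this

theorem bad_iff (i : ℕ) : bad q i = 0 ↔ ∀ l < tK q, fld (UU q l) q.1 i < QQ q l := by
  simp [bad, sum_eq_zero_iff]

theorem dx_ex (h : TP q) {m : ℕ} (hm : m < tM q) : dx q (ex q m) = m := by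
  have hτ : m % q.2.1 < UU q 0 := by rw [UU_zero]; exact Nat.mod_lt _ (tp_S h)
  have hd : ∀ l < tK q, fld (PP q l) (QQ q l) m < (fun _ => q.1) l :=
    fun l hl => lt_of_lt_of_le (fld_lt (tp_Q h hl).1) (tp_Q h hl).2
  have e1 : ∀ l < tK q, fld (UU q l) q.1 (ex q m) = fld (PP q l) (QQ q l) m :=
    fun l hl => mr_fld (UU_succ q) hτ hd hl
  have e2 := mr_mod (UU_succ q) hτ hd (Nat.zero_le _)
  rw [UU_zero] at e2
  have e3 := mr_self (K := tK q) (fun l _ => PP_succ q l) m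
  unfold dx dec
  rw [if_pos ((bad_iff _).2 (fun l hl => by rw [e1 l hl]; exact fld_lt (tp_Q h hl).1)), min_self,
    mr_congr e1, ex, e2]
  rw [PP_zero, PP_top, Nat.mod_eq_of_lt hm] at e3
  simpa [mr] using e3

theorem ex_dx (h : TP q) {i : ℕ} (hi : i < tN q) (hb : bad q i = 0) :
    dx q i < tM q ∧ ex q (dx q i) = i := by
  have hτ : i % q.2.1 < PP q 0 := by rw [PP_zero]; exact Nat.mod_lt _ (tp_S h)
  have hd := (bad_iff _).1 hb
  unfold dx dec
  rw [if_pos hb, min_self]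
  refine ⟨by rw [← PP_top]; exact mr_lt (fun l _ => PP_succ q l) hτ hd, ?_⟩
  have e2 := mr_mod (fun l _ => PP_succ q l) hτ hd (Nat.zero_le _)
  rw [PP_zero] at e2
  have e3 := mr_self (UU_succ q) i
  rw [UU_zero, UU_top, Nat.mod_eq_of_lt hi] at e3
  rw [ex, e2, mr_congr (fun l hl => mr_fld (fun l _ => PP_succ q l) hτ hd hl)]
  simpa [mr] using e3

theorem getD_pull {n i : ℕ} (π : ℕ → ℕ) (A : Arr) (hi : i < n) (z : List ℕ) :
    (pullN n π A).getD i z = A.getD (π i) (zc A) := by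
  rw [List.getD_eq_getElem _ _ (by simpa [pullN] using hi)]; simp [pullN]

theorem layStmt (hA : ArrStmt) (hAdd : AddStmt) : LayStmt := by
  have pK : PT tK := by unfold tK; fun_prop
  have bK : PB tK := PB.length (l := fun q : TQ => q.2.2.1) (by fun_prop)
  have pP : ∀ {α : Type} [Enc α] {f : α → TQ} {g : α → ℕ}, PT f → PT g → PT (fun a => PP (f a) (g a)) := by
    intro α _ f g hf hg; unfold PP; fun_prop
  have pQ : ∀ {α : Type} [Enc α] {f : α → TQ} {g : α → ℕ}, PT f → PT g → PT (fun a => QQ (f a) (g a)) := by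
    intro α _ f g hf hg; unfold QQ; fun_prop
  have pU : ∀ {α : Type} [Enc α] {f : α → TQ} {g : α → ℕ}, PT f → PT g → PT (fun a => UU (f a) (g a)) := by
    intro α _ f g hf hg
    exact PT.mul (by fun_prop) (PT.pow (by fun_prop) (PT.min hg (pK.comp hf)) (PB.min (bK.comp hf)))
  have pM : PT tM := by unfold tM; fun_prop
  have pN : PT tN := PT.mul (by fun_prop) (PT.pow (by fun_prop) pK bK)
  have pex : PT (fun x : TQ × ℕ => ex x.1 x.2) :=
    PT.add (by fun_prop) (pt_nsum (by fun_prop) (bK.comp (by fun_prop))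
      (PT.mul (PT_fld (pP (by fun_prop) (by fun_prop)) (pQ (by fun_prop) (by fun_prop)) (by fun_prop))
        (pU (by fun_prop) (by fun_prop))))
  have pdec : ∀ {α : Type} [Enc α] {f : α → TQ} {g u : α → ℕ}, PT f → PT g → PT u →
      PT (fun a => dec (f a) (g a) (u a)) := by
    intro α _ f g u hf hg hu
    exact PT.add (by fun_prop) (pt_nsum (by fun_prop) (PB.min (bK.comp hf))
      (PT.mul (PT_fld (pU (by fun_prop) (by fun_prop)) (by fun_prop) (by fun_prop))
        (pP (by fun_prop) (by fun_prop))))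
  have pbad : PT (fun x : TQ × ℕ => bad x.1 x.2) :=
    pt_nsum (by fun_prop) (bK.comp (by fun_prop)) (PT.ite (PT.lt
      (PT_fld (pU (by fun_prop) (by fun_prop)) (by fun_prop) (by fun_prop))
      (pQ (by fun_prop) (by fun_prop))) (by fun_prop) (by fun_prop))
  have pdx : PT (fun x : TQ × ℕ => dx x.1 x.2) :=
    PT.ite (PT.eq pbad (by fun_prop)) (pdec (by fun_prop) (by fun_prop) (by fun_prop)) (by fun_prop)
  have hX0 : ∀ q, 0 ≤ tX q := fun q => by unfold tX; positivity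
  have hX : ∀ q : TQ, (tK q : ℝ) * ((Nat.log 2 q.1 + 1 : ℝ) ^ th + 1) ≤ 2 * (tX q + 1) := fun q => by
    have h1 : (1 : ℝ) ≤ (Nat.log 2 q.1 + 1 : ℝ) ^ th :=
      Real.one_le_rpow (by simp) (by unfold th; norm_num)
    have h2 : (0 : ℝ) ≤ (tK q + 1 : ℝ) ^ th * (Nat.log 2 q.1 + 1) ^ 2 := by positivity
    have h3 : (0 : ℝ) ≤ tK q := by positivity
    unfold tX; nlinarith
  have lp : ∀ (σ : TQ → ℕ → ℕ) (F : TQ → ℕ → ℕ → ℕ), PT (fun x : TQ × ℕ => σ x.1 x.2) →
      (∀ q, ∀ j < tK q, σ q j < tK q) → PT (fun x : (TQ × ℕ) × ℕ => F x.1.1 (σ x.1.1 x.1.2) x.2) →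
      PC (fun q i => (List.range (tK q)).foldr
        (fun j i => ad (UU q (σ q j)) q.1 (QQ q (σ q j)) (F q (σ q j)) i) i)
        (fun q N => TP q ∧ N = tN q) tX := by
    intro σ F h1 h2 h3
    refine hA.pmono (hA.ploop (pc_ad hA hAdd (fun x : TQ × ℕ => UU x.1 (σ x.1 x.2)) (fun x => x.1.1)
      (fun x => QQ x.1 (σ x.1 x.2)) (fun x => F x.1 (σ x.1 x.2)) (pU (by fun_prop) h1) (by fun_prop)
      (pQ (by fun_prop) h1) h3) tK (fun q => (tK q : ℝ) * ((Nat.log 2 q.1 + 1 : ℝ) ^ th + 1)) pK bK)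
      id _ _ _ 2 (by fun_prop) (fun q N ⟨h, hN⟩ => ⟨⟨fun j hj => ⟨by positivity,
        (tp_Q h (h2 q j hj)).1, (tp_Q h (h2 q j hj)).2, tp_dvd h _, ?_, ?_⟩, by simp [mul_add]⟩, fun _ _ => rfl,
        by simp only [id]; positivity, hX q⟩)
    · rw [hN, ← UU_top]
      exact (UU_succ q _ (h2 q j hj)).symm.dvd.trans (sys_dvd (UU_succ q) (h2 q j hj))
    · rw [hN, ← UU_top]; exact tp_U h _
  have pfA : ∀ {α : Type} [Enc α] {f : α → TQ} {g u : α → ℕ}, PT f → PT g → PT u →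
      PT (fun a => fA (f a) (g a) (u a)) := by
    intro α _ f g u hf hg hu
    exact PT.mul (by fun_prop) (pdec hf hg hu)
  have cf : PC fwd (fun q N => TP q ∧ N = tN q) tX :=
    lp (fun _ j => j) fA (by fun_prop) (fun _ _ h => h) (pfA (by fun_prop) (by fun_prop) (by fun_prop))
  have cb : PC bwd (fun q N => TP q ∧ N = tN q) tX := by
    have := lp (fun q j => tK q - 1 - j) (fun q j u => (QQ q j - 1) * fA q j u) (by fun_prop)
      (fun _ _ h => by omega) (PT.mul (PT.sub (pQ (by fun_prop) (by fun_prop)) (by fun_prop))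
        (pfA (by fun_prop) (by fun_prop) (by fun_prop)))
    have e : bwd = fun q i => (List.range (tK q)).foldr (fun j i => aB q (tK q - 1 - j) i) i := by
      funext q i; exact (foldr_rev (aB q) _ _).symm
    rw [e]; exact this
  have inj : ∀ q, TP q → ∀ m < tM q, ∀ m' < tM q, pos q m = pos q m' → m = m' := by
    intro q h m hm m' hm' e
    rw [← fwd_ex h, ← fwd_ex h] at e
    have := congrArg (fun i => dx q (bwd q i)) e
    simpa only [bwd_fwd h, dx_ex h hm, dx_ex h hm'] using this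
  refine ⟨fun q h m hm => ⟨pos_lt h m, inj q h m hm⟩,
    ⟨fun q A => pullN (tN q) (bwd q) (pullN (tN q) (dx q) A), ?_, fun q A h hl => ⟨by simp [pullN],
      fun m hm => ?_, fun i hi hn => ?_⟩⟩, ?_⟩
  · have c1 : AC (fun q A => pullN (tN q) (dx q) A)
        (fun q _ A => TP q ∧ A.length = tM q ∧ tN q ≤ 4 * tM q) tX := by
      refine hA.mono (hA.pull (fun q _ => tN q) dx (fun q i => if bad q i = 0 then 0 else 1) 4
        (by fun_prop) pdx (PT.ite (PT.eq pbad (by fun_prop)) (by fun_prop) (by fun_prop))) id _ _ _ 0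
        (by fun_prop) (fun q w A ⟨h, h1, h2⟩ => ⟨⟨?_, by simpa [h1] using h2, fun i _ => ?_,
          fun i j hij hj e => ?_⟩, rfl, le_rfl, by simp⟩)
      · rintro rfl; have := (tp_M h).1; simp at h1; omega
      · simp only [id]; split_ifs <;> omega
      · simp only [id] at hj e ⊢
        by_cases b1 : bad q i = 0 <;> by_cases b2 : bad q j = 0 <;> simp [b1, b2] at e
        · obtain ⟨a1, a2⟩ := ex_dx h (lt_of_le_of_lt hij hj) b1
          obtain ⟨a3, a4⟩ := ex_dx h hj b2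
          by_contra hc
          have := ex_mono h (not_le.1 hc) a1
          omega
        · simp [dx, b1, b2]
    exact hA.mono (hA.comp cb.1 c1) id _ _ _ 1 (by fun_prop) (fun q w A h =>
      ⟨⟨h, h.1, by simp [pullN]⟩, by simp [pullN], hX0 q, by simp⟩)
  · rw [getD_pull _ _ (pos_lt h m), ← fwd_ex h, bwd_fwd h, getD_pull _ _ (ex_lt h m), dx_ex h hm,
      List.getD_eq_getElem _ _ (by omega), List.getD_eq_getElem _ _ (by omega)]
  · have hb := cb.2 q _ ⟨h, rfl⟩ i hi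
    rw [getD_pull _ _ hi, getD_pull _ _ hb]
    by_cases b : bad q (bwd q i) = 0
    · obtain ⟨a1, a2⟩ := ex_dx h hb b
      exact absurd (by rw [← fwd_ex h, a2, fwd_bwd h]) (hn _ a1)
    · rw [dx, if_neg b, List.getD_eq_default _ _ (by omega)]
  · have c1 : AC (fun q A => pullN (tM q) (ex q) A) (fun q _ A => TP q ∧ A.length = tN q) tX := by
      refine hA.mono (hA.pull (fun q _ => tM q) ex (fun q i => 0) 1
        (by fun_prop) pex (by fun_prop)) id _ _ _ 0
        (by fun_prop) (fun q w A ⟨h, h1⟩ => ⟨⟨?_, by simpa [h1] using (tp_M h).2,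
          fun i _ => Nat.one_pos, fun i j hij hj _ => ?_⟩, rfl, le_rfl, by simp⟩)
      · rintro rfl; have := tp_M h; simp at h1; omega
      · rcases hij.lt_or_eq with h2 | rfl
        · exact (ex_mono h h2 hj).le
        · exact le_rfl
    refine hA.mono (hA.comp c1 cf.1) id _ _ _ 1 (by fun_prop) (fun q w A h =>
      ⟨⟨h, h.1, by simp [pullN, h.2]⟩, List.map_congr_left (fun m hm => ?_), hX0 q, by simp⟩)
    simp only [id]
    rw [getD_pull _ _ (by rw [h.2]; exact ex_lt h.1 m), fwd_ex h.1]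

end Crest.Agent.H8.IM
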