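import Crest.Agent.H8.IMAdd

set_option autoImplicit false
set_option linter.unusedSectionVars false
set_option linter.unusedVariables false
set_option linter.unusedSimpArgs false

/-! Row 326: mixed radix systems for `LayStmt`. -/

namespace Crest.Agent.H8.IM
open Crest.Agent.H3.Ptime Crest.Agent.H9.IM Finset

def mr (P : ℕ → ℕ) (τ : ℕ) (d : ℕ → ℕ) (K : ℕ) : ℕ := τ + ∑ l ∈ range K, d l * P l

theorem mr_succ (P : ℕ → ℕ) (τ : ℕ) (d : ℕ → ℕ) (K : ℕ) :
    mr P τ d (K + 1) = mr P τ d K + d K * P K := by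
  unfold mr; rw [sum_range_succ, add_assoc]

theorem mr_congr {P : ℕ → ℕ} {τ : ℕ} {d d' : ℕ → ℕ} {K : ℕ} (h : ∀ l < K, d l = d' l) :
    mr P τ d K = mr P τ d' K := by
  unfold mr; rw [sum_congr rfl (fun l hl => by rw [h l (mem_range.1 hl)])]

variable {P Q : ℕ → ℕ} {τ : ℕ} {d : ℕ → ℕ}

theorem mr_lt {K : ℕ} (hP : ∀ l < K, P (l + 1) = P l * Q l) (hτ : τ < P 0) (hd : ∀ l < K, d l < Q l) :
    mr P τ d K < P K := by
  induction K with
  | zero => simpa [mr] using hτ
  | succ K ih =>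
    have := ih (fun l hl => hP l (by omega)) (fun l hl => hd l (by omega))
    have h2 := Nat.mul_le_mul_right (P K) (show d K + 1 ≤ Q K from hd K (by omega))
    rw [mr_succ, hP K (by omega), mul_comm (P K)]
    rw [add_mul] at h2; omega

theorem sys_dvd {K : ℕ} (hP : ∀ l < K, P (l + 1) = P l * Q l) {j : ℕ} (hj : j ≤ K) : P j ∣ P K := by
  induction K, hj using Nat.le_induction with
  | base => rfl
  | succ K hK ih =>
    rw [hP K (by omega)]; exact (ih (fun l hl => hP l (by omega))).mul_right _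

theorem mr_mod {K : ℕ} (hP : ∀ l < K, P (l + 1) = P l * Q l) (hτ : τ < P 0) (hd : ∀ l < K, d l < Q l)
    {j : ℕ} (hj : j ≤ K) : mr P τ d K % P j = mr P τ d j := by
  induction K, hj using Nat.le_induction with
  | base => exact Nat.mod_eq_of_lt (mr_lt hP hτ hd)
  | succ K hK ih =>
    obtain ⟨c, hc⟩ := sys_dvd (fun l hl => hP l (by omega)) hK
    rw [mr_succ, hc, mul_left_comm, Nat.add_mul_mod_self_left,
      ih (fun l hl => hP l (by omega)) (fun l hl => hd l (by omega))]

theorem mr_fld {K : ℕ} (hP : ∀ l < K, P (l + 1) = P l * Q l) (hτ : τ < P 0) (hd : ∀ l < K, d l < Q l)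
    {j : ℕ} (hj : j < K) : fld (P j) (Q j) (mr P τ d K) = d j := by
  have := mr_lt (K := j) (fun l hl => hP l (by omega)) hτ (fun l hl => hd l (by omega))
  rw [fld_eq_mod_div, ← hP j hj, mr_mod hP hτ hd hj, mr_succ, Nat.add_mul_div_right _ _ (by omega),
    Nat.div_eq_of_lt this, zero_add]

theorem mr_self {K : ℕ} (hP : ∀ l < K, P (l + 1) = P l * Q l) (m : ℕ) :
    mr P (m % P 0) (fun l => fld (P l) (Q l) m) K = m % P K := by
  induction K with
  | zero => simp [mr]
  | succ K ih =>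
    rw [mr_succ, ih (fun l hl => hP l (by omega)), hP K (by omega), Nat.mod_mul, mul_comm]; rfl

theorem mr_update {K j : ℕ} (hj : j < K) {d' : ℕ → ℕ} (h : ∀ l < K, l ≠ j → d l = d' l) :
    mr P τ d' K + d j * P j = mr P τ d K + d' j * P j := by
  unfold mr
  rw [← add_sum_erase _ _ (mem_range.2 hj), ← add_sum_erase _ _ (mem_range.2 hj),
    sum_congr rfl (fun l hl => by rw [← h l (mem_range.1 (mem_erase.1 hl).2) (mem_erase.1 hl).1])]
  ring

theorem mr_setf {K j : ℕ} (hP : ∀ l < K, P (l + 1) = P l * Q l) (hτ : τ < P 0)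
    (hd : ∀ l < K, d l < Q l) (hj : j < K) {d' : ℕ → ℕ} (h : ∀ l < K, l ≠ j → d l = d' l) :
    setf (P j) (Q j) (mr P τ d K) (d' j) = mr P τ d' K := by
  have h1 := setf_add (P j) (Q j) (mr P τ d K) (d' j)
  rw [mr_fld hP hτ hd hj] at h1
  have := mr_update (P := P) (τ := τ) hj h
  omega

theorem mr_mono {K : ℕ} {P' Q' : ℕ → ℕ} (hP : ∀ l < K, P (l + 1) = P l * Q l)
    (hP' : ∀ l < K, P' (l + 1) = P' l * Q' l) (h0 : P 0 = P' 0) (hQ : ∀ l < K, Q l ≤ Q' l) :
    ∀ u u', u < u' → u' < P K → mr P' (u % P 0) (fun l => fld (P l) (Q l) u) K <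
      mr P' (u' % P 0) (fun l => fld (P l) (Q l) u') K := by
  induction K with
  | zero =>
    intro u u' h1 h2
    simpa [mr, Nat.mod_eq_of_lt h2, Nat.mod_eq_of_lt (h1.trans h2)] using h1
  | succ K ih =>
    intro u u' h1 h2
    have hPK := fun l (hl : l < K) => hP l (by omega)
    have hp : ∀ j ≤ K + 1, 0 < P j := fun j hj => Nat.pos_of_dvd_of_pos (sys_dvd hP hj) (by omega)
    have hq : ∀ l < K + 1, 0 < Q l := fun l hl => by
      have := hp (l + 1) hl
      rw [hP l hl] at this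
      exact Nat.pos_of_mul_pos_left this
    have e : ∀ v, mr P' (v % P 0) (fun l => fld (P l) (Q l) v) K =
        mr P' (v % P K % P 0) (fun l => fld (P l) (Q l) (v % P K)) K := fun v => by
      rw [Nat.mod_mod_of_dvd _ (sys_dvd hPK (Nat.zero_le _))]
      refine mr_congr (fun l hl => ?_)
      rw [fld_eq_mod_div, fld_eq_mod_div, ← hPK l hl, Nat.mod_mod_of_dvd _ (sys_dvd hPK hl)]
    have f : ∀ v < P (K + 1), fld (P K) (Q K) v = v / P K := fun v hv => by
      rw [fld_eq_mod_div, ← hP K (by omega), Nat.mod_eq_of_lt hv]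
    rw [mr_succ, mr_succ, f u (by omega), f u' h2]
    rcases (Nat.div_le_div_right (c := P K) h1.le).lt_or_eq with h | h
    · have := mr_lt (P := P') (Q := Q') (τ := u % P 0) (d := fun l => fld (P l) (Q l) u) (K := K)
        (fun l hl => hP' l (by omega)) (h0 ▸ Nat.mod_lt _ (hp 0 (by omega)))
        (fun l hl => lt_of_lt_of_le (fld_lt (hq l (by omega))) (hQ l (by omega)))
      have h3 := Nat.mul_le_mul_right (P' K) (show u / P K + 1 ≤ u' / P K from h)
      rw [add_mul] at h3; omega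
    · have a1 := Nat.mod_add_div u (P K)
      have a2 := Nat.mod_add_div u' (P K)
      rw [h] at a1
      have := ih hPK (fun l hl => hP' l (by omega)) (fun l hl => hQ l (by omega)) (u % P K) (u' % P K)
        (by omega) (Nat.mod_lt _ (hp K (by omega)))
      rw [e u, e u', h]; omega

/-- the index map of `AddStmt` with `loZ = 1` -/
def ad (lo L m : ℕ) (f : ℕ → ℕ) (i : ℕ) : ℕ :=
  if fld lo L i < m then setf lo L i ((fld lo L i + f (setf lo L i 0)) % m) else i

theorem ad_ad {lo L m : ℕ} {f g : ℕ → ℕ} (hlo : 0 < lo) (hm : 0 < m) (hL : m ≤ L)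
    (h : ∀ u, (g u + f u) % m = 0) (i : ℕ) : ad lo L m f (ad lo L m g i) = i := by
  by_cases hi : fld lo L i < m
  · have hv := Nat.mod_lt (fld lo L i + g (setf lo L i 0)) hm
    have hv' := lt_of_lt_of_le hv hL
    unfold ad
    rw [if_pos hi, fld_setf_same hlo hv', if_pos hv, setf_setf hlo hv', setf_setf hlo hv',
      Nat.mod_add_mod, add_assoc, ← Nat.add_mod_mod, h, add_zero, Nat.mod_eq_of_lt hi, setf_fld]
  · unfold ad
    rw [if_neg hi, if_neg hi]

theorem foldr_foldl {g h : ℕ → ℕ → ℕ} (l : List ℕ) (e : ∀ j ∈ l, ∀ i, g j (h j i) = i) (i : ℕ) :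
    l.foldr g (l.foldl (fun i j => h j i) i) = i := by
  induction l generalizing i with
  | nil => rfl
  | cons a l ih =>
    rw [List.foldl_cons, List.foldr_cons, ih (fun j hj => e j (by simp [hj])), e a (by simp)]

theorem foldl_foldr {g h : ℕ → ℕ → ℕ} (l : List ℕ) (e : ∀ j ∈ l, ∀ i, h j (g j i) = i) (i : ℕ) :
    l.foldl (fun i j => h j i) (l.foldr g i) = i := by
  induction l generalizing i with
  | nil => rfl
  | cons a l ih =>
    rw [List.foldl_cons, List.foldr_cons, e a (by simp), ih (fun j hj => e j (by simp [hj]))]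

theorem foldr_rev (h : ℕ → ℕ → ℕ) (K i : ℕ) :
    (List.range K).foldr (fun j i => h (K - 1 - j) i) i = (List.range K).foldl (fun i j => h j i) i := by
  rw [← List.foldr_reverse, List.range_eq_range', List.reverse_range', List.foldr_map,
    List.range_eq_range']
  simp

theorem foldr_stage (g : ℕ → ℕ → ℕ) (st : ℕ → ℕ) (K : ℕ) (h : ∀ j < K, g j (st (j + 1)) = st j) :
    (List.range K).foldr g (st K) = st 0 := by
  induction K with
  | zero => rfl
  | succ K ih =>
    rw [List.range_succ, List.foldr_append, List.foldr_cons, List.foldr_nil, h K (by omega),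
      ih (fun j hj => h j (by omega))]

section
variable {α β : Type} [Enc α] [Enc β]

@[fun_prop] theorem pt_nprod {l : α → List ℕ} (hl : PT l) : PT (fun a => (l a).prod) :=
  (PT.toNat (PT.iprod (PT.map (f := fun _ (x : ℕ) => (x : ℤ)) hl (by fun_prop)))).of_eq (fun a => by
    have := Nat.cast_list_prod (R := ℤ) (l a)
    exact (congrArg Int.toNat this.symm).trans (Int.toNat_natCast _))

@[fun_prop] theorem pt_getD {l : α → List β} {n : α → ℕ} {d : α → β} (hl : PT l) (hn : PT n)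
    (hd : PT d) : PT (fun a => (l a).getD (n a) (d a)) :=
  ((hl.drop hn).headD hd).of_eq (fun a => by
    simp [List.getD_eq_getElem?_getD, List.headD_eq_head?_getD, List.head?_drop])

theorem pt_nsum {e : α → ℕ} {f : α → ℕ → ℕ} (he : PT e) (hb : PB e)
    (hf : PT (fun p : α × ℕ => f p.1 p.2)) : PT (fun a => ∑ i ∈ range (e a), f a i) :=
  (PT.toNat (PT.finsum (f := fun a i => (f a i : ℤ)) he hb (by fun_prop))).of_eq (fun a => by
    rw [← Nat.cast_sum, Int.toNat_natCast])
end

theorem pc_ad (hA : ArrStmt) (hAdd : AddStmt) {Q : Type} [Enc Q] (lo L m : Q → ℕ) (f : Q → ℕ → ℕ)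
    (h1 : PT lo) (h2 : PT L) (h3 : PT m) (h4 : PT (fun x : Q × ℕ => f x.1 x.2)) :
    PC (fun q i => ad (lo q) (L q) (m q) (f q) i)
      (fun q N => 0 < m q ∧ m q ≤ L q ∧ L q ∣ lo q ∧ lo q * L q ∣ N ∧ 0 < N)
      (fun q => (Nat.log 2 (L q) + 1 : ℝ) ^ th) :=
  hA.pmono (hAdd lo (fun _ => 1) L m f h1 (by fun_prop) h2 h3 h4) id _ _ _ 1 (by fun_prop)
    (fun q N ⟨a1, a2, a3, a4, a5⟩ => ⟨⟨Nat.one_pos, a1, a2, Or.inr (by simpa using a3), a4, a5⟩,
      fun i _ => by simp [ad], by simp only [id]; positivity, by simp⟩)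

end Crest.Agent.H8.IM
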