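import Crest.Agent.H8.IMXorA

set_option autoImplicit false
set_option linter.unusedSectionVars false
set_option linter.unusedVariables false
set_option linter.unusedSimpArgs false

/-! Row 326: `XorStmt` from four modular additions and a sparse correction. -/

namespace Crest.Agent.H8.IM
open Crest.Agent.H3.Ptime Crest.Agent.H9.IM

theorem lin_pt {α β : Type} [Enc α] [Enc β] {f : α → β} (h : Lin f) : PT f := by
  obtain ⟨p, c, h⟩ := h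
  exact ⟨p, fun a => c * (0 + sz a + 1), (PB.const c).mul (((PB.const 0).add PB.size).add (PB.const 1)),
    fun a => h a 0 trivial⟩

section
variable [hN : Fact NumStmt] {α : Type} [Enc α]

@[fun_prop] theorem pt_xor {f g : α → ℕ} (hf : PT f) (hg : PT g) : PT (fun a => f a ^^^ g a) :=
  (lin_pt hN.out.xor).comp (hf.pair hg)

@[fun_prop] theorem pt_land {f g : α → ℕ} (hf : PT f) (hg : PT g) : PT (fun a => f a &&& g a) :=
  (show PT (fun a => (f a + g a - (f a ^^^ g a)) / 2) by fun_prop).of_eq (fun a => by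
    have := add_xor (f a) (g a); omega)
end

abbrev XQ := ℕ × ℕ × ℕ × ℕ × ℕ × Bool

def mu (q : XQ) : ℕ := (q.2.2.2.2.1 - 1) / (q.2.2.2.1 - 1)
def gg (q : XQ) : ℕ := 2 ^ ((q.2.2.2.1.size - 2) / 2)
def bb (q : XQ) (y : ℕ) : ℕ := (bif q.2.2.2.2.2 then (q.2.2.2.2.1 - 1) else y) &&& mu q
def hh (q : XQ) (r : ℕ) : ℕ := r &&& (mu q * (gg q - 1))
def F1 (q : XQ) (r y : ℕ) : ℕ := 2 * hh q r
def F2 (q : XQ) (x y : ℕ) : ℕ := x &&& bb q y
def F3 (q : XQ) (r y : ℕ) : ℕ := bb q y + 2 * (q.2.2.2.2.1 - 1) * hh q r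
def F4 (q : XQ) (x y : ℕ) : ℕ := (q.2.2.2.2.1 - 1) * (bb q y ^^^ (x &&& bb q y))
def ng (F : XQ → ℕ → ℕ → ℕ) (q : XQ) (u v : ℕ) : ℕ := (q.2.2.2.2.1 - 1) * F q u v
def uX (F : XQ → ℕ → ℕ → ℕ) (q : XQ) (i : ℕ) : ℕ := upd q.1 q.2.2.1 q.2.1 q.2.2.2.2.1 (F q) i
def uR (F : XQ → ℕ → ℕ → ℕ) (q : XQ) (i : ℕ) : ℕ := upd q.2.2.1 q.1 q.2.1 q.2.2.2.2.1 (F q) i
def fw (q : XQ) (i : ℕ) : ℕ := uR F4 q (uX F3 q (uR F2 q (uX F1 q i)))
def bw (q : XQ) (i : ℕ) : ℕ := uX (ng F1) q (uR (ng F2) q (uX (ng F3) q (uR (ng F4) q i)))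
def tg (q : XQ) (i : ℕ) : ℕ :=
  setf q.1 q.2.2.2.2.1 i (fld q.1 q.2.2.2.2.1 i ^^^ bb q (fld q.2.1 q.2.2.2.2.1 i))

def XP (q : XQ) (N : ℕ) : Prop := ∃ B J : ℕ, 1 ≤ B ∧ q.2.2.2.1 = 2 ^ B ∧ q.2.2.2.2.1 = q.2.2.2.1 ^ J ∧
  0 < q.1 ∧ 0 < q.2.1 ∧ 0 < q.2.2.1 ∧ Dis q.1 q.2.1 q.2.2.2.2.1 ∧ Dis q.1 q.2.2.1 q.2.2.2.2.1 ∧
  Dis q.2.1 q.2.2.1 q.2.2.2.2.1 ∧ q.1 * q.2.2.2.2.1 ∣ N ∧ q.2.1 * q.2.2.2.2.1 ∣ N ∧
  q.2.2.1 * q.2.2.2.2.1 ∣ N ∧ 0 < N ∧ J * (Nat.log 2 N + 1) * 8 ≤ 2 ^ ((B - 1) / 2)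

theorem XP.pos {q : XQ} {N : ℕ} (h : XP q N) : 0 < q.2.2.2.2.1 := by
  obtain ⟨B, J, -, h1, h2, -⟩ := h
  rw [h2, h1]; positivity

theorem ng_add {L : ℕ} (hL : 0 < L) (a : ℕ) : (a + (L - 1) * a) % L = 0 := by
  obtain ⟨l, rfl⟩ : ∃ l, L = l + 1 := ⟨L - 1, by omega⟩
  rw [Nat.add_sub_cancel, show a + l * a = (l + 1) * a by ring, Nat.mul_mod_right]

theorem fw_bw {q : XQ} {N : ℕ} (h : XP q N) (i : ℕ) : fw q (bw q i) = i ∧ bw q (fw q i) = i := by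
  have hL := h.pos
  obtain ⟨B, J, -, -, -, a1, a2, a3, a4, a5, a6, -⟩ := h
  have e1 : ∀ F i, uX F q (uX (ng F) q i) = i := fun F i =>
    upd_upd a1 hL a5 a4 (fun u v => by rw [add_comm]; exact ng_add hL _) i
  have e2 : ∀ F i, uX (ng F) q (uX F q i) = i := fun F i =>
    upd_upd a1 hL a5 a4 (fun u v => ng_add hL _) i
  have e3 : ∀ F i, uR F q (uR (ng F) q i) = i := fun F i =>
    upd_upd a3 hL a5.symm a6.symm (fun u v => by rw [add_comm]; exact ng_add hL _) i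
  have e4 : ∀ F i, uR (ng F) q (uR F q i) = i := fun F i =>
    upd_upd a3 hL a5.symm a6.symm (fun u v => ng_add hL _) i
  simp only [fw, bw, e1, e2, e3, e4, and_self]

theorem xp_mu {q : XQ} {B J : ℕ} (hB : 1 ≤ B) (h1 : q.2.2.2.1 = 2 ^ B)
    (h2 : q.2.2.2.2.1 = q.2.2.2.1 ^ J) : mu q = rep (2 ^ B) 1 J ∧ gg q = 2 ^ ((B - 1) / 2) := by
  have : 2 ^ 1 ≤ 2 ^ B := Nat.pow_le_pow_right (by omega) hB
  unfold mu gg
  rw [h2, h1, rep_one (by omega), Nat.size_pow]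
  exact ⟨rfl, rfl⟩

theorem tg_lt {q : XQ} {N : ℕ} (h : XP q N) (i : ℕ) :
    fld q.1 q.2.2.2.2.1 i ^^^ bb q (fld q.2.1 q.2.2.2.2.1 i) < q.2.2.2.2.1 := by
  have hL := h.pos
  obtain ⟨B, J, hB, h1, h2, -⟩ := h
  have : 2 ^ 1 ≤ 2 ^ B := Nat.pow_le_pow_right (by omega) hB
  have e1 : fld q.1 q.2.2.2.2.1 i < q.2.2.2.2.1 := fld_lt hL
  have e2 : bb q (fld q.2.1 q.2.2.2.2.1 i) < q.2.2.2.2.1 := by
    refine lt_of_le_of_lt Nat.and_le_right ?_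
    rw [(xp_mu hB h1 h2).1, h2, h1]; exact rep_lt (by omega) J
  generalize fld q.1 q.2.2.2.2.1 i = x at *
  generalize bb q (fld q.2.1 q.2.2.2.2.1 i) = b at *
  rw [h2, h1, ← pow_mul] at *
  exact Nat.xor_lt_two_pow e1 e2

theorem tg_tg {q : XQ} {N : ℕ} (h : XP q N) (i : ℕ) : tg q (tg q i) = i := by
  have hv := tg_lt h i
  obtain ⟨B, J, -, -, -, a1, a2, a3, a4, a5, a6, -⟩ := h
  unfold tg
  rw [setf_setf a1 hv, fld_setf_same a1 hv, fld_setf_other a1 hv a4, Nat.xor_assoc, Nat.xor_self,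
    Nat.xor_zero, setf_fld]

theorem xor_and_id (x b : ℕ) : b ^^^ ((x ^^^ b) &&& b) = x &&& b := by
  refine Nat.eq_of_testBit_eq (fun i => ?_)
  simp only [Nat.testBit_xor, Nat.testBit_and]
  cases x.testBit i <;> cases b.testBit i <;> rfl

theorem core_arith {B g E J x r y L : ℕ} (hE : 2 ^ B = 2 * 2 ^ g * E) (hL : L = (2 ^ B) ^ J)
    (hr : r < L) (hx : x ^^^ (y &&& rep (2 ^ B) 1 J) < L)
    (c1 : ∀ j < J, r / (2 ^ B) ^ j % 2 ^ g + 1 ≠ 2 ^ g)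
    (c2 : ∀ j < J, x / (2 ^ B) ^ j / (2 * 2 ^ g) % E + 1 ≠ E) (b x1 r2 x3 : ℕ)
    (hb : b = y &&& rep (2 ^ B) 1 J)
    (h1 : x1 = (x + 2 * (r &&& rep (2 ^ B) (2 ^ g - 1) J)) % L) (h2 : r2 = (r + (x1 &&& b)) % L)
    (h3 : x3 = (x1 + (b + 2 * (L - 1) * (r2 &&& rep (2 ^ B) (2 ^ g - 1) J))) % L) :
    x3 = x ^^^ b ∧ (r2 + (L - 1) * (b ^^^ (x3 &&& b))) % L = r := by
  have hG : 0 < 2 ^ g := by positivity
  have hD : 0 < 2 ^ B := by positivity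
  have hE0 : 0 < E := Nat.pos_of_ne_zero (fun h => by rw [h] at hE; omega)
  have hGD : 2 * 2 ^ g ≤ 2 ^ B := by rw [hE]; exact Nat.le_mul_of_pos_right _ hE0
  have m1 : rep (2 ^ B) 1 J < 2 ^ (B * J) := by rw [pow_mul]; exact rep_lt (by omega) J
  have m2 : rep (2 ^ B) (2 ^ g - 1) J < 2 ^ (B * J) := by rw [pow_mul]; exact rep_lt (by omega) J
  have hL' : L = 2 ^ (B * J) := by rw [pow_mul, hL]
  have e1 : x1 &&& b = x &&& b := by
    rw [hb, Nat.and_comm y, ← Nat.and_assoc, ← Nat.and_assoc, h1, hL', mod_and m1, carry2 hE J x r c2]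
  have e2 : r2 &&& rep (2 ^ B) (2 ^ g - 1) J = (r &&& rep (2 ^ B) (2 ^ g - 1) J) + (x &&& b) := by
    rw [h2, e1, hL', mod_and m2, hb, ← Nat.and_assoc, carry1 hE J r _ c1]
  rw [← hb] at hx
  obtain ⟨l, rfl⟩ : ∃ l, L = l + 1 := ⟨L - 1, by omega⟩
  have e3 : x3 = x ^^^ b := by
    rw [h3, e2, h1, Nat.mod_add_mod, Nat.add_sub_cancel]
    have := add_xor x b
    generalize r &&& rep (2 ^ B) (2 ^ g - 1) J = h
    generalize x &&& b = c at *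
    rw [show x + 2 * h + (b + 2 * l * (h + c)) = (x ^^^ b) + (l + 1) * (2 * (h + c)) by
      linear_combination this, Nat.add_mul_mod_self_left, Nat.mod_eq_of_lt hx]
  refine ⟨e3, ?_⟩
  rw [e3, xor_and_id, h2, e1, Nat.mod_add_mod, Nat.add_sub_cancel, add_assoc,
    show (x &&& b) + l * (x &&& b) = (l + 1) * (x &&& b) by ring, Nat.add_mul_mod_self_left,
    Nat.mod_eq_of_lt hr]

theorem fw_eq {q : XQ} {N B J : ℕ} (h : XP q N) (hB : 1 ≤ B) (h1 : q.2.2.2.1 = 2 ^ B)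
    (h2 : q.2.2.2.2.1 = q.2.2.2.1 ^ J) (i : ℕ)
    (c1 : ∀ j < J, fld (q.2.2.1 * (2 ^ B) ^ j) (2 ^ ((B - 1) / 2)) i + 1 ≠ 2 ^ ((B - 1) / 2))
    (c2 : ∀ j < J, fld (q.1 * ((2 ^ B) ^ j * (2 * 2 ^ ((B - 1) / 2)))) (2 ^ (B - 1 - (B - 1) / 2)) i
      + 1 ≠ 2 ^ (B - 1 - (B - 1) / 2)) : fw q i = tg q i := by
  have hL := h.pos
  have hv := tg_lt h i
  obtain ⟨e1, e2⟩ := xp_mu hB h1 h2
  obtain ⟨-, -, -, -, -, a1, a2, a3, a4, a5, a6, -⟩ := h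
  have hE : 2 ^ B = 2 * 2 ^ ((B - 1) / 2) * 2 ^ (B - 1 - (B - 1) / 2) := by
    rw [← pow_succ', ← pow_add]; congr 1; omega
  have hd : ∀ j < J, (2 ^ B) ^ j * 2 ^ B ∣ q.2.2.2.2.1 := fun j hj => by
    rw [h2, h1, ← pow_succ]; exact pow_dvd_pow _ hj
  have key := core_arith (x := fld q.1 q.2.2.2.2.1 i) (r := fld q.2.2.1 q.2.2.2.2.1 i)
    (y := bif q.2.2.2.2.2 then (q.2.2.2.2.1 - 1) else fld q.2.1 q.2.2.2.2.1 i) hE (h1 ▸ h2)
    (fld_lt hL) (by rw [← e1]; exact hv) (fun j hj => by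
      have := c1 j hj
      rwa [← fld_fld (L := q.2.2.2.2.1) ((Nat.mul_dvd_mul_left _ ⟨2 * 2 ^ (B - 1 - (B - 1) / 2), by
        rw [hE]; ring⟩).trans (hd j hj))] at this) (fun j hj => by
      have := c2 j hj
      rwa [← fld_fld (L := q.2.2.2.2.1) (by rw [mul_assoc, ← hE]; exact hd j hj), fld,
        ← Nat.div_div_eq_div_mul] at this) _ _ _ _ rfl rfl rfl rfl
  rw [rep_mul _ (2 ^ ((B - 1) / 2) - 1), ← e1, ← e2] at key
  have ml : ∀ u, u % q.2.2.2.2.1 < q.2.2.2.2.1 := fun u => Nat.mod_lt _ hL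
  unfold fw tg uR uX upd
  simp only [fld_setf_same a1 (ml _), fld_setf_same a3 (ml _), fld_setf_other a1 (ml _) a4,
    fld_setf_other a1 (ml _) a5, fld_setf_other a3 (ml _) a5.symm, fld_setf_other a3 (ml _) a6.symm,
    setf_comm a1 a3 (ml _) (ml _) a5, setf_setf a1 (ml _), setf_setf a3 (ml _), F1, F2, F3, F4, hh, bb]
  rw [key.2, key.1]
  conv_lhs => rw [← fld_setf_other (i := i) a1 hv a5]
  exact setf_fld _ _ _

theorem bad_card {q : XQ} {N : ℕ} (h : XP q N) :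
    ((Finset.range N).filter (fun i => bw q (tg q i) ≠ i)).card * (Nat.log 2 N + 1) ≤ N := by
  obtain ⟨B, J, hB, h1, h2, a1, a2, a3, a4, a5, a6, a7, a8, a9, a10, a11⟩ := id h
  set g := (B - 1) / 2 with hg
  have hE : 2 ^ B = 2 * 2 ^ g * 2 ^ (B - 1 - g) := by
    rw [← pow_succ', ← pow_add]; congr 1; omega
  have hd : ∀ j < J, (2 ^ B) ^ j * 2 ^ B ∣ q.2.2.2.2.1 := fun j hj => by
    rw [h2, h1, ← pow_succ]; exact pow_dvd_pow _ hj
  have hsub : (Finset.range N).filter (fun i => bw q (tg q i) ≠ i) ⊆ (Finset.range J).biUnion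
      (fun j => (Finset.range N).filter (fun i => fld (q.2.2.1 * (2 ^ B) ^ j) (2 ^ g) i + 1 = 2 ^ g) ∪
        (Finset.range N).filter (fun i => fld (q.1 * ((2 ^ B) ^ j * (2 * 2 ^ g))) (2 ^ (B - 1 - g)) i
          + 1 = 2 ^ (B - 1 - g))) := by
    intro i hi
    rw [Finset.mem_filter] at hi
    by_contra hc
    simp only [Finset.mem_biUnion, Finset.mem_union, Finset.mem_filter, hi.1, true_and, not_exists,
      not_and, not_or, Finset.mem_range] at hc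
    apply hi.2
    rw [← fw_eq h hB h1 h2 i (fun j hj => (hc j hj).1) (fun j hj => (hc j hj).2), (fw_bw h i).2]
  have hc : ((Finset.range N).filter (fun i => bw q (tg q i) ≠ i)).card * 2 ^ g ≤ J * (2 * N) := by
    refine (Nat.mul_le_mul_right _ ((Finset.card_le_card hsub).trans Finset.card_biUnion_le)).trans ?_
    rw [Finset.sum_mul]
    refine (Finset.sum_le_card_nsmul _ _ (2 * N) (fun j hj => ?_)).trans (by simp)
    rw [Finset.mem_range] at hj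
    refine (Nat.mul_le_mul_right _ (Finset.card_union_le _ _)).trans ?_
    have b1 := card_fld (lo := q.2.2.1 * (2 ^ B) ^ j) (M := 2 ^ g) (N := N) (by positivity)
      (by
        refine Dvd.dvd.trans ?_ a9
        rw [mul_assoc]
        refine Nat.mul_dvd_mul_left _ ((Nat.mul_dvd_mul_left _ ⟨2 * 2 ^ (B - 1 - g), ?_⟩).trans (hd j hj))
        rw [hE]; ring) (2 ^ g)
    have b2 := card_fld (lo := q.1 * ((2 ^ B) ^ j * (2 * 2 ^ g))) (M := 2 ^ (B - 1 - g)) (N := N)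
      (by positivity) (by
        refine Dvd.dvd.trans ?_ a7
        rw [mul_assoc, mul_assoc, ← hE]
        exact Nat.mul_dvd_mul_left _ (hd j hj)) (2 ^ (B - 1 - g))
    have b3 : 2 ^ g ≤ 2 ^ (B - 1 - g) := Nat.pow_le_pow_right (by omega) (by omega)
    rw [add_mul]
    have := Nat.mul_le_mul_left ((Finset.range N).filter (fun i => fld (q.1 * ((2 ^ B) ^ j *
      (2 * 2 ^ g))) (2 ^ (B - 1 - g)) i + 1 = 2 ^ (B - 1 - g))).card b3
    omega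
  generalize ((Finset.range N).filter (fun i => bw q (tg q i) ≠ i)).card = c at hc
  refine Nat.le_of_mul_le_mul_right ?_ (show 0 < 2 ^ g by positivity)
  calc c * (Nat.log 2 N + 1) * 2 ^ g = c * 2 ^ g * (Nat.log 2 N + 1) := by ring
    _ ≤ J * (2 * N) * (Nat.log 2 N + 1) := Nat.mul_le_mul_right _ hc
    _ = N * (J * (Nat.log 2 N + 1) * 2) := by ring
    _ ≤ N * 2 ^ g := Nat.mul_le_mul_left _ (by omega)

theorem xorStmt (hA : ArrStmt) (hN : NumStmt) (hAdd : AddStmt) (hFix : FixStmt) : XorStmt := by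
  have := Fact.mk hN
  have pmu : PT mu := by unfold mu; fun_prop
  have pgg : PT gg := by unfold gg; fun_prop
  have pbb : ∀ {α : Type} [Enc α] {f : α → XQ} {g : α → ℕ}, PT f → PT g → PT (fun a => bb (f a) (g a)) := by
    intro α _ f g hf hg; unfold bb; fun_prop
  have phh : ∀ {α : Type} [Enc α] {f : α → XQ} {g : α → ℕ}, PT f → PT g → PT (fun a => hh (f a) (g a)) := by
    intro α _ f g hf hg; unfold hh; fun_prop
  have q1 : PT (fun x : XQ × ℕ × ℕ => bb x.1 x.2.2) := pbb (by fun_prop) (by fun_prop)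
  have q2 : PT (fun x : XQ × ℕ × ℕ => hh x.1 x.2.1) := phh (by fun_prop) (by fun_prop)
  have p1 : PT (fun x : XQ × ℕ × ℕ => F1 x.1 x.2.1 x.2.2) := PT.mul (PT.const 2) q2
  have p2 : PT (fun x : XQ × ℕ × ℕ => F2 x.1 x.2.1 x.2.2) := pt_land (by fun_prop) q1
  have p3 : PT (fun x : XQ × ℕ × ℕ => F3 x.1 x.2.1 x.2.2) := PT.add q1 (PT.mul (by fun_prop) q2)
  have p4 : PT (fun x : XQ × ℕ × ℕ => F4 x.1 x.2.1 x.2.2) :=
    PT.mul (by fun_prop) (pt_xor q1 (pt_land (by fun_prop) q1))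
  have pn : ∀ {F : XQ → ℕ → ℕ → ℕ}, PT (fun x : XQ × ℕ × ℕ => F x.1 x.2.1 x.2.2) →
      PT (fun x : XQ × ℕ × ℕ => ng F x.1 x.2.1 x.2.2) := fun h => PT.mul (by fun_prop) h
  have pX : ∀ {F : XQ → ℕ → ℕ → ℕ} {g : XQ × ℕ → ℕ}, PT (fun x : XQ × ℕ × ℕ => F x.1 x.2.1 x.2.2) →
      PT g → PT (fun x : XQ × ℕ => uX F x.1 (g x)) := by
    intro F g h hg
    exact PT_setf (by fun_prop) (by fun_prop) hg (PT.mod (PT.add (by fun_prop)
      (h.comp (f := fun x : XQ × ℕ => (x.1, fld x.1.2.2.1 x.1.2.2.2.2.1 (g x),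
        fld x.1.2.1 x.1.2.2.2.2.1 (g x))) (by fun_prop))) (by fun_prop))
  have pR : ∀ {F : XQ → ℕ → ℕ → ℕ} {g : XQ × ℕ → ℕ}, PT (fun x : XQ × ℕ × ℕ => F x.1 x.2.1 x.2.2) →
      PT g → PT (fun x : XQ × ℕ => uR F x.1 (g x)) := by
    intro F g h hg
    exact PT_setf (by fun_prop) (by fun_prop) hg (PT.mod (PT.add (by fun_prop)
      (h.comp (f := fun x : XQ × ℕ => (x.1, fld x.1.1 x.1.2.2.2.2.1 (g x),
        fld x.1.2.1 x.1.2.2.2.2.1 (g x))) (by fun_prop))) (by fun_prop))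
  have pT : ∀ {g : XQ × ℕ → ℕ}, PT g → PT (fun x : XQ × ℕ => tg x.1 (g x)) := by
    intro g hg
    exact PT_setf (by fun_prop) (by fun_prop) hg (pt_xor (by fun_prop) (pbb (by fun_prop) (by fun_prop)))
  have p0 : PT (fun x : XQ × ℕ => x.2) := by fun_prop
  set X : XQ → ℝ := fun q => (Nat.log 2 q.2.2.2.2.1 + 1 : ℝ) ^ th with hX
  have hX0 : ∀ q, 0 ≤ X q := fun q => by simp only [hX]; positivity
  have cX : ∀ {F : XQ → ℕ → ℕ → ℕ}, PT (fun x : XQ × ℕ × ℕ => F x.1 x.2.1 x.2.2) →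
      PC (uX F) XP X := fun {F} h =>
    hA.pmono (pc_upd hA hAdd (fun q : XQ => q.1) (fun q => q.2.2.1) (fun q => q.2.1)
      (fun q => q.2.2.2.2.1) F (by fun_prop) (by fun_prop) (by fun_prop) (by fun_prop) h) id _ _ _ 1
      (by fun_prop) (fun q N h => by
        have hL := h.pos
        obtain ⟨B, J, hB, h1, h2, a1, a2, a3, a4, a5, a6, a7, a8, a9, a10, a11⟩ := h
        exact ⟨⟨a1, a3, a2, hL, a5, a4, a6.symm, a7, a10⟩, fun _ _ => rfl, hX0 q, by simp [hX]⟩)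
  have cR : ∀ {F : XQ → ℕ → ℕ → ℕ}, PT (fun x : XQ × ℕ × ℕ => F x.1 x.2.1 x.2.2) →
      PC (uR F) XP X := fun {F} h =>
    hA.pmono (pc_upd hA hAdd (fun q : XQ => q.2.2.1) (fun q => q.1) (fun q => q.2.1)
      (fun q => q.2.2.2.2.1) F (by fun_prop) (by fun_prop) (by fun_prop) (by fun_prop) h) id _ _ _ 1
      (by fun_prop) (fun q N h => by
        have hL := h.pos
        obtain ⟨B, J, hB, h1, h2, a1, a2, a3, a4, a5, a6, a7, a8, a9, a10, a11⟩ := h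
        exact ⟨⟨a3, a1, a2, hL, a5.symm, a6.symm, a4, a9, a10⟩, fun _ _ => rfl, hX0 q, by simp [hX]⟩)
  have cfw : PC fw XP X := by
    have := hA.pcomp (cR p4) (hA.pcomp (cX p3) (hA.pcomp (cR p2) (cX p1)))
    exact this
  have cbw : PC bw XP X := by
    have := hA.pcomp (cX (pn p1)) (hA.pcomp (cR (pn p2)) (hA.pcomp (cX (pn p3)) (cR (pn p4))))
    exact this
  have cfx : PC (fun q i => bw q (tg q i)) XP X :=
    hA.pmono (hFix (fun q i => bw q (tg q i)) (fun q i => tg q (fw q i))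
      (pX (pn p1) (pR (pn p2) (pX (pn p3) (pR (pn p4) (pT p0)))))
      (pT (pR p4 (pX p3 (pR p2 (pX p1 p0)))))) id _ _ _ 1 (by fun_prop)
      (fun q N h => ⟨⟨fun i hi => ⟨cbw.2 q N h _ (by
          obtain ⟨B, J, hB, h1, h2, a1, a2, a3, a4, a5, a6, a7, a8, a9, a10, a11⟩ := id h
          exact setf_lt a1 (tg_lt h i) a7 hi), by
          simp only [id]; rw [(fw_bw h _).1, tg_tg h]⟩, bad_card h⟩, fun _ _ => rfl, le_rfl,
        by have := hX0 q; linarith⟩)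
  exact hA.pmono (hA.pcomp cfw cfx) id _ _ _ 1 (by fun_prop)
    (fun q N h => ⟨h, fun i _ => (fw_bw h _).1, hX0 q, by simp [hX]⟩)

end Crest.Agent.H8.IM
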