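import Crest.Agent.H8.IMAdd

set_option autoImplicit false
set_option linter.unusedSectionVars false
set_option linter.unusedVariables false
set_option linter.unusedSimpArgs false

/-! Row 326: digit arithmetic for `XorStmt`. -/

namespace Crest.Agent.H8.IM
open Crest.Agent.H3.Ptime Crest.Agent.H9.IM

theorem add_xor (x : ℕ) : ∀ b, x + b = (x ^^^ b) + 2 * (x &&& b) := by
  induction x using Nat.strong_induction_on with
  | _ x ih =>
    intro b
    rcases Nat.eq_zero_or_pos x with rfl | hx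
    · simp
    have h1 := ih (x / 2) (by omega) (b / 2)
    rw [← Nat.xor_div_two, ← Nat.and_div_two] at h1
    have h2 := @Nat.xor_mod_two_pow x b 1
    have h3 := @Nat.and_mod_two_pow x b 1
    rw [pow_one] at h2 h3
    generalize x ^^^ b = p at *
    generalize x &&& b = n at *
    rcases Nat.mod_two_eq_zero_or_one x with e | e <;> rcases Nat.mod_two_eq_zero_or_one b with e' | e' <;>
      rw [e, e'] at h2 h3 <;> norm_num at h2 h3 <;> omega

/-- the number all of whose `J` digits are `a` -/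
def rep (D a : ℕ) : ℕ → ℕ
  | 0 => 0
  | J + 1 => a + D * rep D a J

theorem rep_lt {D a : ℕ} (h : a < D) (J : ℕ) : rep D a J < D ^ J := by
  induction J with
  | zero => simp [rep]
  | succ J ih => rw [rep, pow_succ']; nlinarith

theorem rep_mul (D a J : ℕ) : rep D a J = rep D 1 J * a := by
  induction J with
  | zero => simp [rep]
  | succ J ih => rw [rep, rep, ih]; ring

theorem rep_one {D : ℕ} (h : 2 ≤ D) (J : ℕ) : (D ^ J - 1) / (D - 1) = rep D 1 J := by
  obtain ⟨d, rfl⟩ : ∃ d, D = d + 1 := ⟨D - 1, by omega⟩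
  have : (d + 1) ^ J = rep (d + 1) 1 J * d + 1 := by
    induction J with
    | zero => simp [rep]
    | succ J ih => rw [rep, pow_succ, ih]; ring
  rw [this, Nat.add_sub_cancel, Nat.add_sub_cancel, Nat.mul_div_cancel _ (by omega)]

theorem and_split {B a : ℕ} (ha : a < 2 ^ B) (u m : ℕ) :
    u &&& (a + 2 ^ B * m) = (u % 2 ^ B &&& a) + 2 ^ B * (u / 2 ^ B &&& m) := by
  conv_lhs => rw [← Nat.mod_add_div (u &&& (a + 2 ^ B * m)) (2 ^ B)]
  rw [Nat.and_mod_two_pow, Nat.and_div_two_pow, Nat.add_mul_mod_self_left, Nat.mod_eq_of_lt ha,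
    Nat.add_mul_div_left _ _ (by positivity), Nat.div_eq_of_lt ha, zero_add]

theorem mod_and {n m : ℕ} (hm : m < 2 ^ n) (u : ℕ) : u % 2 ^ n &&& m = u &&& m := by
  rw [← Nat.mod_eq_of_lt hm, ← Nat.and_mod_two_pow, Nat.mod_eq_of_lt hm,
    Nat.mod_eq_of_lt (lt_of_le_of_lt Nat.and_le_right hm)]

theorem add_digit {D : ℕ} (r c0 c' : ℕ) (h : r % D + c0 < D) :
    (r + (c0 + D * c')) % D = r % D + c0 ∧ (r + (c0 + D * c')) / D = r / D + c' := by
  have hD : 0 < D := by omega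
  have e : r + (c0 + D * c') = (r % D + c0) + D * (r / D + c') := by
    have := Nat.mod_add_div r D
    rw [mul_add]; omega
  rw [e, Nat.add_mul_mod_self_left, Nat.mod_eq_of_lt h, Nat.add_mul_div_left _ _ hD,
    Nat.div_eq_of_lt h, zero_add]
  exact ⟨rfl, rfl⟩

theorem carry1 {B g E : ℕ} (hE : 2 ^ B = 2 * 2 ^ g * E) (J : ℕ) : ∀ r c : ℕ,
    (∀ j < J, r / (2 ^ B) ^ j % 2 ^ g + 1 ≠ 2 ^ g) →
    (r + (c &&& rep (2 ^ B) 1 J)) &&& rep (2 ^ B) (2 ^ g - 1) J =
      (r &&& rep (2 ^ B) (2 ^ g - 1) J) + (c &&& rep (2 ^ B) 1 J) := by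
  have hG : 0 < 2 ^ g := by positivity
  have hD : 0 < 2 ^ B := by positivity
  have hE0 : 0 < E := Nat.pos_of_ne_zero (fun h => by rw [h] at hE; omega)
  have hGD : 2 * 2 ^ g ≤ 2 ^ B := by rw [hE]; exact Nat.le_mul_of_pos_right _ hE0
  have hdv : 2 ^ g ∣ 2 ^ B := ⟨2 * E, by rw [hE]; ring⟩
  induction J with
  | zero => simp [rep]
  | succ J ih =>
    intro r c h
    have h0 := h 0 (by omega)
    rw [pow_zero, Nat.div_one] at h0
    have ih' := ih (r / 2 ^ B) (c / 2 ^ B) (fun j hj => by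
      have := h (j + 1) (by omega)
      rwa [pow_succ', ← Nat.div_div_eq_div_mul] at this)
    simp only [rep]
    rw [and_split (show 1 < 2 ^ B by omega) c]
    have hc : c % 2 ^ B &&& 1 ≤ 1 := Nat.and_le_right
    generalize c % 2 ^ B &&& 1 = c0 at hc ⊢
    have hr := Nat.mod_lt r hG
    have h1 : r % 2 ^ B + c0 < 2 ^ B := by
      by_contra hc'
      have := Nat.mod_lt r hD
      have e : r % 2 ^ B + 1 = 2 ^ B := by omega
      have e2 : (r % 2 ^ B + 1) % 2 ^ g = 0 := by rw [e]; exact Nat.mod_eq_zero_of_dvd hdv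
      rw [← Nat.mod_add_mod, Nat.mod_mod_of_dvd _ hdv, Nat.mod_eq_of_lt (by omega)] at e2
      omega
    obtain ⟨e1, e2⟩ := add_digit r c0 (c / 2 ^ B &&& rep (2 ^ B) 1 J) h1
    rw [and_split (show 2 ^ g - 1 < 2 ^ B by omega), and_split (show 2 ^ g - 1 < 2 ^ B by omega) r,
      e1, e2, ih', Nat.and_two_pow_sub_one_eq_mod, Nat.and_two_pow_sub_one_eq_mod,
      ← Nat.mod_add_mod, Nat.mod_mod_of_dvd _ hdv, Nat.mod_eq_of_lt (a := r % 2 ^ g + c0) (by omega)]
    ring

theorem carry2 {B g E : ℕ} (hE : 2 ^ B = 2 * 2 ^ g * E) (J : ℕ) : ∀ x r : ℕ,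
    (∀ j < J, x / (2 ^ B) ^ j / (2 * 2 ^ g) % E + 1 ≠ E) →
    (x + 2 * (r &&& rep (2 ^ B) (2 ^ g - 1) J)) &&& rep (2 ^ B) 1 J = x &&& rep (2 ^ B) 1 J := by
  have hG : 0 < 2 ^ g := by positivity
  have hD : 0 < 2 ^ B := by positivity
  have hE0 : 0 < E := Nat.pos_of_ne_zero (fun h => by rw [h] at hE; omega)
  have hGD : 2 * 2 ^ g ≤ 2 ^ B := by rw [hE]; exact Nat.le_mul_of_pos_right _ hE0
  induction J with
  | zero => simp [rep]
  | succ J ih =>
    intro x r h
    have h0 := h 0 (by omega)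
    rw [pow_zero, Nat.div_one] at h0
    have ih' := ih (x / 2 ^ B) (r / 2 ^ B) (fun j hj => by
      have := h (j + 1) (by omega)
      rwa [pow_succ', ← Nat.div_div_eq_div_mul x] at this)
    simp only [rep]
    rw [and_split (show 2 ^ g - 1 < 2 ^ B by omega) r]
    have hc : r % 2 ^ B &&& (2 ^ g - 1) ≤ 2 ^ g - 1 := Nat.and_le_right
    generalize r % 2 ^ B &&& (2 ^ g - 1) = c0 at hc ⊢
    have h1 : x % 2 ^ B + 2 * c0 < 2 ^ B := by
      have e := fld_eq_mod_div (2 * 2 ^ g) E x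
      unfold fld at e
      rw [← hE] at e
      have h2 := Nat.mod_lt (x / (2 * 2 ^ g)) hE0
      rw [e] at h0 h2
      have h3 : x % 2 ^ B / (2 * 2 ^ g) < E - 1 := by omega
      rw [Nat.div_lt_iff_lt_mul (by omega), Nat.sub_mul, mul_comm E, ← hE] at h3
      omega
    obtain ⟨e1, e2⟩ := add_digit x (2 * c0) (2 * (r / 2 ^ B &&& rep (2 ^ B) (2 ^ g - 1) J)) h1
    rw [mul_add, mul_left_comm, and_split (show 1 < 2 ^ B by omega),
      and_split (show 1 < 2 ^ B by omega) x, e1, e2, ih', Nat.and_one_is_mod, Nat.and_one_is_mod]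
    omega

theorem fld_fld {lo L a M : ℕ} (h : a * M ∣ L) (i : ℕ) : fld a M (fld lo L i) = fld (lo * a) M i := by
  rw [fld_eq_mod_div, fld, Nat.mod_mod_of_dvd _ h, ← fld_eq_mod_div, fld, fld,
    Nat.div_div_eq_div_mul]

theorem card_fld {lo M N : ℕ} (hlo : 0 < lo) (h : lo * M ∣ N) (c : ℕ) :
    ((Finset.range N).filter (fun i => fld lo M i + 1 = c)).card * M ≤ N := by
  rcases Nat.eq_zero_or_pos M with rfl | hM
  · simp
  conv_lhs => rw [← Finset.card_range M]
  rw [← Finset.card_product]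
  conv_rhs => rw [← Finset.card_range N]
  refine Finset.card_le_card_of_injOn (fun p => setf lo M p.1 p.2) (fun p hp => ?_)
    (fun p hp p' hp' e => ?_)
  · simp at hp ⊢
    exact setf_lt hlo hp.2 h hp.1.1
  · simp at hp hp' e
    have e1 : p.2 = p'.2 := by
      rw [← fld_setf_same (i := p.1) hlo hp.2, e, fld_setf_same hlo hp'.2]
    have e2 := congrArg (fun u => setf lo M u (fld lo M p.1)) e
    simp only [setf_setf hlo hp.2, setf_setf hlo hp'.2, setf_fld] at e2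
    rw [show fld lo M p.1 = fld lo M p'.1 by omega, setf_fld] at e2
    exact Prod.ext e2 e1

/-- update of a field by a function of two other fields -/
def upd (lo a c L : ℕ) (F : ℕ → ℕ → ℕ) (i : ℕ) : ℕ :=
  setf lo L i ((fld lo L i + F (fld a L i) (fld c L i)) % L)

theorem upd_lt {lo a c L N : ℕ} (F : ℕ → ℕ → ℕ) (hlo : 0 < lo) (hL : 0 < L) (h : lo * L ∣ N)
    {i : ℕ} (hi : i < N) : upd lo a c L F i < N := setf_lt hlo (Nat.mod_lt _ hL) h hi

theorem upd_upd {lo a c L : ℕ} {F F' : ℕ → ℕ → ℕ} (hlo : 0 < lo) (hL : 0 < L) (h1 : Dis lo a L)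
    (h2 : Dis lo c L) (h : ∀ u v, (F' u v + F u v) % L = 0) (i : ℕ) :
    upd lo a c L F (upd lo a c L F' i) = i := by
  have hv := Nat.mod_lt (fld lo L i + F' (fld a L i) (fld c L i)) hL
  unfold upd
  rw [setf_setf hlo hv, fld_setf_same hlo hv, fld_setf_other hlo hv h1, fld_setf_other hlo hv h2,
    Nat.mod_add_mod, add_assoc, ← Nat.add_mod_mod, h, add_zero, Nat.mod_eq_of_lt (fld_lt hL),
    setf_fld]

theorem dis_le {a b L : ℕ} (h : Dis a b L) (ha : 0 < a) (hL : 0 < L) (hab : a ≤ b) :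
    a = b ∨ a * L ∣ b := by
  rcases h with h | h
  · exact Or.inr h
  · have := Nat.le_of_dvd ha h
    have := Nat.le_mul_of_pos_right b hL
    omega

theorem min3 {a b c L : ℕ} (ha : 0 < a) (hb : 0 < b) (hc : 0 < c) (hL : 0 < L) (h1 : Dis a b L)
    (h2 : Dis a c L) : min a (min b c) = a ∨ min a (min b c) * L ∣ a := by
  rcases le_total b c with h | h
  · rw [min_eq_left h]
    rcases le_total a b with h' | h'
    · exact Or.inl (min_eq_left h')
    · rw [min_eq_right h']; exact dis_le h1.symm hb hL h'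
  · rw [min_eq_right h]
    rcases le_total a c with h' | h'
    · exact Or.inl (min_eq_left h')
    · rw [min_eq_right h']; exact dis_le h2.symm hc hL h'

theorem min3' {a b c L : ℕ} (ha : 0 < a) (hb : 0 < b) (hc : 0 < c) (hL : 0 < L) (h1 : Dis a b L)
    (h2 : Dis a c L) : min a (min b c) ∣ a :=
  (min3 ha hb hc hL h1 h2).elim (fun h => by rw [h]) (fun h => (dvd_mul_right _ _).trans h)

theorem pc_upd (hA : ArrStmt) (hAdd : AddStmt) {Q : Type} [Enc Q] (lo a c L : Q → ℕ)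
    (F : Q → ℕ → ℕ → ℕ) (h1 : PT lo) (h2 : PT a) (h3 : PT c) (h4 : PT L)
    (h5 : PT (fun x : Q × ℕ × ℕ => F x.1 x.2.1 x.2.2)) :
    PC (fun q i => upd (lo q) (a q) (c q) (L q) (F q) i)
      (fun q N => 0 < lo q ∧ 0 < a q ∧ 0 < c q ∧ 0 < L q ∧ Dis (lo q) (a q) (L q) ∧
        Dis (lo q) (c q) (L q) ∧ Dis (a q) (c q) (L q) ∧ lo q * L q ∣ N ∧ 0 < N)
      (fun q => (Nat.log 2 (L q) + 1 : ℝ) ^ th) := by
  refine hA.pmono (hAdd lo (fun q => min (lo q) (min (a q) (c q))) L L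
    (fun q u => F q (fld (a q) (L q) u) (fld (c q) (L q) u)) h1 (by fun_prop) h4 h4
    (h5.comp (f := fun x : Q × ℕ => (x.1, fld (a x.1) (L x.1) x.2, fld (c x.1) (L x.1) x.2))
      (by fun_prop))) id _ _ _ 1 (by fun_prop)
    (fun q N ⟨b1, b2, b3, b4, b5, b6, b7, b8, b9⟩ => ⟨⟨by simp [b1, b2, b3], b4, le_rfl,
      min3 b1 b2 b3 b4 b5 b6, b8, b9⟩, fun i _ => ?_, by simp only [id]; positivity, by simp⟩)
  have d1 := min3' b2 b1 b3 b4 b5.symm b7
  have d2 := min3' b3 b1 b2 b4 b6.symm b7.symm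
  rw [min_left_comm] at d1
  rw [min_left_comm, min_comm (c q)] at d2
  simp only [id, fld_lt b4, if_true, upd]
  rw [fld_setf_other b1 b4 b5, fld_setf_other b1 b4 b6, fld_trunc d1, fld_trunc d2]

end Crest.Agent.H8.IM
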