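import Crest.Agent.H8.P3C4

/-! Row 40, P3: labels at a triangle. -/

set_option autoImplicit false

namespace Crest.Agent.H8.P3
open MeasureTheory Metric Set Filter Topology
open Crest.Agent.H2.Gm Crest.Agent.Lead.P3

theorem tStmt (hB : BasicStmt) (hT : ThinStmt) (hR : TransStmt) (hJ : JStmt) : TStmt := by
  intro C x P a b c d f hn hf h1 h2 h3
  by_contra h0
  set T := {s | ¬ (s ∈ P.S d ∨ s ∈ P.S f)} with hTdef
  have hTm : MeasurableSet T := ((P.meas d).union (P.meas f)).compl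
  have hT0 : volume T ≠ 0 := h0
  have l1 : ∀ᵐ s : ℝ, s ∈ T → s ∈ P.S a ∧ s ∈ P.S b ∧ s ∈ P.S c := by
    filter_upwards [P.L1 _ h1, P.L1 _ h2, P.L1 _ h3] with s ⟨j1, n1, m1⟩ ⟨j2, n2, m2⟩
      ⟨j3, n3, m3⟩ hs
    simp only [Finset.mem_insert, Finset.mem_singleton, not_or, hTdef, mem_ofPred_eq]
      at n1 n2 n3 hs
    refine ⟨?_, ?_, ?_⟩
    · rcases five a b c d f j2 hn with rfl | rfl | rfl | rfl | rfl <;> tauto
    · rcases five a b c d f j3 hn with rfl | rfl | rfl | rfl | rfl <;> tauto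
    · rcases five a b c d f j1 hn with rfl | rfl | rfl | rfl | rfl <;> tauto
  have abc : ∀ p q, Dens T p → Real.sin (p - q) ≠ 0 → ∀ j, j ≠ d → j ≠ f →
      D0 (C.A j) (x + e p + e q) := fun p q hp hs j hd hf => by
    rcases five a b c d f j hn with rfl | rfl | rfl | rfl | rfl
    · exact hT C x P _ p q (dens_mono hp (l1.mono fun s h h' => (h h').1)) hs
    · exact hT C x P _ p q (dens_mono hp (l1.mono fun s h h' => (h h').2.1)) hs
    · exact hT C x P _ p q (dens_mono hp (l1.mono fun s h h' => (h h').2.2)) hs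
    · exact absurd rfl hd
    · exact absurd rfl hf
  have hd : x ∈ closure (C.A d) := by
    by_contra hd
    obtain ⟨r, hr, H⟩ := Metric.isOpen_iff.1
      (isClosed_closure.isOpen_compl.inter isClosed_closure.isOpen_compl) x ⟨hd, hf⟩
    obtain ⟨p, hp0, hp⟩ := exists_of_ne_zero hT0 (hB.1 T hTm)
    have hm : 0 < min r 1 / 2 := by positivity
    have hm1 : min r 1 ≤ r := min_le_left _ _
    have hm2 : min r 1 ≤ 1 := min_le_right _ _
    have hy : x + e p + e (p - min r 1 / 2 + Real.pi) ∈ ball x r := by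
      rw [mem_ball, dist_eq_norm, add_assoc, add_sub_cancel_left, e_add_pi, ← sub_eq_add_neg]
      refine (e_sub _ _).trans_lt ?_
      rw [sub_sub_cancel, abs_of_pos hm]
      linarith
    have hs : Real.sin (p - (p - min r 1 / 2 + Real.pi)) ≠ 0 := by
      rw [show p - (p - min r 1 / 2 + Real.pi) = min r 1 / 2 - Real.pi by ring, Real.sin_sub_pi,
        neg_ne_zero]
      exact (Real.sin_pos_of_pos_of_lt_pi hm (by linarith [Real.pi_gt_three])).ne'
    obtain ⟨col, c1, -⟩ := hR C Unit (fun _ => x + e p + e (p - min r 1 / 2 + Real.pi))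
      (fun _ _ => True) fun _ j _ => by
        by_cases hj : j = f
        · rw [hj]; exact D0.of_notMem (H hy).2
        by_cases hj' : j = d
        · rw [hj']; exact D0.of_notMem (H hy).1
        exact abc _ _ (hp hp0) hs j hj' hj
    exact c1 () trivial
  have l2 : ∀ᵐ s : ℝ, s ∉ P.S f → s ∈ P.S a ∨ s ∈ P.S b ∨ s ∈ P.S c := by
    filter_upwards [P.L1 _ (hB.2.2.2.2.2.2.1 C x d hd)] with s ⟨j, n, m⟩ hs
    simp only [Finset.mem_singleton] at n
    rcases five a b c d f j hn with rfl | rfl | rfl | rfl | rfl <;> tauto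
  have sh := (measurePreserving_add_right volume (Real.pi / 3)).quasiMeasurePreserving
  have l3 : ∀ᵐ s : ℝ, s ∈ (P.S f)ᶜ → s + Real.pi / 3 ∈ P.S f := by
    filter_upwards [l1, l2, sh.ae l1, sh.ae l2, P.L2 a, P.L2 b, P.L2 c, P.L2 d]
      with s q1 q2 q3 q4 q5 q6 q7 q8 hs
    by_contra hs'
    by_cases e1 : s ∈ P.S d
    · obtain ⟨u1, u2, u3⟩ := q3 fun h => h.elim (fun h => q8 ⟨e1, h⟩) hs'
      rcases q2 hs with h | h | h
      exacts [q5 ⟨h, u1⟩, q6 ⟨h, u2⟩, q7 ⟨h, u3⟩]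
    · obtain ⟨u1, u2, u3⟩ := q1 fun h => h.elim e1 hs
      rcases q4 hs' with h | h | h
      exacts [q5 ⟨u1, h⟩, q6 ⟨u2, h⟩, q7 ⟨u3, h⟩]
  have n1 : volume (P.S f)ᶜ ≠ 0 := fun h => hT0 (measure_mono_null (fun s hs h' => hs (Or.inr h')) h)
  have n2 : volume (P.S f) ≠ 0 := fun h => n1 (measure_eq_zero_iff_ae_notMem.2 (by
    filter_upwards [l3, sh.ae (measure_eq_zero_iff_ae_notMem.1 h)] with s q1 q2 hs
    exact q2 (q1 hs)))
  obtain ⟨s, a1, a2⟩ := hB.2.2.2.2.2.2.2.2.2.1 _ _ (P.meas f) (P.meas f).compl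
    (ae_of_all _ fun s => em _) n2 n1
  obtain ⟨p, q, t, t', d1, d2, d3, d4, s1, s2, hd⟩ := hJ _ _ T s hTm hT0 a1 (acc_shift _ a2 l3)
  have pair : ∀ p t, Dens (P.S f) p → Dens T t → Real.sin (p - t) ≠ 0 → ∀ j, j ≠ d →
      D0 (C.A j) (x + (e p + e t)) := fun p t hp ht hs j hj => by
    by_cases hj' : j = f
    · rw [hj', ← add_assoc]; exact hT C x P _ p t hp hs
    · rw [add_comm (e p), ← add_assoc]
      exact abc _ _ ht (by rwa [← neg_sub, Real.sin_neg, neg_ne_zero]) j hj hj'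
  obtain ⟨col, c1, c2⟩ := hR C Bool (fun v => if v then x + (e p + e t) else x + (e q + e t'))
    (fun _ j => j ≠ d) (by rintro (_ | _) j hj; exacts [pair _ _ d2 d4 s2 j hj, pair _ _ d1 d3 s1 j hj])
  exact c2 true false (by simpa [dist_eq_norm] using hd)
    ((not_not.1 (c1 true)).trans (not_not.1 (c1 false)).symm)

end Crest.Agent.H8.P3
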