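import Crest.Agent.H8.QQImpl

/-! From real phase-query algorithms to `QuantumComputes`. -/

set_option autoImplicit false
open Finset Matrix Crest.MathPhysics.Query

namespace Crest.Agent.Lead.QQ

section conv
variable {n w : ℕ} {E : Type} [Fintype E] [DecidableEq E]

/-- plain embedding -/
noncomputable def J0 (i0 : Fin n) (κ : E × Bool ≃ Fin w) : Matrix (QIdx n w) E ℝ :=
  of fun z e => if z = (i0, false, κ (e, false)) then 1 else 0

/-- embedding prepared for the phase query `ι` -/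
noncomputable def Jq (i0 : Fin n) (κ : E × Bool ≃ Fin w) (ι : E → Option (Fin n)) :
    Matrix (QIdx n w) E ℝ :=
  of fun z e => if z.1 = (ι e).getD i0 ∧ z.2.2 = κ (e, true) then
    sg (z.2.1 && (ι e).isSome) / Real.sqrt 2 else 0

lemma J0_iso (i0 : Fin n) (κ : E × Bool ≃ Fin w) : (J0 i0 κ)ᵀ * J0 i0 κ = 1 := by
  ext a b
  simp [J0, Matrix.mul_apply, Matrix.one_apply, eq_comm]

lemma J0_Jq (i0 : Fin n) (κ : E × Bool ≃ Fin w) (ι : E → Option (Fin n)) :
    (J0 i0 κ)ᵀ * Jq i0 κ ι = 0 := by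
  ext a b
  simp only [J0, Matrix.mul_apply, transpose_apply, of_apply, ite_mul, one_mul, zero_mul,
    Finset.sum_ite_eq', Finset.mem_univ, if_true]
  simp [Jq]

lemma Jq_diag (i0 : Fin n) (κ : E × Bool ≃ Fin w) (ι : E → Option (Fin n)) (g : E → ℝ)
    (a b : E) : ∑ z : QIdx n w, g (κ.symm z.2.2).1 * (Jq i0 κ ι z a * Jq i0 κ ι z b)
      = if a = b then g a else 0 := by
  have h2 : Real.sqrt 2 * Real.sqrt 2 = 2 := Real.mul_self_sqrt (by norm_num)
  simp only [Jq, of_apply, Fintype.sum_prod_type]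
  rw [Finset.sum_eq_single ((ι a).getD i0)]
  · have : ∀ c : Bool, ∑ z : Fin w, g (κ.symm z).1 *
        ((if (ι a).getD i0 = (ι a).getD i0 ∧ z = κ (a, true) then
          sg (c && (ι a).isSome) / Real.sqrt 2 else 0) *
        (if (ι a).getD i0 = (ι b).getD i0 ∧ z = κ (b, true) then
          sg (c && (ι b).isSome) / Real.sqrt 2 else 0)) = if a = b then g a / 2 else 0 := by
      intro c
      rw [Finset.sum_eq_single (κ (a, true))]
      · by_cases hab : a = b
        · subst hab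
          simp only [and_self, if_true, Equiv.symm_apply_apply]
          rw [div_mul_div_comm, sg_mul_self, h2]; ring
        · simp [hab]
      · intro z _ hz; simp [hz]
      · simp
    rw [Finset.sum_congr rfl fun c _ => this c]
    split_ifs <;> simp
    ring
  · intro i _ hi; simp [hi]
  · simp

lemma Jq_iso (i0 : Fin n) (κ : E × Bool ≃ Fin w) (ι : E → Option (Fin n)) :
    (Jq i0 κ ι)ᵀ * Jq i0 κ ι = 1 := by
  ext a b
  have := Jq_diag i0 κ ι (fun _ => 1) a b
  simpa [Matrix.mul_apply, Matrix.one_apply] using this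

lemma Jq_meas (i0 : Fin n) (κ : E × Bool ≃ Fin w) (ι : E → Option (Fin n)) (g v : E → ℝ) :
    ∑ z : QIdx n w, g (κ.symm z.2.2).1 * (Jq i0 κ ι *ᵥ v) z ^ 2 = ∑ e, v e ^ 2 * g e := by
  have : ∀ z : QIdx n w, g (κ.symm z.2.2).1 * (Jq i0 κ ι *ᵥ v) z ^ 2
      = ∑ a, ∑ b, (v a * v b) * (g (κ.symm z.2.2).1 * (Jq i0 κ ι z a * Jq i0 κ ι z b)) := by
    intro z
    simp only [Matrix.mulVec, dotProduct, sq]
    rw [Finset.sum_mul_sum]
    simp only [Finset.mul_sum]
    exact Finset.sum_congr rfl fun a _ => Finset.sum_congr rfl fun b _ => by ring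
  simp only [this]
  rw [Finset.sum_comm]
  refine Finset.sum_congr rfl fun a _ => ?_
  rw [Finset.sum_comm]
  simp only [← Finset.mul_sum, Jq_diag]
  simp [sq]

lemma oracle_Jq (i0 : Fin n) (κ : E × Bool ≃ Fin w) (ι : E → Option (Fin n)) (x : Fin n → Bool)
    (v : E → ℝ) : oracle x (fun z => (((Jq i0 κ ι *ᵥ v) z : ℝ) : ℂ))
      = fun z => (((Jq i0 κ ι *ᵥ (Dq ι x *ᵥ v)) z : ℝ) : ℂ) := by
  funext ⟨i, b, z⟩
  simp only [oracle]
  congr 1
  simp only [Dq, Matrix.mulVec, dotProduct, Jq, of_apply, diagonal_apply, ite_mul, zero_mul,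
    Finset.sum_ite_eq, Finset.mem_univ, if_true]
  refine Finset.sum_congr rfl fun e _ => ?_
  split_ifs with h
  · obtain ⟨h1, _⟩ := h
    cases hι : ι e with
    | none => simp [qs]
    | some j =>
      rw [hι] at h1
      simp only [Option.getD_some] at h1
      subst h1
      cases b <;> cases hx : x i <;> simp [qs, hx] <;> ring
  · rfl

lemma stateAfter_congr {U U' : ℕ → Matrix (QIdx n w) (QIdx n w) ℂ} (x : Fin n → Bool)
    (ψ : QIdx n w → ℂ) : ∀ q : ℕ, (∀ t ≤ q, U t = U' t) →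
      stateAfter U x ψ q = stateAfter U' x ψ q
  | 0, h => by simp only [stateAfter, h 0 le_rfl]
  | q + 1, h => by
    simp only [stateAfter, h (q + 1) le_rfl,
      stateAfter_congr x ψ q fun t ht => h t (by omega)]

lemma Orth.unitary {B : Type} [Fintype B] [DecidableEq B] {W : Matrix B B ℝ} (h : Orth W) :
    W.map (fun r : ℝ => (r : ℂ)) ∈ Matrix.unitaryGroup B ℂ := by
  rw [Matrix.mem_unitaryGroup_iff']
  ext a b
  have := congrFun (congrFun h a) b
  simp only [Matrix.mul_apply, transpose_apply, Matrix.one_apply] at this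
  simp only [Matrix.mul_apply, star_apply, map_apply, Matrix.one_apply, Complex.star_def,
    Complex.conj_ofReal]
  split_ifs at this ⊢ <;> exact_mod_cast this

lemma map_mulVec' {B : Type} [Fintype B] (W : Matrix B B ℝ) (v : B → ℝ) :
    (W.map (fun r : ℝ => (r : ℂ))) *ᵥ (fun z => ((v z : ℝ) : ℂ)) = fun z => (((W *ᵥ v) z : ℝ) : ℂ) := by
  funext z
  simp [Matrix.mulVec, dotProduct]

lemma iso_mul {B : Type} [Fintype B] {J : Matrix B E ℝ} {U : Matrix E E ℝ} (hJ : Jᵀ * J = 1)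
    (hU : Orth U) : (J * U)ᵀ * (J * U) = 1 := by
  rw [transpose_mul, Matrix.mul_assoc, ← Matrix.mul_assoc Jᵀ, hJ, Matrix.one_mul]; exact hU

lemma impl_state (i0 : Fin n) (κ : E × Bool ≃ Fin w) (v0 : E → ℝ) :
    ∀ {q : ℕ} {A : (Fin n → Bool) → Matrix E E ℝ}, Impl q A → ∀ J : Matrix (QIdx n w) E ℝ,
      Jᵀ * J = 1 → (J0 i0 κ)ᵀ * J = 0 →
      ∃ U : ℕ → Matrix (QIdx n w) (QIdx n w) ℂ, (∀ t, U t ∈ Matrix.unitaryGroup (QIdx n w) ℂ) ∧
        ∀ x, stateAfter U x (fun z => (((J0 i0 κ *ᵥ v0) z : ℝ) : ℂ)) q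
          = fun z => (((J *ᵥ (A x *ᵥ v0)) z : ℝ) : ℂ)
  | 0, A, ⟨V, hV, h⟩, J, hJ, hJ0 => by
    obtain ⟨W, hW, hW'⟩ := exists_orth_ext (J0 i0 κ) (J * V) (J0_iso i0 κ) (iso_mul hJ hV)
      (by rw [← Matrix.mul_assoc, hJ0, Matrix.zero_mul])
    refine ⟨fun _ => W.map (fun r : ℝ => (r : ℂ)), fun _ => hW.unitary, fun x => ?_⟩
    simp only [stateAfter]
    rw [map_mulVec', Matrix.mulVec_mulVec, hW', h, Matrix.mulVec_mulVec]
  | q + 1, A, ⟨V, ι, B, hV, hB, h⟩, J, hJ, hJ0 => by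
    obtain ⟨U, hU, hU'⟩ := impl_state i0 κ v0 hB (Jq i0 κ ι) (Jq_iso i0 κ ι) (J0_Jq i0 κ ι)
    obtain ⟨W2, hW2, hW2'⟩ := exists_orth_ext (J0 i0 κ) (J * V) (J0_iso i0 κ) (iso_mul hJ hV)
      (by rw [← Matrix.mul_assoc, hJ0, Matrix.zero_mul])
    obtain ⟨W1, hW1, hW1'⟩ := exists_orth_ext (Jq i0 κ ι) (J0 i0 κ) (Jq_iso i0 κ ι) (J0_iso i0 κ)
      (by simpa [transpose_mul] using congrArg transpose (J0_Jq i0 κ ι))
    refine ⟨Function.update U (q + 1) ((W2 * W1).map (fun r : ℝ => (r : ℂ))), fun t => ?_,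
      fun x => ?_⟩
    · by_cases ht : t = q + 1
      · subst ht; rw [Function.update_self]; exact (hW2.mul hW1).unitary
      · rw [Function.update_of_ne ht]; exact hU t
    · simp only [stateAfter, Function.update_self]
      rw [stateAfter_congr (U' := U) x _ q fun t ht => Function.update_of_ne (by omega) _ _,
        hU', oracle_Jq, map_mulVec', h]
      simp only [Matrix.mulVec_mulVec, ← Matrix.mul_assoc]
      rw [Matrix.mul_assoc W2, hW1', hW2']

end conv

theorem QAlg.computes {I : Type} [Fintype I] [Nonempty I] {q : ℕ}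
    {P : (I → Bool) → (Bool → ℝ) → ℝ} (h : QAlg q P) (f : (I → Bool) → Bool)
    (hf : ∀ x, 2 / 3 ≤ P x (fun b => if b = f x then 1 else 0)) :
    QuantumComputes (onFin f) q := by
  obtain ⟨E, _, _, A, e0, out, hA, h⟩ := h
  let κ := Fintype.equivFin (E × Bool)
  let i0 : Fin (Fintype.card I) := Fintype.equivFin I (Classical.arbitrary I)
  obtain ⟨U, hU, hU'⟩ := impl_state i0 κ (Pi.single e0 1) (hA.comp (Fintype.equivFin I))
    (Jq i0 κ fun _ => none) (Jq_iso _ _ _) (J0_Jq _ _ _)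
  refine ⟨_, U, fun z => (((J0 i0 κ *ᵥ (Pi.single e0 1 : E → ℝ)) z : ℝ) : ℂ),
    fun z => out (κ.symm z.2.2).1, hU, ?_, fun x => ?_⟩
  · simp [J0, Matrix.mulVec_single, apply_ite, Complex.norm_real]
  · rw [hU']
    have h1 := Jq_meas i0 κ (fun _ => none)
      (fun e => if out e = onFin f x then (1 : ℝ) else 0)
      (A (fun i => x (Fintype.equivFin I i)) *ᵥ (Pi.single e0 1 : E → ℝ))
    have h2 := hf (fun i => x (Fintype.equivFin I i))
    rw [h] at h2
    refine h2.trans (le_of_eq ?_)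
    simp only [Matrix.mulVec_single, MulOpposite.op_one, one_smul, col_apply] at h1 ⊢
    refine Eq.trans h1.symm (Finset.sum_congr rfl fun z _ => ?_)
    split_ifs <;> simp

end Crest.Agent.Lead.QQ
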