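import Crest.Agent.H8.QQAmp
import Crest.Agent.H8.QQConv

/-! The quantum algorithm for the pointer/forrelation function. -/

set_option autoImplicit false
open Finset Matrix Crest.MathPhysics.Query

namespace Crest.Agent.Lead.QQ

section forr
variable {I : Type} {K L r : ℕ}

lemma impl_vec (e : FV K L → I) (i : ℕ) : ∃ W : (I → Bool) → Matrix (BV L) (BV L) ℝ, Impl i W ∧
    ∀ x u, W x u (fun _ => false) = vec (fun v => x (e v)) i u / Real.sqrt (2 ^ L) ^ (i + 1) := by
  have hN : (0 : ℝ) < 2 ^ L := by positivity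
  have hs : Real.sqrt (2 ^ L) ≠ 0 := by positivity
  have hH : Orth (of fun u w : BV L => had u w / Real.sqrt (2 ^ L)) := by
    unfold Orth
    ext a b
    simp only [Matrix.mul_apply, transpose_apply, of_apply, div_mul_div_comm,
      Real.mul_self_sqrt hN.le, ← Finset.sum_div, Matrix.one_apply]
    simp only [had_comm _ a, sum_had_mul]
    split_ifs
    · field_simp
    · simp
  induction i with
  | zero => exact ⟨_, Impl.const hH, fun x u => by simp [had_zero_right, vec]⟩
  | succ i ih =>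
    obtain ⟨W, hW, hW'⟩ := ih
    refine ⟨_, ⟨_, fun w => if h : i < K then some (e (⟨i, h⟩, w)) else none, W, hH, hW,
      fun _ => rfl⟩, fun x u => ?_⟩
    rw [Matrix.mul_apply]
    simp only [Dq, mul_diagonal, of_apply, hW', vec, Finset.sum_div]
    refine Finset.sum_congr rfl fun w _ => ?_
    have : qs (if h : i < K then some (e (⟨i, h⟩, w)) else none) x
        = zs (fun v => x (e v)) i w := by
      unfold zs; split_ifs <;> simp [qs]
    rw [this]; field_simp; ring

lemma QAlg.forr (e : FV K L → I) : QAlg K (fun x (g : Bool → ℝ) =>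
    ∑ b, (1 + sg b * Phi (fun v => x (e v))) / 2 * g b) := by
  obtain ⟨W, hW, hW'⟩ := impl_vec e K
  exact (QAlg.hadTest hW (fun _ => false)).congr fun x g => by simp only [hW', Phi]

lemma QAlg.decodeBit (hr : 1 ≤ r) (e : Fin r → FV K L → I) {γ : ℝ} (hγ : 0 < γ) {M : ℕ}
    (hM : 1 ≤ M) : ∃ P : (I → Bool) → (Bool → ℝ) → ℝ, QAlg (M * K) P ∧ ∀ x (a : Bool),
      r * γ / 2 ≤ sg a * ∑ s, Phi (fun v => x (e s v)) →
      1 - 4 / (M * γ ^ 2) ≤ P x (fun b => if b = a then 1 else 0) := by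
  haveI : Nonempty (Fin r) := ⟨⟨0, hr⟩⟩
  have hr' : (0 : ℝ) < r := by exact_mod_cast hr
  have hM' : (0 : ℝ) < M := by exact_mod_cast hM
  let c : (I → Bool) → Bool → ℝ := fun x b => (1 + sg b * (∑ s, Phi (fun v => x (e s v))) / r) / 2
  have h1 : QAlg K (fun x (g : Bool → ℝ) => ∑ b, c x b * g b) := by
    have := (QAlg.unif (I := I) (Fin r)).bind (fun s => QAlg.forr (e s))
    rw [zero_add] at this
    refine this.congr fun x g => ?_
    rw [Finset.sum_comm, Finset.sum_div]
    refine Finset.sum_congr rfl fun b _ => ?_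
    simp only [c, ← Finset.sum_mul, ← Finset.sum_div, Finset.sum_add_distrib, ← Finset.mul_sum,
      Finset.sum_const, Finset.card_univ, Fintype.card_fin, nsmul_eq_mul]
    field_simp
  have h2 := (QAlg.pi (n := M) (c := fun _ => c) fun _ => h1).map
    (fun y => decide (∑ t, sg (y t) ≤ 0))
  refine ⟨_, h2, fun x a ha => ?_⟩
  have hc1 : ∀ _t : Fin M, ∑ b, c x b = 1 := fun _ => by simp [c]; ring
  have habs : |(∑ s, Phi (fun v => x (e s v))) / r| ≤ 1 := by
    rw [abs_div, abs_of_pos hr', div_le_one hr']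
    refine (Finset.abs_sum_le_sum_abs _ _).trans ?_
    refine (Finset.sum_le_sum fun s _ => abs_Phi_le _).trans ?_
    simp
  have hc0 : ∀ (_t : Fin M) b, 0 ≤ c x b := fun _ b => by
    have := abs_le.mp habs
    cases b <;> simp only [c, sg_true, sg_false, mul_div_assoc] <;> linarith
  have h3 := pf_cheb (c := fun _ : Fin M => c x) hc0 hc1 (fun _ b => sg a * sg b)
    (fun _ b => by rw [abs_mul, abs_sg, abs_sg, one_mul]) (γ / 2) (M * γ / 2) (by positivity)
    (fun _ => by
      have : ∑ b, c x b * (sg a * sg b) = sg a * (∑ s, Phi (fun v => x (e s v))) / r := by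
        simp [c]; ring
      rw [this, le_div_iff₀ hr']; linarith)
  have h4 := pf_add (fun _ : Fin M => c x)
    (fun y => if ∑ t, sg a * sg (y t) ≤ Fintype.card (Fin M) * (γ / 2) - M * γ / 2 then 1 else 0)
    (fun y => if decide (∑ t, sg (y t) ≤ 0) = a then 1 else 0)
  have h5 := pf_mono hc0 (g := fun _ => 1) (h := fun y : Fin M → Bool =>
    (if ∑ t, sg a * sg (y t) ≤ Fintype.card (Fin M) * (γ / 2) - M * γ / 2 then 1 else 0) +
      (if decide (∑ t, sg (y t) ≤ 0) = a then 1 else 0)) (fun y => by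
    have e0 : (Fintype.card (Fin M) : ℝ) * (γ / 2) - M * γ / 2 = 0 := by simp; ring
    rw [e0, ← Finset.mul_sum]
    cases a
    · by_cases hy : ∑ t, sg (y t) ≤ 0 <;> simp [hy]
    · by_cases hy : ∑ t, sg (y t) ≤ 0
      · simp [hy]; split_ifs <;> norm_num
      · have : 0 ≤ ∑ t, sg (y t) := by linarith [not_le.mp hy]
        simp [hy, this])
  rw [pf_one hc1] at h5
  have e1 : (Fintype.card (Fin M) : ℝ) / (M * γ / 2) ^ 2 = 4 / (M * γ ^ 2) := by
    simp; field_simp; ring
  beta_reduce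
  linarith

lemma QAlg.decode (hL : 1 ≤ L) (hr : 1 ≤ r) (e : Ins K L r → I) {γ : ℝ} (hγ : 0 < γ) {G : ℕ}
    (hG : 1 ≤ γ ^ 2 * G) : ∃ P : (I → Bool) → (BV L → ℝ) → ℝ, QAlg (L * (40 * L * G * K)) P ∧
      ∀ x a, Promise (r * γ / 2) a (fun i => x (e i)) →
        9 / 10 ≤ P x (fun a' => if a' = a then 1 else 0) := by
  have hG1 : 1 ≤ G := by
    rcases Nat.eq_zero_or_pos G with h | h
    · subst h; norm_num at hG
    · exact h
  have hM : 1 ≤ 40 * L * G := Nat.mul_pos (by omega) hG1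
  choose P hP hP' using fun t : Fin L =>
    QAlg.decodeBit (K := K) (L := L) hr (fun s v => e ((t, s), v)) hγ hM
  refine ⟨_, QAlg.pi (c := fun t x b => P t x (fun b' => if b' = b then 1 else 0))
    fun t => (hP t).congr fun x g => ((hP t).repr x g).symm, fun x a ha => ?_⟩
  have hL' : (1 : ℝ) ≤ L := by exact_mod_cast hL
  have h1 : ∀ t, 1 - 1 / (10 * (L : ℝ)) ≤ P t x (fun b' => if b' = a t then 1 else 0) := by
    intro t
    refine le_trans ?_ (hP' t x (a t) (ha t))
    have : 4 / (((40 * L * G : ℕ) : ℝ) * γ ^ 2) ≤ 1 / (10 * (L : ℝ)) := by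
      push_cast
      rw [div_le_div_iff₀ (by have : (0 : ℝ) < G := by exact_mod_cast hG1
                              positivity) (by positivity)]
      nlinarith
    linarith
  have h0 : 1 / (10 * (L : ℝ)) ≤ 1 := by rw [div_le_one (by positivity)]; linarith
  simp only [pf, mul_ite, mul_one, mul_zero, Finset.sum_ite_eq', Finset.mem_univ, if_true]
  calc (9 : ℝ) / 10 = 1 + L * (-(1 / (10 * (L : ℝ)))) := by field_simp; ring
    _ ≤ (1 + -(1 / (10 * (L : ℝ)))) ^ L := one_add_mul_le_pow (by linarith) L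
    _ = ∏ _t : Fin L, (1 - 1 / (10 * (L : ℝ))) := by simp [sub_eq_add_neg]
    _ ≤ _ := Finset.prod_le_prod (fun _ _ => by linarith) fun t _ => h1 t

end forr

section err
variable {I O O' : Type}

open Classical in
/-- indicator of an event -/
noncomputable def ind (p : O → Prop) : O → ℝ := fun o => if p o then 1 else 0

lemma ind_nonneg (p : O → Prop) (o : O) : 0 ≤ ind p o := by unfold ind; split_ifs <;> norm_num
lemma ind_le (p : O → Prop) (o : O) : ind p o ≤ 1 := by unfold ind; split_ifs <;> norm_num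
lemma ind_pos {p : O → Prop} {o : O} (h : p o) : ind p o = 1 := if_pos h
lemma ind_neg {p : O → Prop} {o : O} (h : ¬ p o) : ind p o = 0 := if_neg h

lemma QAlg.bind_err {q q' : ℕ} {P : (I → Bool) → (O → ℝ) → ℝ} (h : QAlg q P)
    {Q : O → (I → Bool) → (O' → ℝ) → ℝ} (hQ : ∀ o, QAlg q' (Q o)) (x : I → Bool)
    {b1 : O → Prop} {b2 : O' → Prop} {ε1 ε2 : ℝ} (h1 : P x (ind b1) ≤ ε1) (h0 : 0 ≤ ε2)
    (h2 : ∀ o, ¬ b1 o → Q o x (ind b2) ≤ ε2) : P x (fun o => Q o x (ind b2)) ≤ ε1 + ε2 := by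
  have := h.le x (g := fun o => Q o x (ind b2)) (g' := fun o => ind b1 o + ε2) fun o => by
    by_cases hb : b1 o
    · have := (hQ o).le_cst x (ind_le b2)
      rw [ind_pos hb]; linarith
    · rw [ind_neg hb, zero_add]; exact h2 o hb
  rw [h.add, h.cst] at this
  linarith

end err

section alg
variable {K L r s₀ : ℕ} {Circ Chk : Type}

/-- a flaw other than the column itself -/
def flw (x : Idx K L r Circ → Bool) (c a j : BV L) : Bool := decide (j ≠ c) && flaw x c a j

def Good (i : ℕ) (x : Idx K L r Circ → Bool) (ca : BV L × BV L) : Prop :=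
  9 ^ i * (univ.filter fun j => flw x ca.1 ca.2 j).card ≤ 2 ^ L

lemma dt_flaw (c a j : BV L) : DT Any (L + 1) (fun x : Idx K L r Circ → Bool => flaw x c a j) :=
  (DT.vars (fun b : Fin L => ((c, Sum.inr (Sum.inr (a, Sum.inl (j, b)))) : Idx K L r Circ))).bind
    (k := fun ρ x => x (j, Sum.inl ρ)) fun _ => DT.var _

lemma dt_flw (c a j : BV L) : DT Any (L + 1) (fun x : Idx K L r Circ → Bool => flw x c a j) :=
  (dt_flaw c a j).map (fun b => decide (j ≠ c) && b)

variable {γ : ℝ} (V : Verifier K L r (r * γ / 2) Circ Chk s₀)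

lemma decodeCol (hL : 1 ≤ L) (hr : 1 ≤ r) (hγ : 0 < γ) {G : ℕ} (hG : 1 ≤ γ ^ 2 * G) (c : BV L) :
    ∃ P : (Idx K L r Circ → Bool) → (BV L → ℝ) → ℝ, QAlg (L * (40 * L * G * K)) P ∧
      ∀ x a, Valid V x c a → 9 / 10 ≤ P x (fun a' => if a' = a then 1 else 0) := by
  obtain ⟨P, hP, hP'⟩ := QAlg.decode (I := Idx K L r Circ) hL hr
    (fun i => (c, Sum.inr (Sum.inl i))) hγ hG
  exact ⟨P, hP, fun x a h => hP' x a (V.sound a _ h.2.2)⟩

lemma stage {D : ℕ} (hD : ∀ c : BV L, ∃ P : (Idx K L r Circ → Bool) → (BV L → ℝ) → ℝ, QAlg D P ∧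
      ∀ x a, Valid V x c a → 9 / 10 ≤ P x (fun a' => if a' = a then 1 else 0))
    (R i : ℕ) (hi : 9 ^ i ≤ 2 ^ L) (ca : BV L × BV L) :
    ∃ P : (Idx K L r Circ → Bool) → (Option (BV L × BV L) → ℝ) → ℝ,
      QAlg (3 ^ i * ((L + 1) * (1 + 2 * R) + D)) P ∧ ∀ x,
        P x (lift (ind fun ca' => ¬ Good (i + 1) x ca')) ≤ (25 / 27) ^ R ∧
        ((∃ c a, Valid V x c a) → Good i x ca →
          3 / 10 * 9 ^ i / 2 ^ L ≤ P x (lift fun _ => 1)) := by
  choose Dec hDec hDec' using hD
  have ht := QAlg.trial (T := BV L) (fun j => dt_flaw (K := K) (r := r) (Circ := Circ) ca.1 ca.2 j)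
  obtain ⟨A, hA, hA'⟩ := ht.ampIter i
  choose T hT hT' using fun j a : BV L =>
    QAlg.find (T := BV L) (fun j' => dt_flw (K := K) (r := r) (Circ := Circ) j a j') i R
  have hin : ∀ j, QAlg (D + R * (2 * 3 ^ i * (L + 1))) (fun x (g : Option (BV L × BV L) → ℝ) =>
      Dec j x fun a => T j a x fun b => g (if b then none else some (j, a))) :=
    fun j => (hDec j).bind fun a => (hT j a).map fun b => if b then none else some (j, a)
  refine ⟨_, (hA.bind (q' := D + R * (2 * 3 ^ i * (L + 1)))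
    (Q := fun oj x (g : Option (BV L × BV L) → ℝ) => oj.elim (g none) fun j =>
      Dec j x fun a => T j a x fun b => g (if b then none else some (j, a))) fun oj => ?_).mono ?_,
    fun x => ⟨?_, ?_⟩⟩
  · cases oj with
    | none => exact (QAlg.pure none).mono (Nat.zero_le _)
    | some j => exact hin j
  · have : D ≤ 3 ^ i * D := Nat.le_mul_of_pos_left _ (by positivity)
    nlinarith
  · refine hA.le_cst x fun oj => ?_
    cases oj with
    | none => simp; positivity
    | some j =>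
      refine (hDec j).le_cst x fun a => ?_
      by_cases hg : Good (i + 1) x (j, a)
      · refine ((hT j a).le_cst x (c := 0) fun b => ?_).trans (by positivity)
        cases b <;> simp [ind_neg, hg]
      · refine le_trans ((hT j a).le x fun b => ?_) ((hT' j a x).2 ?_)
        · cases b <;> simp [ind_le]
        · unfold Good at hg
          rw [card_BV]
          exact_mod_cast (not_le.mp hg).le
  · rintro ⟨c, a, hv⟩ hg
    obtain ⟨l, l0, _, l2, l3⟩ := hA' x
    have hN : (0 : ℝ) < 2 ^ L := by positivity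
    have hp : (∑ t, lift (fun _ => (1 : ℝ)) (if flaw x ca.1 ca.2 t then some t else none))
        ≤ (univ.filter fun j => flw x ca.1 ca.2 j).card + 1 := by
      rw [Finset.card_filter]; push_cast
      have : (1 : ℝ) = ∑ t : BV L, if t = ca.1 then 1 else 0 := by simp
      conv_rhs => rw [this]
      rw [← Finset.sum_add_distrib]
      refine Finset.sum_le_sum fun t _ => ?_
      by_cases h1 : t = ca.1 <;> cases h2 : flaw x ca.1 ca.2 t <;> simp [flw, h1, h2]
    have hu : 9 ^ i * ((∑ t, lift (fun _ => (1 : ℝ)) (if flaw x ca.1 ca.2 t then some t else none))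
        / Fintype.card (BV L)) ≤ 2 := by
      rw [card_BV, ← mul_div_assoc]; push_cast
      rw [div_le_iff₀ hN]
      have h1 : (9 : ℝ) ^ i ≤ 2 ^ L := by exact_mod_cast hi
      have h2 : (9 : ℝ) ^ i * (univ.filter fun j => flw x ca.1 ca.2 j).card ≤ 2 ^ L := by
        exact_mod_cast hg
      have h3 := mul_le_mul_of_nonneg_left hp (show (0 : ℝ) ≤ 9 ^ i by positivity)
      linarith
    have hl : (9 : ℝ) ^ i / 3 ≤ l := by
      refine le_trans ?_ (l2 hu)
      have : (0 : ℝ) < 9 ^ i := by positivity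
      nlinarith
    have h4 := hA.le x (g := lift fun j => if j = c then 9 / 10 else 0)
      (g' := fun oj => oj.elim (lift (fun _ : BV L × BV L => (1 : ℝ)) none) fun j =>
        Dec j x fun a => T j a x fun b => lift (fun _ => (1 : ℝ))
          (if b then none else some (j, a))) fun oj => by
      cases oj with
      | none => simp
      | some j =>
        simp only [lift_some, Option.elim_some]
        have hnn : ∀ a', 0 ≤ T j a' x fun b => lift (fun _ => (1 : ℝ))
            (if b then none else some (j, a')) :=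
          fun a' => (hT j a').nonneg x fun b => by cases b <;> simp
        split_ifs with hj
        · subst hj
          refine (hDec' j x a hv).trans ((hDec j).le x fun a' => ?_)
          split_ifs with ha
          · subst ha
            have h5 := (hT' j a' x).1 fun j' => by
              by_cases hj' : j' = j
              · simp [flw, hj']
              · simp [flw, hv.2.1 j' hj']
            have h6 := (hT j a').add x (fun b => if b then 1 else 0)
              (fun b => lift (fun _ => (1 : ℝ)) (if b then none else some (j, a')))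
            have h7 : (fun b : Bool => (if b then (1 : ℝ) else 0) + lift (fun _ => (1 : ℝ))
                (if b then none else some (j, a'))) = fun _ => 1 := by
              funext b; cases b <;> simp
            rw [h7, (hT j a').cst] at h6
            linarith
          · exact hnn a'
        · exact (hDec j).nonneg x hnn
    refine le_trans ?_ h4
    rw [l3]
    have h8 : ∑ t, lift (fun j => if j = c then (9 : ℝ) / 10 else 0)
        (if flaw x ca.1 ca.2 t then some t else none) = 9 / 10 := by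
      rw [Finset.sum_eq_single c]
      · simp [flaw, hv.1]
      · intro t _ ht; split_ifs <;> simp [ht]
      · simp
    rw [h8, card_BV, ← mul_div_assoc]; push_cast
    apply div_le_div_of_nonneg_right _ hN.le
    linarith

lemma round {D : ℕ} (hD : ∀ c : BV L, ∃ P : (Idx K L r Circ → Bool) → (BV L → ℝ) → ℝ, QAlg D P ∧
      ∀ x a, Valid V x c a → 9 / 10 ≤ P x (fun a' => if a' = a then 1 else 0))
    (R n i : ℕ) (hn : 9 ^ n ≤ 2 ^ L) (hn' : 2 ^ L < 9 ^ (n + 1)) (hi : i ≤ n) (ca : BV L × BV L) :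
    ∃ P : (Idx K L r Circ → Bool) → (BV L × BV L → ℝ) → ℝ,
      QAlg (R * (2 * 3 ^ (n + 1) * ((L + 1) * (1 + 2 * R) + D))) P ∧ ∀ x,
        (∃ c a, Valid V x c a) → Good i x ca →
        P x (ind fun ca' => ¬ Good (i + 1) x ca') ≤ 5 * 2 ^ L * (25 / 27) ^ R := by
  obtain ⟨S, hS, hS'⟩ := stage V hD R i ((Nat.pow_le_pow_right (by norm_num) hi).trans hn) ca
  obtain ⟨P, hP, hP'⟩ := hS.search (n + 1 - i) R
  refine ⟨_, (hP.map fun o => o.getD ca).mono (le_of_eq ?_), fun x hv hg => ?_⟩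
  · have : 3 ^ (n + 1) = 3 ^ (n + 1 - i) * 3 ^ i := by rw [← pow_add]; congr 1; omega
    rw [this]; ring
  · obtain ⟨⟨l, l0, l1⟩, h2⟩ := hP' x
    obtain ⟨h3, h4⟩ := hS' x
    have h5 := h4 hv hg
    have hN : (0 : ℝ) < 2 ^ L := by positivity
    have hN1 : (1 : ℝ) ≤ 2 ^ L := one_le_pow₀ (by norm_num)
    have h6 := h2 (by
      refine le_trans ?_ (mul_le_mul_of_nonneg_left h5 (by positivity))
      have e : (9 : ℝ) ^ (n + 1) = 9 ^ (n + 1 - i) * 9 ^ i := by rw [← pow_add]; congr 1; omega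
      have h7 : (2 : ℝ) ^ L ≤ 9 ^ (n + 1) := by exact_mod_cast hn'.le
      rw [← mul_div_assoc, le_div_iff₀ hN]
      nlinarith)
    have h8 : l ≤ 4 * 2 ^ L := by
      have h9 := hP.succ_le x
      rw [l1] at h9
      have h10 : (1 : ℝ) ≤ 9 ^ i := one_le_pow₀ (by norm_num)
      have h11 : 3 / 10 / 2 ^ L ≤ S x (lift fun _ => 1) :=
        le_trans (div_le_div_of_nonneg_right (by linarith) hN.le) h5
      have h12 := (mul_le_mul_of_nonneg_left h11 l0).trans h9
      rw [← mul_div_assoc, div_le_one hN] at h12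
      linarith
    have h13 := hP.le x (g := fun o => ind (fun ca' => ¬ Good (i + 1) x ca') (o.getD ca))
      (g' := fun o => isN o + lift (ind fun ca' => ¬ Good (i + 1) x ca') o) fun o => by
        cases o <;> simp [ind_le]
    rw [hP.add, l1] at h13
    have h14 := mul_le_mul h8 h3 (hS.nonneg x fun o => by cases o <;> simp [ind_nonneg])
      (by positivity)
    have h15 : (0 : ℝ) ≤ (25 / 27) ^ R := by positivity
    beta_reduce
    nlinarith

lemma rounds {D : ℕ} (hD : ∀ c : BV L, ∃ P : (Idx K L r Circ → Bool) → (BV L → ℝ) → ℝ, QAlg D P ∧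
      ∀ x a, Valid V x c a → 9 / 10 ≤ P x (fun a' => if a' = a then 1 else 0))
    (R n : ℕ) (hn : 9 ^ n ≤ 2 ^ L) (hn' : 2 ^ L < 9 ^ (n + 1)) (i : ℕ) (hi : i ≤ n + 1) :
    ∃ P : (Idx K L r Circ → Bool) → (BV L × BV L → ℝ) → ℝ,
      QAlg (i * (R * (2 * 3 ^ (n + 1) * ((L + 1) * (1 + 2 * R) + D)))) P ∧ ∀ x,
        (∃ c a, Valid V x c a) →
        P x (ind fun ca' => ¬ Good i x ca') ≤ i * (5 * 2 ^ L * (25 / 27) ^ R) := by
  induction i with
  | zero =>
    refine ⟨_, (QAlg.pure (fun _ => false, fun _ => false)).mono (Nat.zero_le _), fun x _ => ?_⟩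
    beta_reduce
    rw [ind_neg]
    · simp
    · rw [not_not, Good, pow_zero, one_mul, ← card_BV]
      exact Finset.card_le_univ _
  | succ i ih =>
    obtain ⟨P, hP, hP'⟩ := ih (by omega)
    choose Q hQ hQ' using round V hD R n i hn hn' (by omega)
    refine ⟨_, (hP.bind hQ).mono (le_of_eq (by ring)), fun x hv => ?_⟩
    refine (hP.bind_err hQ x (hP' x hv) (by positivity)
      fun ca hca => hQ' ca x hv (not_not.mp hca)).trans (le_of_eq ?_)
    push_cast; ring

/-- the checks of a cell -/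
def fails (c a : BV L) : BV L ⊕ BV L ⊕ Chk → (Idx K L r Circ → Bool) → Bool
  | Sum.inl ρ => fun x => !kill x c ρ
  | Sum.inr (Sum.inl j) => fun x => flw x c a j
  | Sum.inr (Sum.inr χ) => fun x => !V.pass χ a (Sum.elim (ins x c) (cert x c a))

lemma dt_fails (c a : BV L) (t : BV L ⊕ BV L ⊕ Chk) : DT Any (L + 1 + s₀) (fails V c a t) := by
  rcases t with ρ | j | χ
  · exact ((DT.var _).map (fun b => !b)).mono (by omega)
  · exact (dt_flw c a j).mono (by omega)
  · refine ((((V.loc χ a).comp (J := Idx K L r Circ) (Sum.elim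
      (fun i => (c, Sum.inr (Sum.inl i))) (fun e => (c, Sum.inr (Sum.inr (a, Sum.inr e)))))).map
        (fun b => !b)).mono (by omega)).congr fun x => ?_
    simp only [fails]
    congr 2
    funext i; cases i <;> rfl

lemma valid_iff (x : Idx K L r Circ → Bool) (c a : BV L) :
    Valid V x c a ↔ ∀ t, fails V c a t x = false := by
  simp only [Valid, Sum.forall, fails, flw]
  simp

lemma final [Fintype Chk] {D : ℕ}
    (hD : ∀ c : BV L, ∃ P : (Idx K L r Circ → Bool) → (BV L → ℝ) → ℝ, QAlg D P ∧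
      ∀ x a, Valid V x c a → 9 / 10 ≤ P x (fun a' => if a' = a then 1 else 0))
    (R m : ℕ) (hm : 2 ^ L + (2 ^ L + Fintype.card Chk) ≤ 9 ^ (m + 1)) (c : BV L) :
    ∃ P : (Idx K L r Circ → Bool) → (Bool → ℝ) → ℝ,
      QAlg (D + R * (2 * 3 ^ m * (L + 1 + s₀))) P ∧ ∀ x,
        ((∃ a, Valid V x c a) → P x (ind fun b => b ≠ true) ≤ 1 / 10) ∧
        ((∀ a, ¬ Valid V x c a) → P x (ind fun b => b ≠ false) ≤ (25 / 27) ^ R) := by
  obtain ⟨Dec, hDec, hDec'⟩ := hD c
  choose T hT hT' using fun a : BV L => QAlg.find (dt_fails V c a) m R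
  refine ⟨_, hDec.bind fun a => (hT a).map fun b => !b, fun x => ⟨?_, fun hv => ?_⟩⟩
  · rintro ⟨a, hv⟩
    have h1 := hDec' x a hv
    have h2 := hDec.le x (g := fun a' => T a' x fun b => ind (fun b => b ≠ true) (!b))
      (g' := fun a' => 1 * 1 + (-1) * if a' = a then 1 else 0) fun a' => by
        split_ifs with ha
        · subst ha
          have h3 := (hT' a' x).1 ((valid_iff V x c a').mp hv)
          have h4 : (fun b : Bool => ind (fun b => b ≠ true) (!b))
              = fun b => if b then (1 : ℝ) else 0 := by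
            funext b; cases b <;> simp [ind]
          rw [h4, h3]; norm_num
        · simpa using (hT a').le_cst x fun b => ind_le _ _
    rw [hDec.lin, hDec.cst] at h2
    beta_reduce
    linarith
  · refine hDec.le_cst x fun a => ?_
    have h4 : (fun b : Bool => ind (fun b => b ≠ false) (!b))
        = fun b => if b then (0 : ℝ) else 1 := by
      funext b; cases b <;> simp [ind]
    beta_reduce
    rw [h4]
    refine (hT' a x).2 ?_
    have h5 := hv a
    rw [valid_iff] at h5
    push Not at h5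
    obtain ⟨t, ht⟩ := h5
    have h6 : 1 ≤ (univ.filter fun t => fails V c a t x).card :=
      Finset.card_pos.mpr ⟨t, by simpa using ht⟩
    have h7 : Fintype.card (BV L ⊕ BV L ⊕ Chk)
        ≤ 9 ^ (m + 1) * (univ.filter fun t => fails V c a t x).card := by
      rw [Fintype.card_sum, Fintype.card_sum, card_BV]
      exact hm.trans (Nat.le_mul_of_pos_right _ h6)
    exact_mod_cast h7

lemma main_alg [Fintype Circ] [Fintype Chk] {D : ℕ}
    (hD : ∀ c : BV L, ∃ P : (Idx K L r Circ → Bool) → (BV L → ℝ) → ℝ, QAlg D P ∧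
      ∀ x a, Valid V x c a → 9 / 10 ≤ P x (fun a' => if a' = a then 1 else 0))
    (n m : ℕ) (hn : 9 ^ n ≤ 2 ^ L) (hn' : 2 ^ L < 9 ^ (n + 1))
    (hm : 2 ^ L + (2 ^ L + Fintype.card Chk) ≤ 9 ^ (m + 1)) (R : ℕ) (hR : R = 10 * (2 * L + 5)) :
    QuantumComputes (onFin (F V))
      ((n + 1) * (R * (2 * 3 ^ (n + 1) * ((L + 1) * (1 + 2 * R) + D)))
        + (D + R * (2 * 3 ^ m * (L + 1 + s₀)))) := by
  obtain ⟨P, hP, hP'⟩ := rounds V hD R n hn hn' (n + 1) le_rfl
  choose Q hQ hQ' using final V hD R m hm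
  haveI : Nonempty (Idx K L r Circ) := ⟨(fun _ => false, Sum.inl fun _ => false)⟩
  have hA := hP.bind (fun ca => hQ ca.1)
  refine hA.computes (F V) fun x => ?_
  have hδ : ((25 : ℝ) / 27) ^ R ≤ 1 / (32 * (2 ^ L * 2 ^ L)) := by
    rw [hR, pow_mul]
    calc (((25 : ℝ) / 27) ^ 10) ^ (2 * L + 5) ≤ (1 / 2) ^ (2 * L + 5) :=
          pow_le_pow_left₀ (by positivity) (by norm_num) _
      _ = _ := by rw [_root_.one_div_pow, pow_add, two_mul, pow_add]; norm_num; ring
  have hN : (0 : ℝ) < 2 ^ L := by positivity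
  have hN1 : (1 : ℝ) ≤ 2 ^ L := one_le_pow₀ (by norm_num)
  have key : P x (fun ca => Q ca.1 x (ind fun b => b ≠ F V x)) ≤ 1 / 3 := by
    by_cases hv : ∃ c a, Valid V x c a
    · have hF : F V x = true := by simp [F, hv]
      rw [hF]
      refine (hP.bind_err (fun ca => hQ ca.1) x (hP' x hv) (ε2 := 1 / 10) (by norm_num)
        fun ca hca => (hQ' ca.1 x).1 ?_).trans ?_
      · obtain ⟨c, a, hv⟩ := hv
        rw [not_not, Good] at hca
        have h0 : (univ.filter fun j => flw x ca.1 ca.2 j).card = 0 := by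
          by_contra h
          have := Nat.le_mul_of_pos_right (9 ^ (n + 1)) (Nat.pos_of_ne_zero h)
          omega
        rw [Finset.card_eq_zero, Finset.filter_eq_empty_iff] at h0
        have h1 := h0 (Finset.mem_univ c)
        simp only [flw, flaw, hv.1, Bool.and_true, decide_eq_true_eq, not_not] at h1
        exact ⟨a, h1 ▸ hv⟩
      · have h1 : n + 1 ≤ 2 ^ L := by
          have : n < 9 ^ n := Nat.lt_pow_self (by norm_num)
          omega
        have h2 : ((n + 1 : ℕ) : ℝ) ≤ 2 ^ L := by exact_mod_cast h1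
        have h3 : ((n + 1 : ℕ) : ℝ) * (5 * 2 ^ L * (25 / 27) ^ R)
            ≤ 2 ^ L * (5 * 2 ^ L * (1 / (32 * (2 ^ L * 2 ^ L)))) := by gcongr
        have h4 : (2 : ℝ) ^ L * (5 * 2 ^ L * (1 / (32 * (2 ^ L * 2 ^ L)))) = 5 / 32 := by
          field_simp
        linarith
    · have hF : F V x = false := by simp only [F, decide_eq_false_iff_not]; exact hv
      rw [hF]
      refine hP.le_cst x fun ca => ((hQ' ca.1 x).2 fun a ha => hv ⟨_, _, ha⟩).trans
        (hδ.trans ?_)
      rw [div_le_div_iff₀ (by positivity) (by norm_num)]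
      nlinarith
  have h5 := hA.lin x 1 (-1) (fun _ => 1) (ind fun b => b ≠ F V x)
  rw [hA.cst] at h5
  have h6 : (fun b => 1 * (1 : ℝ) + -1 * ind (fun b => b ≠ F V x) b)
      = fun b => if b = F V x then 1 else 0 := by
    funext b; by_cases hb : b = F V x <;> simp [ind, hb]
  rw [h6] at h5
  beta_reduce at h5 ⊢
  linarith

end alg

theorem quantum_upper : ∃ C b : ℕ, ∀ (K L r s₀ G : ℕ) (Circ Chk : Type) [Fintype Circ]
    [Fintype Chk] (γ : ℝ), 1 ≤ L → 1 ≤ r → 0 < γ → 1 ≤ γ ^ 2 * G →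
    ∀ V : Verifier K L r (r * γ / 2) Circ Chk s₀, ∃ q : ℕ,
      (q : ℝ) ≤ C * (L + 1) ^ b * (K + 1) * (G + s₀ + 1) * Real.sqrt (2 ^ L + Fintype.card Chk) ∧
      QuantumComputes (onFin (F V)) q := by
  refine ⟨100000, 4, fun K L r s₀ G Circ Chk _ _ γ hL hr hγ hG V => ?_⟩
  have hN : 0 < 2 ^ L := by positivity
  have hn := Nat.pow_log_le_self 9 hN.ne'
  have hn' := Nat.lt_pow_succ_log_self (b := 9) (by norm_num) (2 ^ L)
  have hm := Nat.pow_log_le_self 9 (x := 2 ^ L + (2 ^ L + Fintype.card Chk)) (by omega)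
  have hm' := Nat.lt_pow_succ_log_self (b := 9) (by norm_num) (2 ^ L + (2 ^ L + Fintype.card Chk))
  refine ⟨_, ?_, main_alg V (decodeCol V hL hr hγ hG) _ _ hn hn' hm'.le _ rfl⟩
  set n := Nat.log 9 (2 ^ L)
  set m := Nat.log 9 (2 ^ L + (2 ^ L + Fintype.card Chk))
  set S := Real.sqrt (2 ^ L + Fintype.card Chk) with hS
  have hC : (0 : ℝ) ≤ Fintype.card Chk := Nat.cast_nonneg _
  have hS2 : S ^ 2 = 2 ^ L + Fintype.card Chk := Real.sq_sqrt (by positivity)
  have hS0 : 0 ≤ S := Real.sqrt_nonneg _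
  have h3n : (3 : ℝ) ^ n ≤ S := by
    refine Real.le_sqrt_of_sq_le ?_
    have : ((9 ^ n : ℕ) : ℝ) ≤ (2 ^ L : ℕ) := by exact_mod_cast hn
    rw [← pow_mul, mul_comm, pow_mul]; push_cast at this; norm_num; linarith
  have h3m : (3 : ℝ) ^ m ≤ 2 * S := by
    refine abs_le_of_sq_le_sq' ?_ (by positivity) |>.2
    have : ((9 ^ m : ℕ) : ℝ) ≤ (2 ^ L + (2 ^ L + Fintype.card Chk) : ℕ) := by exact_mod_cast hm
    rw [← pow_mul, mul_comm, pow_mul, mul_pow, hS2]; push_cast at this; norm_num
    have : (0 : ℝ) < 2 ^ L := by positivity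
    linarith
  have hS1 : 1 ≤ S := (one_le_pow₀ (by norm_num)).trans h3n
  have hnL : (n : ℝ) ≤ L := by
    have : 2 ^ n ≤ 2 ^ L := (Nat.pow_le_pow_left (by norm_num) n).trans hn
    exact_mod_cast (Nat.pow_le_pow_iff_right (by norm_num)).mp this
  set l : ℝ := L + 1 with hl
  set Z : ℝ := (K + 1) * (G + s₀ + 1) with hZ
  have hK : (0 : ℝ) ≤ K := Nat.cast_nonneg _
  have hG0 : (0 : ℝ) ≤ G := Nat.cast_nonneg _
  have hs0 : (0 : ℝ) ≤ s₀ := Nat.cast_nonneg _
  have hL0 : (0 : ℝ) ≤ L := Nat.cast_nonneg _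
  have hl1 : 1 ≤ l := by linarith
  have hZ1 : s₀ + 1 ≤ Z := by nlinarith
  have hZ2 : G * K ≤ Z := by nlinarith
  have hD : (L : ℝ) * (40 * L * G * K) ≤ 40 * l ^ 2 * Z := by
    have : (L : ℝ) * (40 * L * G * K) = 40 * L ^ 2 * (G * K) := by ring
    rw [this]; gcongr; linarith
  have hR : (10 : ℝ) * (2 * L + 5) ≤ 50 * l := by linarith
  have hE : l * (1 + 2 * (10 * (2 * L + 5))) ≤ 101 * l ^ 2 * Z := by
    calc l * (1 + 2 * (10 * (2 * L + 5))) ≤ l * (101 * l) := by gcongr; linarith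
      _ = 101 * l ^ 2 * 1 := by ring
      _ ≤ _ := by gcongr; linarith
  have hF : l + s₀ ≤ l * Z := by nlinarith
  push_cast
  rw [← hl]
  have hl4 : l ^ 2 ≤ l ^ 4 := pow_le_pow_right₀ hl1 (by norm_num)
  have hZ0 : 0 ≤ Z := by positivity
  calc ((n : ℝ) + 1) * (10 * (2 * L + 5) * (2 * 3 ^ (n + 1) *
          (l * (1 + 2 * (10 * (2 * L + 5))) + L * (40 * L * G * K))))
        + (L * (40 * L * G * K) + 10 * (2 * L + 5) * (2 * 3 ^ m * (l + s₀)))
      ≤ l * (50 * l * (2 * (S * 3) * (101 * l ^ 2 * Z + 40 * l ^ 2 * Z)))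
        + (40 * l ^ 2 * Z + 50 * l * (2 * (2 * S) * (l * Z))) := by
        rw [pow_succ (3 : ℝ) n]
        gcongr
        linarith
    _ = 42300 * l ^ 4 * Z * S + 40 * l ^ 2 * Z * 1 + 200 * l ^ 2 * Z * S := by ring
    _ ≤ 42300 * l ^ 4 * Z * S + 40 * l ^ 4 * Z * S + 200 * l ^ 4 * Z * S := by gcongr
    _ ≤ 100000 * l ^ 4 * (K + 1) * (G + s₀ + 1) * S := by
        have : 0 ≤ l ^ 4 * Z * S := by positivity
        have e : 100000 * l ^ 4 * (K + 1) * (G + s₀ + 1) * S = 100000 * (l ^ 4 * Z * S) := by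
          rw [hZ]; ring
        rw [e]; linarith

end Crest.Agent.Lead.QQ
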