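import Crest.Agent.H8.QQImpl

/-! Amplitude amplification and search. -/

set_option autoImplicit false
open Finset Matrix

namespace Crest.Agent.Lead.QQ

variable {I O : Type}

/-- extension by zero of a test function to a failing outcome -/
def lift (g : O → ℝ) : Option O → ℝ := fun o => o.elim 0 g

/-- indicator of failure -/
def isN : Option O → ℝ := fun o => o.elim 1 fun _ => 0

@[simp] lemma lift_none (g : O → ℝ) : lift g none = 0 := rfl
@[simp] lemma lift_some (g : O → ℝ) (o : O) : lift g (some o) = g o := rfl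
@[simp] lemma isN_none : isN (none : Option O) = 1 := rfl
@[simp] lemma isN_some (o : O) : isN (some o) = 0 := rfl

namespace QAlg
variable {q q' : ℕ} {P : (I → Bool) → (Option O → ℝ) → ℝ}

lemma isN_eq (h : QAlg q P) (x : I → Bool) : P x isN = 1 - P x (lift fun _ => 1) := by
  have h1 := h.add x isN (lift fun _ => 1)
  have h2 : (fun o : Option O => isN o + lift (fun _ => (1 : ℝ)) o) = fun _ => 1 := by
    funext o; cases o <;> simp
  rw [h2, h.cst] at h1
  linarith

lemma isN_nonneg (h : QAlg q P) (x : I → Bool) : 0 ≤ P x isN :=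
  h.nonneg x fun o => by cases o <;> simp

lemma isN_le (h : QAlg q P) (x : I → Bool) : P x isN ≤ 1 :=
  h.le_cst x fun o => by cases o <;> simp

lemma succ_nonneg (h : QAlg q P) (x : I → Bool) : 0 ≤ P x (lift fun _ => 1) :=
  h.nonneg x fun o => by cases o <;> simp

lemma succ_le (h : QAlg q P) (x : I → Bool) : P x (lift fun _ => 1) ≤ 1 :=
  h.le_cst x fun o => by cases o <;> simp

lemma amp3 (h : QAlg q P) : ∃ P' : (I → Bool) → (Option O → ℝ) → ℝ, QAlg (3 * q) P' ∧
    ∀ x g, P' x (lift g) = (3 - 4 * P x (lift fun _ => 1)) ^ 2 * P x (lift g) := by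
  obtain ⟨E, _, _, A, e0, out, hA, h⟩ := h
  let S : Matrix E E ℝ := diagonal fun e => if (out e).isSome then -1 else 1
  let R : Matrix E E ℝ := diagonal fun e => if e = e0 then 1 else -1
  have hS : Orth S := orth_diag fun e => by split_ifs <;> norm_num
  have hR : Orth R := orth_diag fun e => by split_ifs <;> norm_num
  have hI := (hA.rmul hR).mul ((hA.tr.rmul hS).mul hA)
  refine ⟨fun x g => ∑ e, (A x * R * ((A x)ᵀ * S * A x)) e e0 ^ 2 * g (out e),
    ⟨E, _, _, _, e0, out, hI.mono (by omega), fun _ _ => rfl⟩, fun x g => ?_⟩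
  have hR' : R = (of fun a b => if a = e0 ∧ b = e0 then 2 else 0) - 1 := by
    ext a b
    simp only [R, diagonal_apply, Matrix.sub_apply, of_apply, Matrix.one_apply]
    by_cases hab : a = b
    · subst hab; split_ifs <;> simp_all; norm_num
    · split_ifs <;> simp_all
  have hp : ((A x)ᵀ * S * A x) e0 e0 = 1 - 2 * P x (lift fun _ => 1) := by
    have hc := (hA.orth x).col e0
    rw [h, Finset.mul_sum, eq_sub_iff_add_eq, Matrix.mul_apply, ← Finset.sum_add_distrib]
    refine Eq.trans ?_ hc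
    refine Finset.sum_congr rfl fun e _ => ?_
    simp only [S, mul_diagonal, transpose_apply]
    cases out e <;> simp <;> ring
  have hamp : ∀ e, (A x * R * ((A x)ᵀ * S * A x)) e e0
      = 2 * A x e e0 * (1 - 2 * P x (lift fun _ => 1)) - (S * A x) e e0 := by
    intro e
    rw [hR', Matrix.mul_sub, Matrix.sub_mul, Matrix.mul_one, Matrix.mul_assoc (A x)ᵀ,
      ← Matrix.mul_assoc (A x) (A x)ᵀ, (hA.orth x).mul_tr, Matrix.one_mul, Matrix.sub_apply,
      ← Matrix.mul_assoc (A x)ᵀ, ← hp, Matrix.mul_apply]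
    congr 1
    rw [Finset.sum_eq_single e0]
    · congr 1
      simp [Matrix.mul_apply]; ring
    · intro b _ hb; simp [Matrix.mul_apply, hb]
    · simp
  beta_reduce
  rw [h x (lift g), Finset.mul_sum]
  refine Finset.sum_congr rfl fun e _ => ?_
  rw [hamp]
  simp only [S, diagonal_mul]
  cases out e <;> simp
  ring

lemma ampIter (h : QAlg q P) (i : ℕ) : ∃ P' : (I → Bool) → (Option O → ℝ) → ℝ,
    QAlg (3 ^ i * q) P' ∧ ∀ x, ∃ l : ℝ, 0 ≤ l ∧ l ≤ 9 ^ i ∧
      (9 ^ i * P x (lift fun _ => 1) ≤ 2 → 9 ^ i * (1 - 9 ^ i * P x (lift fun _ => 1) / 3) ≤ l) ∧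
      ∀ g, P' x (lift g) = l * P x (lift g) := by
  induction i with
  | zero =>
    refine ⟨P, by simpa using h, fun x => ⟨1, zero_le_one, by simp, fun _ => ?_, by simp⟩⟩
    have := h.succ_nonneg x
    simp; linarith
  | succ i ih =>
    obtain ⟨P1, h1, h2⟩ := ih
    obtain ⟨P', h3, h4⟩ := h1.amp3
    refine ⟨P', h3.mono (le_of_eq (by ring)), fun x => ?_⟩
    obtain ⟨l, l0, l1, l2, l3⟩ := h2 x
    have p0 := h.succ_nonneg x
    have s0 := h1.succ_nonneg x
    have s1 := h1.succ_le x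
    refine ⟨(3 - 4 * P1 x (lift fun _ => 1)) ^ 2 * l, by positivity, ?_, fun hu => ?_,
      fun g => by rw [h4, l3 g]; ring⟩
    · have : (3 - 4 * P1 x (lift fun _ => 1)) ^ 2 ≤ 9 := by nlinarith
      rw [pow_succ (9 : ℝ), mul_comm _ (9 : ℝ)]
      exact mul_le_mul this l1 l0 (by norm_num)
    · set p := P x (lift fun _ => 1)
      set s := P1 x (lift fun _ => 1)
      have hN : (0 : ℝ) < 9 ^ i := by positivity
      rw [pow_succ] at hu ⊢
      set N : ℝ := 9 ^ i
      have hu' : N * p ≤ 2 / 9 := by linarith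
      have l2' := l2 (by linarith)
      have hs : s ≤ N * p := (l3 _).le.trans (mul_le_mul_of_nonneg_right l1 p0)
      have hNp : 0 ≤ N * p := by positivity
      have h5 : 9 - 24 * (N * p) ≤ (3 - 4 * s) ^ 2 := by nlinarith
      have h6 : (9 - 24 * (N * p)) * (N * (1 - N * p / 3)) ≤ (3 - 4 * s) ^ 2 * l :=
        mul_le_mul h5 l2' (by apply mul_nonneg hN.le; linarith) (sq_nonneg _)
      refine le_trans ?_ h6
      have : 0 ≤ N * (N * p) ^ 2 := by positivity
      nlinarith

/-- run `P₁`; on failure run `P₂` -/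
lemma orElse {P₂ : (I → Bool) → (Option O → ℝ) → ℝ} (h : QAlg q P) (h₂ : QAlg q' P₂) :
    ∃ P' : (I → Bool) → (Option O → ℝ) → ℝ, QAlg (q + q') P' ∧
      (∀ x g, P' x (lift g) = P x (lift g) + P x isN * P₂ x (lift g)) ∧
      ∀ x, P' x isN = P x isN * P₂ x isN := by
  refine ⟨_, h.bind (Q := fun o x g => o.elim (P₂ x g) fun a => g (some a)) (fun o => ?_),
    fun x g => ?_, fun x => ?_⟩
  · cases o with
    | none => exact h₂
    | some a => exact (QAlg.pure (some a)).mono (Nat.zero_le _)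
  · rw [mul_comm, ← h.smul, ← h.add]
    congr 1; funext o; cases o <;> simp
  · rw [mul_comm, ← h.smul]
    congr 1; funext o; cases o <;> simp

lemma sweep (h : QAlg q P) (e : ℕ) : ∃ P' : (I → Bool) → (Option O → ℝ) → ℝ,
    QAlg (2 * 3 ^ e * q) P' ∧ ∀ x, (∃ l : ℝ, 0 ≤ l ∧ ∀ g, P' x (lift g) = l * P x (lift g)) ∧
      (1 / 9 ≤ 9 ^ e * P x (lift fun _ => 1) → P' x isN ≤ 25 / 27) := by
  induction e with
  | zero =>
    refine ⟨P, h.mono (by omega), fun x => ⟨⟨1, zero_le_one, by simp⟩, fun hp => ?_⟩⟩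
    rw [h.isN_eq]; simp at hp; linarith
  | succ e ih =>
    obtain ⟨P1, h1, h2⟩ := ih
    obtain ⟨P2, h3, h4⟩ := h.ampIter (e + 1)
    obtain ⟨P', h5, h6, h7⟩ := h1.orElse h3
    refine ⟨P', h5.mono ?_, fun x => ⟨?_, fun hp => ?_⟩⟩
    · rw [← add_mul]; apply Nat.mul_le_mul_right; rw [pow_succ]; omega
    · obtain ⟨⟨l, l0, l1⟩, _⟩ := h2 x
      obtain ⟨l', l0', _, _, l1'⟩ := h4 x
      refine ⟨l + P1 x isN * l', add_nonneg l0 (mul_nonneg (h1.isN_nonneg x) l0'), fun g => ?_⟩
      rw [h6, l1, l1']; ring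
    · rw [h7]
      have a0 := h1.isN_nonneg x
      have a1 := h1.isN_le x
      have b0 := h3.isN_nonneg x
      have b1 := h3.isN_le x
      by_cases hc : 1 / 9 ≤ 9 ^ e * P x (lift fun _ => 1)
      · have := (h2 x).2 hc
        nlinarith
      · obtain ⟨l', l0', _, l2, l1'⟩ := h4 x
        have hu : 9 ^ (e + 1) * P x (lift fun _ => 1) ≤ 1 := by
          rw [pow_succ]; push Not at hc; nlinarith
        have h8 := mul_le_mul_of_nonneg_right (l2 (by linarith)) (h.succ_nonneg x)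
        have h9 : P2 x isN ≤ 25 / 27 := by
          rw [h3.isN_eq, l1']
          nlinarith
        nlinarith

lemma search (h : QAlg q P) (e R : ℕ) : ∃ P' : (I → Bool) → (Option O → ℝ) → ℝ,
    QAlg (R * (2 * 3 ^ e * q)) P' ∧ ∀ x,
      (∃ l : ℝ, 0 ≤ l ∧ ∀ g, P' x (lift g) = l * P x (lift g)) ∧
      (1 / 9 ≤ 9 ^ e * P x (lift fun _ => 1) → P' x isN ≤ (25 / 27) ^ R) := by
  obtain ⟨P1, h1, h2⟩ := h.sweep e
  induction R with
  | zero =>
    refine ⟨_, (QAlg.pure none).mono (Nat.zero_le _), fun x => ⟨⟨0, le_rfl, by simp⟩, by simp⟩⟩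
  | succ R ih =>
    obtain ⟨P2, h3, h4⟩ := ih
    obtain ⟨P', h5, h6, h7⟩ := h3.orElse h1
    refine ⟨P', h5.mono (le_of_eq (by ring)), fun x => ⟨?_, fun hp => ?_⟩⟩
    · obtain ⟨⟨l, l0, l1⟩, _⟩ := h4 x
      obtain ⟨⟨l', l0', l1'⟩, _⟩ := h2 x
      refine ⟨l + P2 x isN * l', add_nonneg l0 (mul_nonneg (h3.isN_nonneg x) l0'), fun g => ?_⟩
      rw [h6, l1, l1']; ring
    · rw [h7, pow_succ]
      exact mul_le_mul ((h4 x).2 hp) ((h2 x).2 hp) (h1.isN_nonneg x) (by positivity)

/-- one random trial -/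
lemma trial {T : Type} [Fintype T] [Nonempty T] {d : ℕ} {φ : T → (I → Bool) → Bool}
    (hφ : ∀ t, DT Any d (φ t)) : QAlg d (fun x (g : Option T → ℝ) =>
      (∑ t, g (if φ t x then some t else none)) / Fintype.card T) := by
  have := (QAlg.unif (I := I) T).bind
    (fun t => (ofDT (hφ t)).map (fun b => if b then some t else none))
  rwa [zero_add] at this

/-- search for a witness -/
lemma find {T : Type} [Fintype T] [Nonempty T] {d : ℕ} {φ : T → (I → Bool) → Bool}
    (hφ : ∀ t, DT Any d (φ t)) (e R : ℕ) : ∃ P' : (I → Bool) → (Bool → ℝ) → ℝ,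
    QAlg (R * (2 * 3 ^ e * d)) P' ∧ ∀ x,
      ((∀ t, φ t x = false) → P' x (fun b => if b then 1 else 0) = 0) ∧
      ((Fintype.card T : ℝ) ≤ 9 ^ (e + 1) * (univ.filter fun t => φ t x).card →
        P' x (fun b => if b then 0 else 1) ≤ (25 / 27) ^ R) := by
  obtain ⟨P', h1, h2⟩ := (trial hφ).search e R
  refine ⟨_, h1.map Option.isSome, fun x => ⟨fun hx => ?_, fun hx => ?_⟩⟩
  · obtain ⟨⟨l, _, hl⟩, _⟩ := h2 x
    have : (fun o : Option T => if o.isSome then (1 : ℝ) else 0) = lift fun _ => 1 := by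
      funext o; cases o <;> simp
    beta_reduce
    rw [this, hl]; simp [hx]
  · have : (fun o : Option T => if o.isSome then (0 : ℝ) else 1) = isN := by
      funext o; cases o <;> simp
    beta_reduce
    rw [this]
    refine (h2 x).2 ?_
    have hc : (0 : ℝ) < Fintype.card T := by exact_mod_cast Fintype.card_pos
    have : ∑ t, lift (fun _ => (1 : ℝ)) (if φ t x then some t else none)
        = (univ.filter fun t => φ t x).card := by
      rw [Finset.card_filter]; push_cast
      exact Finset.sum_congr rfl fun t _ => by split_ifs <;> simp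
    rw [this, ← mul_div_assoc, le_div_iff₀ hc]
    rw [pow_succ] at hx; linarith

end QAlg

end Crest.Agent.Lead.QQ
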