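import Crest.Agent.Lead.QQDefs

/-! Real query algorithms: matrices implementable with `q` phase queries, and the output laws
(as expectation functionals) they produce. -/

set_option autoImplicit false
open Finset Matrix

namespace Crest.Agent.Lead.QQ

section impl
variable {I : Type}

/-- orthogonal matrix -/
def Orth {E : Type} [Fintype E] [DecidableEq E] (U : Matrix E E ℝ) : Prop := Uᵀ * U = 1

/-- sign written by a phase query -/
def qs (o : Option I) (x : I → Bool) : ℝ := o.elim 1 (fun i => sg (x i))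

/-- phase query -/
def Dq {E : Type} [DecidableEq E] (ι : E → Option I) (x : I → Bool) : Matrix E E ℝ :=
  diagonal fun e => qs (ι e) x

/-- `A` is implementable with `q` phase queries -/
def Impl {E : Type} [Fintype E] [DecidableEq E] : ℕ → ((I → Bool) → Matrix E E ℝ) → Prop
  | 0, A => ∃ U, Orth U ∧ ∀ x, A x = U
  | q + 1, A => ∃ (U : Matrix E E ℝ) (ι : E → Option I) (B : (I → Bool) → Matrix E E ℝ),
      Orth U ∧ Impl q B ∧ ∀ x, A x = U * Dq ι x * B x

lemma qs_mul_self (o : Option I) (x : I → Bool) : qs o x * qs o x = 1 := by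
  cases o <;> simp [qs, sg_mul_self]

section basic
variable {E : Type} [Fintype E] [DecidableEq E]

lemma Orth.one : Orth (1 : Matrix E E ℝ) := by simp [Orth]

lemma Orth.mul {U V : Matrix E E ℝ} (hU : Orth U) (hV : Orth V) : Orth (U * V) := by
  unfold Orth at *
  rw [transpose_mul, Matrix.mul_assoc, ← Matrix.mul_assoc Uᵀ, hU, Matrix.one_mul, hV]

lemma Orth.mul_tr {U : Matrix E E ℝ} (hU : Orth U) : U * Uᵀ = 1 := mul_eq_one_comm.mp hU

lemma Orth.tr {U : Matrix E E ℝ} (hU : Orth U) : Orth Uᵀ := by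
  unfold Orth; rw [transpose_transpose]; exact hU.mul_tr

lemma orth_diag {d : E → ℝ} (h : ∀ e, d e * d e = 1) : Orth (diagonal d) := by
  unfold Orth; rw [diagonal_transpose, diagonal_mul_diagonal]; simp [h]

lemma orth_Dq (ι : E → Option I) (x : I → Bool) : Orth (Dq ι x) :=
  orth_diag fun _ => qs_mul_self _ _

lemma Orth.col {U : Matrix E E ℝ} (hU : Orth U) (e0 : E) : ∑ e, U e e0 ^ 2 = 1 := by
  have := congrFun (congrFun hU e0) e0
  simpa [Matrix.mul_apply, sq] using this

lemma Impl.congr {q : ℕ} {A A' : (I → Bool) → Matrix E E ℝ} (h : Impl q A) (e : ∀ x, A' x = A x) :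
    Impl q A' := by
  have : A' = A := funext e
  rwa [this]

lemma Impl.const {U : Matrix E E ℝ} (hU : Orth U) : Impl 0 (fun _ : I → Bool => U) :=
  ⟨U, hU, fun _ => rfl⟩

lemma Impl.orth : ∀ {q : ℕ} {A : (I → Bool) → Matrix E E ℝ}, Impl q A → ∀ x, Orth (A x)
  | 0, _, ⟨_, hU, h⟩, x => h x ▸ hU
  | _ + 1, _, ⟨_, ι, _, hU, hB, h⟩, x => h x ▸ (hU.mul (orth_Dq ι x)).mul (hB.orth x)

lemma Impl.succ {q : ℕ} {A : (I → Bool) → Matrix E E ℝ} (h : Impl q A) : Impl (q + 1) A :=
  ⟨1, fun _ => none, A, Orth.one, h, fun x => by simp [Dq, qs]⟩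

lemma Impl.mono {q q' : ℕ} {A : (I → Bool) → Matrix E E ℝ} (h : Impl q A) (hq : q ≤ q') :
    Impl q' A := by
  induction hq with
  | refl => exact h
  | step _ ih => exact ih.succ

lemma Impl.lmul : ∀ {q : ℕ} {A : (I → Bool) → Matrix E E ℝ} {U : Matrix E E ℝ}, Orth U →
    Impl q A → Impl q (fun x => U * A x)
  | 0, _, U, hU, ⟨V, hV, h⟩ => ⟨U * V, hU.mul hV, fun x => by beta_reduce; rw [h]⟩
  | _ + 1, _, U, hU, ⟨V, ι, B, hV, hB, h⟩ =>
    ⟨U * V, ι, B, hU.mul hV, hB, fun x => by
      beta_reduce; rw [h]; simp only [Matrix.mul_assoc]⟩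

lemma Impl.mul : ∀ {q q' : ℕ} {A B : (I → Bool) → Matrix E E ℝ}, Impl q A → Impl q' B →
    Impl (q + q') (fun x => A x * B x)
  | 0, q', _, B, ⟨U, hU, h⟩, hB => by
    rw [zero_add]; exact (hB.lmul hU).congr fun x => by rw [h]
  | q + 1, q', _, B, ⟨U, ι, A', hU, hA', h⟩, hB => by
    rw [show q + 1 + q' = (q + q') + 1 by omega]
    exact ⟨U, ι, _, hU, hA'.mul hB, fun x => by
      beta_reduce; rw [h]; simp only [Matrix.mul_assoc]⟩

lemma Impl.rmul {q : ℕ} {A : (I → Bool) → Matrix E E ℝ} {U : Matrix E E ℝ} (hU : Orth U)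
    (h : Impl q A) : Impl q (fun x => A x * U) := h.mul (Impl.const hU)

lemma Impl.query (ι : E → Option I) : Impl 1 (Dq ι) :=
  ⟨1, ι, fun _ => 1, Orth.one, Impl.const Orth.one, fun x => by simp⟩

lemma Impl.tr : ∀ {q : ℕ} {A : (I → Bool) → Matrix E E ℝ}, Impl q A → Impl q (fun x => (A x)ᵀ)
  | 0, _, ⟨U, hU, h⟩ => ⟨Uᵀ, hU.tr, fun x => by beta_reduce; rw [h]⟩
  | q + 1, _, ⟨U, ι, B, hU, hB, h⟩ =>
    (hB.tr.mul ((Impl.query ι).rmul hU.tr)).congr fun x => by
      rw [h]; simp [Dq, transpose_mul]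

lemma Impl.reindex {E' : Type} [Fintype E'] [DecidableEq E'] (σ : E' ≃ E) :
    ∀ {q : ℕ} {A : (I → Bool) → Matrix E E ℝ}, Impl q A →
      Impl q (fun x => (A x).submatrix σ σ)
  | 0, _, ⟨U, hU, h⟩ => ⟨U.submatrix σ σ, by
      unfold Orth at *
      rw [transpose_submatrix, submatrix_mul_equiv, hU, submatrix_one_equiv],
      fun x => by beta_reduce; rw [h]⟩
  | q + 1, _, ⟨U, ι, B, hU, hB, h⟩ => ⟨U.submatrix σ σ, ι ∘ σ, _, by
      unfold Orth at *
      rw [transpose_submatrix, submatrix_mul_equiv, hU, submatrix_one_equiv],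
      Impl.reindex σ hB, fun x => by
        beta_reduce
        rw [h, ← submatrix_mul_equiv _ _ _ σ, ← submatrix_mul_equiv _ _ _ σ]
        congr 2
        unfold Dq
        rw [submatrix_diagonal_equiv]; rfl⟩

/-- change of the index set of the input -/
lemma Impl.comp {J : Type} (e : I → J) : ∀ {q : ℕ} {A : (I → Bool) → Matrix E E ℝ}, Impl q A →
    Impl q (fun y : J → Bool => A (fun i => y (e i)))
  | 0, _, ⟨U, hU, h⟩ => ⟨U, hU, fun _ => h _⟩
  | q + 1, _, ⟨U, ι, B, hU, hB, h⟩ => ⟨U, fun z => (ι z).map e, _, hU, Impl.comp e hB, fun y => by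
      beta_reduce; rw [h]; congr 2; unfold Dq; congr 1; funext z
      beta_reduce; cases ι z <;> rfl⟩

lemma Impl.start {q : ℕ} {A : (I → Bool) → Matrix E E ℝ} (h : Impl q A) (s0 s1 : E) :
    ∃ A' : (I → Bool) → Matrix E E ℝ, Impl q A' ∧ ∀ x s, A' x s s0 = A x s s1 := by
  refine ⟨fun x => A x * (1 : Matrix E E ℝ).submatrix id (Equiv.swap s0 s1), h.rmul ?_, ?_⟩
  · unfold Orth
    ext a b
    simp [Matrix.mul_apply, Matrix.one_apply, eq_comm]
  · intro x s
    simp [Matrix.mul_apply, Matrix.one_apply]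

end basic

lemma Impl.sigma {T : Type} [Fintype T] [DecidableEq T] {E : T → Type} [∀ t, Fintype (E t)]
    [∀ t, DecidableEq (E t)] : ∀ {q : ℕ} {A : ∀ t, (I → Bool) → Matrix (E t) (E t) ℝ},
    (∀ t, Impl q (A t)) → Impl q (fun x => blockDiagonal' fun t => A t x)
  | 0, A, h => by
    choose U hU h using h
    refine ⟨blockDiagonal' U, ?_, fun x => by simp only [h]⟩
    unfold Orth at *
    rw [blockDiagonal'_transpose, ← blockDiagonal'_mul]
    simp only [hU]; exact blockDiagonal'_one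
  | q + 1, A, h => by
    choose U ι B hU hB h using h
    refine ⟨blockDiagonal' U, fun z => ι z.1 z.2, _, ?_, Impl.sigma hB, fun x => ?_⟩
    · unfold Orth at *
      rw [blockDiagonal'_transpose, ← blockDiagonal'_mul]
      simp only [hU]; exact blockDiagonal'_one
    · simp only [h]
      rw [blockDiagonal'_mul, blockDiagonal'_mul]
      congr 2
      unfold Dq
      rw [blockDiagonal'_diagonal]

lemma Impl.ctrl {T E : Type} [Fintype T] [DecidableEq T] [Fintype E] [DecidableEq E] {q : ℕ}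
    {A : T → (I → Bool) → Matrix E E ℝ} (h : ∀ t, Impl q (A t)) :
    Impl q (fun x => (of fun a b : T × E => if a.1 = b.1 then A a.1 x a.2 b.2 else 0)) := by
  refine ((Impl.sigma (E := fun _ => E) h).reindex (Equiv.sigmaEquivProd T E).symm).congr
    fun x => ?_
  ext ⟨a, b⟩ ⟨c, d⟩
  by_cases hac : a = c
  · subst hac; simp
  · simp [hac, blockDiagonal'_apply_ne]

lemma Impl.ctrl' {T E : Type} [Fintype T] [DecidableEq T] [Fintype E] [DecidableEq E] {q : ℕ}
    {A : (I → Bool) → Matrix E E ℝ} (h : Impl q A) :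
    Impl q (fun x => (of fun a b : E × T => if a.2 = b.2 then A x a.1 b.1 else 0)) :=
  ((Impl.ctrl (T := T) (A := fun _ => A) fun _ => h).reindex (Equiv.prodComm E T)).congr
    fun x => by ext ⟨a, b⟩ ⟨c, d⟩; simp

end impl

/-! ### output laws -/

section qalg
variable {I O O' : Type}

/-- the law `P x` (given by its expectation functional) can be sampled with `q` queries -/
def QAlg (q : ℕ) (P : (I → Bool) → (O → ℝ) → ℝ) : Prop :=
  ∃ (E : Type) (_ : Fintype E) (_ : DecidableEq E) (A : (I → Bool) → Matrix E E ℝ) (e0 : E)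
    (out : E → O), Impl q A ∧ ∀ x g, P x g = ∑ e, A x e e0 ^ 2 * g (out e)

namespace QAlg
variable {q q' : ℕ} {P : (I → Bool) → (O → ℝ) → ℝ}

lemma congr {P' : (I → Bool) → (O → ℝ) → ℝ} (h : QAlg q P) (e : ∀ x g, P' x g = P x g) :
    QAlg q P' := by
  have : P' = P := funext fun x => funext (e x)
  rwa [this]

lemma mono (h : QAlg q P) (hq : q ≤ q') : QAlg q' P := by
  obtain ⟨E, _, _, A, e0, out, hA, h⟩ := h
  exact ⟨E, _, _, A, e0, out, hA.mono hq, h⟩

lemma le (h : QAlg q P) (x : I → Bool) {g g' : O → ℝ} (hg : ∀ o, g o ≤ g' o) :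
    P x g ≤ P x g' := by
  obtain ⟨E, _, _, A, e0, out, hA, h⟩ := h
  rw [h, h]
  exact Finset.sum_le_sum fun e _ => mul_le_mul_of_nonneg_left (hg _) (sq_nonneg _)

lemma cst (h : QAlg q P) (x : I → Bool) (c : ℝ) : P x (fun _ => c) = c := by
  obtain ⟨E, _, _, A, e0, out, hA, h⟩ := h
  rw [h, ← Finset.sum_mul, (hA.orth x).col, one_mul]

lemma lin (h : QAlg q P) (x : I → Bool) (a b : ℝ) (g g' : O → ℝ) :
    P x (fun o => a * g o + b * g' o) = a * P x g + b * P x g' := by
  obtain ⟨E, _, _, A, e0, out, hA, h⟩ := h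
  rw [h, h, h, Finset.mul_sum, Finset.mul_sum, ← Finset.sum_add_distrib]
  exact Finset.sum_congr rfl fun e _ => by ring

lemma add (h : QAlg q P) (x : I → Bool) (g g' : O → ℝ) :
    P x (fun o => g o + g' o) = P x g + P x g' := by
  simpa using h.lin x 1 1 g g'

lemma smul (h : QAlg q P) (x : I → Bool) (a : ℝ) (g : O → ℝ) :
    P x (fun o => a * g o) = a * P x g := by
  simpa using h.lin x a 0 g g

lemma nonneg (h : QAlg q P) (x : I → Bool) {g : O → ℝ} (hg : ∀ o, 0 ≤ g o) : 0 ≤ P x g := by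
  have := h.le x (g := fun _ => 0) hg
  rwa [h.cst] at this

lemma le_cst (h : QAlg q P) (x : I → Bool) {g : O → ℝ} {c : ℝ} (hg : ∀ o, g o ≤ c) :
    P x g ≤ c := by
  have := h.le x (g' := fun _ => c) hg
  rwa [h.cst] at this

lemma repr [Fintype O] [DecidableEq O] (h : QAlg q P) (x : I → Bool) (g : O → ℝ) :
    P x g = ∑ o, P x (fun o' => if o' = o then 1 else 0) * g o := by
  obtain ⟨E, _, _, A, e0, out, hA, h⟩ := h
  simp only [h, Finset.sum_mul]
  rw [Finset.sum_comm]
  refine Finset.sum_congr rfl fun e _ => ?_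
  simp

lemma pure (o : O) : QAlg (I := I) 0 (fun _ g => g o) :=
  ⟨Unit, inferInstance, inferInstance, fun _ => 1, (), fun _ => o, Impl.const Orth.one,
    fun x g => by simp⟩

lemma map (h : QAlg q P) (φ : O → O') : QAlg q (fun x g => P x (fun o => g (φ o))) := by
  obtain ⟨E, _, _, A, e0, out, hA, h⟩ := h
  exact ⟨E, _, _, A, e0, fun e => φ (out e), hA, fun x g => h x _⟩

lemma bind (h : QAlg q P) {Q : O → (I → Bool) → (O' → ℝ) → ℝ} (hQ : ∀ o, QAlg q' (Q o)) :
    QAlg (q + q') (fun x g => P x (fun o => Q o x g)) := by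
  classical
  obtain ⟨E, _, _, A, e0, out, hA, h⟩ := h
  choose E' _ _ B f0 out' hB hQ using hQ
  have hS := Impl.sigma (T := E) (E := fun e => E' (out e)) (A := fun e => B (out e))
    fun e => hB (out e)
  choose C hC hC' using fun e : E => hS.start ⟨e0, f0 (out e0)⟩ ⟨e, f0 (out e)⟩
  have h1 := Impl.ctrl hC
  have h2 := Impl.ctrl' (T := Σ e : E, E' (out e)) hA
  refine ⟨E × Σ e : E, E' (out e), inferInstance, inferInstance, _, (e0, ⟨e0, f0 (out e0)⟩),
    fun z => out' (out z.2.1) z.2.2, (h1.mul h2).mono (by omega), fun x g => ?_⟩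
  beta_reduce
  rw [h, Fintype.sum_prod_type]
  refine Finset.sum_congr rfl fun e _ => ?_
  rw [hQ, Finset.mul_sum]
  simp only [Matrix.mul_apply, of_apply, Fintype.sum_prod_type, mul_ite, mul_zero, ite_mul,
    zero_mul, Finset.sum_ite_eq', Finset.mem_univ, if_true, Finset.sum_ite_eq, hC']
  rw [Fintype.sum_sigma, Finset.sum_eq_single e]
  · refine Finset.sum_congr rfl fun f _ => ?_
    rw [blockDiagonal'_apply_eq]; ring
  · intro e' _ he'
    refine Finset.sum_eq_zero fun f _ => ?_
    rw [blockDiagonal'_apply_ne _ _ _ he']; simp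
  · simp

end QAlg

/-- Householder: two isometries with orthogonal ranges are intertwined by an orthogonal matrix -/
lemma exists_orth_ext {B E : Type} [Fintype B] [DecidableEq B] [Fintype E] [DecidableEq E]
    (J1 J2 : Matrix B E ℝ) (h1 : J1ᵀ * J1 = 1) (h2 : J2ᵀ * J2 = 1) (h12 : J1ᵀ * J2 = 0) :
    ∃ W : Matrix B B ℝ, Orth W ∧ W * J1 = J2 := by
  have h21 : J2ᵀ * J1 = 0 := by
    have := congrArg transpose h12
    simpa [transpose_mul] using this
  set M := J1 - J2 with hM
  have hM1 : Mᵀ * J1 = 1 := by rw [hM, transpose_sub, Matrix.sub_mul, h1, h21, sub_zero]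
  have hM2 : Mᵀ * J2 = -1 := by rw [hM, transpose_sub, Matrix.sub_mul, h12, h2, zero_sub]
  have hMM : Mᵀ * M = 1 + 1 := by
    conv_lhs => rw [hM]
    rw [Matrix.mul_sub, ← hM, hM1, hM2, sub_neg_eq_add]
  refine ⟨1 - M * Mᵀ, ?_, ?_⟩
  · unfold Orth
    rw [transpose_sub, transpose_one, transpose_mul, transpose_transpose, Matrix.sub_mul,
      Matrix.mul_sub, Matrix.mul_sub, Matrix.mul_assoc M Mᵀ (M * Mᵀ), ← Matrix.mul_assoc Mᵀ M,
      hMM]
    simp only [Matrix.one_mul, Matrix.mul_one, Matrix.add_mul, Matrix.mul_add]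
    abel
  · rw [Matrix.sub_mul, Matrix.one_mul, Matrix.mul_assoc, hM1, Matrix.mul_one, hM]; abel

namespace QAlg

/-- uniform sampling -/
lemma unif (T : Type) [Fintype T] [Nonempty T] :
    QAlg (I := I) 0 (fun _ (g : T → ℝ) => (∑ t, g t) / Fintype.card T) := by
  classical
  have hc : (0 : ℝ) < Fintype.card T := by exact_mod_cast Fintype.card_pos
  obtain ⟨W, hW, hW'⟩ := exists_orth_ext (B := Option T) (E := Unit)
    (of fun o _ => o.elim 1 (fun _ => 0)) (of fun o _ => o.elim 0
      (fun _ => 1 / Real.sqrt (Fintype.card T)))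
    (by ext a b; simp [Matrix.mul_apply])
    (by
      ext a b
      simp only [Matrix.mul_apply, transpose_apply, of_apply, Fintype.sum_option, Option.elim,
        mul_zero, zero_add, Finset.sum_const, Finset.card_univ, nsmul_eq_mul, Matrix.one_apply,
        if_true]
      rw [div_mul_div_comm, Real.mul_self_sqrt hc.le]; field_simp)
    (by ext a b; simp [Matrix.mul_apply])
  refine ⟨Option T, inferInstance, inferInstance, fun _ => W, none,
    fun o => o.getD (Classical.arbitrary T), Impl.const hW, fun x g => ?_⟩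
  have hW2 : ∀ o, W o none = o.elim 0 (fun _ => 1 / Real.sqrt (Fintype.card T)) := by
    intro o
    have := congrFun (congrFun hW' o) ()
    simpa [Matrix.mul_apply, Fintype.sum_option] using this
  simp only [hW2, Fintype.sum_option, Option.elim, Option.getD]
  rw [div_pow, Real.sq_sqrt hc.le, ← Finset.mul_sum]
  field_simp
  simp

/-- the `2 × 2` Hadamard matrix -/
noncomputable def H2 : Matrix Bool Bool ℝ := of fun a b => sg (a && b) / Real.sqrt 2

lemma orth_H2 : Orth H2 := by
  have h : Real.sqrt 2 * Real.sqrt 2 = 2 := Real.mul_self_sqrt (by norm_num)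
  have h0 : Real.sqrt 2 ≠ 0 := by positivity
  unfold Orth
  ext a b
  cases a <;> cases b <;> simp [Matrix.mul_apply, H2] <;> field_simp <;> nlinarith

/-- Hadamard test -/
lemma hadTest {E : Type} [Fintype E] [DecidableEq E] {q : ℕ} {W : (I → Bool) → Matrix E E ℝ}
    (h : Impl q W) (e0 : E) :
    QAlg q (fun x (g : Bool → ℝ) => ∑ b, (1 + sg b * W x e0 e0) / 2 * g b) := by
  have h2 : Real.sqrt 2 * Real.sqrt 2 = 2 := Real.mul_self_sqrt (by norm_num)
  have h0 : Real.sqrt 2 ≠ 0 := by positivity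
  have hc := Impl.ctrl (T := Bool) (A := fun b x => if b then W x else 1) (q := q) (fun b => by
    cases b
    · simpa using (Impl.const (I := I) (Orth.one (E := E))).mono (Nat.zero_le q)
    · simpa using h)
  have hH := Impl.ctrl' (T := E) (Impl.const (I := I) orth_H2)
  refine ⟨Bool × E, inferInstance, inferInstance, _, (false, e0), fun z => z.1,
    ((hH.mul hc).mul hH).mono (by omega), fun x g => ?_⟩
  rw [Fintype.sum_prod_type]
  refine Finset.sum_congr rfl fun b _ => ?_
  dsimp only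
  rw [← Finset.sum_mul]
  congr 1
  have ha : ∀ e, (((of fun a b : Bool × E => if a.2 = b.2 then H2 a.1 b.1 else 0) *
      (of fun a b : Bool × E => if a.1 = b.1 then (if a.1 then W x else 1) a.2 b.2 else 0)) *
      (of fun a b : Bool × E => if a.2 = b.2 then H2 a.1 b.1 else 0)) (b, e) (false, e0)
      = ((if e = e0 then 1 else 0) + sg b * W x e e0) / 2 := by
    intro e
    simp only [Matrix.mul_apply, of_apply, Fintype.sum_prod_type, mul_ite, mul_zero, ite_mul,
      zero_mul, Finset.sum_ite_eq', Finset.mem_univ, if_true, Finset.sum_ite_eq, Fintype.sum_bool,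
      H2, Matrix.one_apply]
    simp
    have h3 : Real.sqrt 2 ^ 2 = 2 := Real.sq_sqrt (by norm_num)
    rw [Matrix.one_apply]
    split_ifs <;> field_simp <;> rw [h3] <;> ring
  simp only [ha]
  have hcol := (h.orth x).col e0
  have : ∀ e, (((if e = e0 then 1 else 0) + sg b * W x e e0) / 2) ^ 2
      = (if e = e0 then (1 + 2 * sg b * W x e0 e0) / 4 else 0) + W x e e0 ^ 2 / 4 := by
    intro e
    have := sg_sq b
    split_ifs with he
    · subst he; nlinarith
    · nlinarith
  simp only [this, Finset.sum_add_distrib, Finset.sum_ite_eq', Finset.mem_univ, if_true,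
    ← Finset.sum_div, hcol]
  ring

lemma query (i : I) : QAlg 1 (fun x (g : Bool → ℝ) => g (x i)) :=
  (hadTest (Impl.query (E := Unit) (fun _ => some i)) ()).congr fun x g => by
    cases hx : x i <;> simp [Dq, qs, hx]

lemma ofDT {p : O → Prop} {d : ℕ} {f : (I → Bool) → O} (h : DT p d f) :
    QAlg d (fun x (g : O → ℝ) => g (f x)) := by
  induction h with
  | const d β _ => exact (QAlg.pure β).mono (Nat.zero_le _)
  | read d i f₀ f₁ _ _ ih₀ ih₁ =>
    have := (query i).bind (Q := fun b x (g : O → ℝ) => g (if b then f₁ x else f₀ x)) (q' := d)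
      (fun b => by cases b <;> simpa)
    rw [add_comm] at this
    exact this

/-- independent runs -/
lemma pi {Ω : Type} [Fintype Ω] {q : ℕ} : ∀ {n : ℕ} {c : Fin n → (I → Bool) → Ω → ℝ},
    (∀ t, QAlg q (fun x (g : Ω → ℝ) => ∑ ω, c t x ω * g ω)) →
    QAlg (n * q) (fun x (g : (Fin n → Ω) → ℝ) => pf (fun t => c t x) g)
  | 0, c, _ => by
    rw [zero_mul]
    exact (QAlg.pure (fun t : Fin 0 => t.elim0)).congr fun x g => by
      simp only [pf, Finset.univ_unique, Finset.sum_singleton, Finset.univ_eq_empty,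
        Finset.prod_empty, one_mul]
      congr 1
  | n + 1, c, h => by
    have ih := QAlg.pi (n := n) (c := fun t => c t.succ) fun t => h t.succ
    have := (h 0).bind (fun ω => ih.map (fun y => (Fin.cons ω y : Fin (n + 1) → Ω)))
    rw [show (n + 1) * q = q + n * q by ring]
    refine this.congr fun x g => ?_
    simp only [pf]
    rw [← (Fin.consEquiv fun _ : Fin (n + 1) => Ω).sum_comp, Fintype.sum_prod_type]
    refine Finset.sum_congr rfl fun ω _ => ?_
    rw [Finset.mul_sum]
    refine Finset.sum_congr rfl fun y _ => ?_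
    simp [Fin.prod_univ_succ, Fin.consEquiv, mul_assoc]

end QAlg
end qalg

end Crest.Agent.Lead.QQ
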