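import Crest.Agent.H8.SnGame

set_option autoImplicit false

namespace Crest.Agent.H8.Sn
open Crest.CombinatoricsR.PolyominoGame

/-! Bit-board certificate checker.  A number `X` encodes a situation on a `32 × 32` window: bit
`2 i` says that cell `i` is in the core, bit `2 i + 1` that cell `i` is in the zone. -/

def mx1 : Nat := nat_lit 0x33333333333333333333333333333333333333333333333333333333333333333333333333333333333333333333333333333333333333333333333333333333333333333333333333333333333333333333333333333333333333333333333333333333333333333333333333333333333333333333333333333333333333333333333333333333333333333333333333333333333333333333333333333333333333333333333333333333333333333333333333333333333333333333333333333333333333333333333333333333333333333333333333333333333333333333333333333333333333333333333333333333333333333333333333333333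
def mx2 : Nat := nat_lit 0xf0f0f0f0f0f0f0f0f0f0f0f0f0f0f0f0f0f0f0f0f0f0f0f0f0f0f0f0f0f0f0f0f0f0f0f0f0f0f0f0f0f0f0f0f0f0f0f0f0f0f0f0f0f0f0f0f0f0f0f0f0f0f0f0f0f0f0f0f0f0f0f0f0f0f0f0f0f0f0f0f0f0f0f0f0f0f0f0f0f0f0f0f0f0f0f0f0f0f0f0f0f0f0f0f0f0f0f0f0f0f0f0f0f0f0f0f0f0f0f0f0f0f0f0f0f0f0f0f0f0f0f0f0f0f0f0f0f0f0f0f0f0f0f0f0f0f0f0f0f0f0f0f0f0f0f0f0f0f0f0f0f0f0f0f0f0f0f0f0f0f0f0f0f0f0f0f0f0f0f0f0f0f0f0f0f0f0f0f0f0f0f0f0f0f0f0f0f0f0f0f0f0f0f0f0f0f0f0f0f0f0f0f0f0f0f0f0f0f0f0f0f0f0f0f0f0f0f0f0f0f0f0f0f0f0f0f0f0f0f0f0f0f0f0f0f0f0f0f0f0f0f0f0f0f0f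
def mx4 : Nat := nat_lit 0xff00ff00ff00ff00ff00ff00ff00ff00ff00ff00ff00ff00ff00ff00ff00ff00ff00ff00ff00ff00ff00ff00ff00ff00ff00ff00ff00ff00ff00ff00ff00ff00ff00ff00ff00ff00ff00ff00ff00ff00ff00ff00ff00ff00ff00ff00ff00ff00ff00ff00ff00ff00ff00ff00ff00ff00ff00ff00ff00ff00ff00ff00ff00ff00ff00ff00ff00ff00ff00ff00ff00ff00ff00ff00ff00ff00ff00ff00ff00ff00ff00ff00ff00ff00ff00ff00ff00ff00ff00ff00ff00ff00ff00ff00ff00ff00ff00ff00ff00ff00ff00ff00ff00ff00ff00ff00ff00ff00ff00ff00ff00ff00ff00ff00ff00ff00ff00ff00ff00ff00ff00ff00ff00ff00ff00ff00ff00ff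
def mx8 : Nat := nat_lit 0xffff0000ffff0000ffff0000ffff0000ffff0000ffff0000ffff0000ffff0000ffff0000ffff0000ffff0000ffff0000ffff0000ffff0000ffff0000ffff0000ffff0000ffff0000ffff0000ffff0000ffff0000ffff0000ffff0000ffff0000ffff0000ffff0000ffff0000ffff0000ffff0000ffff0000ffff0000ffff0000ffff0000ffff0000ffff0000ffff0000ffff0000ffff0000ffff0000ffff0000ffff0000ffff0000ffff0000ffff0000ffff0000ffff0000ffff0000ffff0000ffff0000ffff0000ffff0000ffff0000ffff0000ffff0000ffff0000ffff0000ffff0000ffff0000ffff0000ffff0000ffff0000ffff0000ffff0000ffff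
def mx16 : Nat := nat_lit 0xffffffff00000000ffffffff00000000ffffffff00000000ffffffff00000000ffffffff00000000ffffffff00000000ffffffff00000000ffffffff00000000ffffffff00000000ffffffff00000000ffffffff00000000ffffffff00000000ffffffff00000000ffffffff00000000ffffffff00000000ffffffff00000000ffffffff00000000ffffffff00000000ffffffff00000000ffffffff00000000ffffffff00000000ffffffff00000000ffffffff00000000ffffffff00000000ffffffff00000000ffffffff00000000ffffffff00000000ffffffff00000000ffffffff00000000ffffffff00000000ffffffff00000000ffffffff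
def my1 : Nat := nat_lit 0xffffffffffffffff0000000000000000ffffffffffffffff0000000000000000ffffffffffffffff0000000000000000ffffffffffffffff0000000000000000ffffffffffffffff0000000000000000ffffffffffffffff0000000000000000ffffffffffffffff0000000000000000ffffffffffffffff0000000000000000ffffffffffffffff0000000000000000ffffffffffffffff0000000000000000ffffffffffffffff0000000000000000ffffffffffffffff0000000000000000ffffffffffffffff0000000000000000ffffffffffffffff0000000000000000ffffffffffffffff0000000000000000ffffffffffffffff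
def my2 : Nat := nat_lit 0xffffffffffffffffffffffffffffffff00000000000000000000000000000000ffffffffffffffffffffffffffffffff00000000000000000000000000000000ffffffffffffffffffffffffffffffff00000000000000000000000000000000ffffffffffffffffffffffffffffffff00000000000000000000000000000000ffffffffffffffffffffffffffffffff00000000000000000000000000000000ffffffffffffffffffffffffffffffff00000000000000000000000000000000ffffffffffffffffffffffffffffffff00000000000000000000000000000000ffffffffffffffffffffffffffffffff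
def my4 : Nat := nat_lit 0xffffffffffffffffffffffffffffffffffffffffffffffffffffffffffffffff0000000000000000000000000000000000000000000000000000000000000000ffffffffffffffffffffffffffffffffffffffffffffffffffffffffffffffff0000000000000000000000000000000000000000000000000000000000000000ffffffffffffffffffffffffffffffffffffffffffffffffffffffffffffffff0000000000000000000000000000000000000000000000000000000000000000ffffffffffffffffffffffffffffffffffffffffffffffffffffffffffffffff
def my8 : Nat := nat_lit 0xffffffffffffffffffffffffffffffffffffffffffffffffffffffffffffffffffffffffffffffffffffffffffffffffffffffffffffffffffffffffffffffff00000000000000000000000000000000000000000000000000000000000000000000000000000000000000000000000000000000000000000000000000000000ffffffffffffffffffffffffffffffffffffffffffffffffffffffffffffffffffffffffffffffffffffffffffffffffffffffffffffffffffffffffffffffff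
def my16 : Nat := nat_lit 0xffffffffffffffffffffffffffffffffffffffffffffffffffffffffffffffffffffffffffffffffffffffffffffffffffffffffffffffffffffffffffffffffffffffffffffffffffffffffffffffffffffffffffffffffffffffffffffffffffffffffffffffffffffffffffffffffffffffffffffffffffffffffffffffff
def mt1 : Nat := nat_lit 0xcccccccccccccccc0000000000000000cccccccccccccccc0000000000000000cccccccccccccccc0000000000000000cccccccccccccccc0000000000000000cccccccccccccccc0000000000000000cccccccccccccccc0000000000000000cccccccccccccccc0000000000000000cccccccccccccccc0000000000000000cccccccccccccccc0000000000000000cccccccccccccccc0000000000000000cccccccccccccccc0000000000000000cccccccccccccccc0000000000000000cccccccccccccccc0000000000000000cccccccccccccccc0000000000000000cccccccccccccccc0000000000000000cccccccccccccccc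
def mr1 : Nat := nat_lit 0xcccccccccccccccc3333333333333333cccccccccccccccc3333333333333333cccccccccccccccc3333333333333333cccccccccccccccc3333333333333333cccccccccccccccc3333333333333333cccccccccccccccc3333333333333333cccccccccccccccc3333333333333333cccccccccccccccc3333333333333333cccccccccccccccc3333333333333333cccccccccccccccc3333333333333333cccccccccccccccc3333333333333333cccccccccccccccc3333333333333333cccccccccccccccc3333333333333333cccccccccccccccc3333333333333333cccccccccccccccc3333333333333333cccccccccccccccc3333333333333333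
def mt2 : Nat := nat_lit 0xf0f0f0f0f0f0f0f0f0f0f0f0f0f0f0f000000000000000000000000000000000f0f0f0f0f0f0f0f0f0f0f0f0f0f0f0f000000000000000000000000000000000f0f0f0f0f0f0f0f0f0f0f0f0f0f0f0f000000000000000000000000000000000f0f0f0f0f0f0f0f0f0f0f0f0f0f0f0f000000000000000000000000000000000f0f0f0f0f0f0f0f0f0f0f0f0f0f0f0f000000000000000000000000000000000f0f0f0f0f0f0f0f0f0f0f0f0f0f0f0f000000000000000000000000000000000f0f0f0f0f0f0f0f0f0f0f0f0f0f0f0f000000000000000000000000000000000f0f0f0f0f0f0f0f0f0f0f0f0f0f0f0f0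
def mr2 : Nat := nat_lit 0xf0f0f0f0f0f0f0f0f0f0f0f0f0f0f0f00f0f0f0f0f0f0f0f0f0f0f0f0f0f0f0ff0f0f0f0f0f0f0f0f0f0f0f0f0f0f0f00f0f0f0f0f0f0f0f0f0f0f0f0f0f0f0ff0f0f0f0f0f0f0f0f0f0f0f0f0f0f0f00f0f0f0f0f0f0f0f0f0f0f0f0f0f0f0ff0f0f0f0f0f0f0f0f0f0f0f0f0f0f0f00f0f0f0f0f0f0f0f0f0f0f0f0f0f0f0ff0f0f0f0f0f0f0f0f0f0f0f0f0f0f0f00f0f0f0f0f0f0f0f0f0f0f0f0f0f0f0ff0f0f0f0f0f0f0f0f0f0f0f0f0f0f0f00f0f0f0f0f0f0f0f0f0f0f0f0f0f0f0ff0f0f0f0f0f0f0f0f0f0f0f0f0f0f0f00f0f0f0f0f0f0f0f0f0f0f0f0f0f0f0ff0f0f0f0f0f0f0f0f0f0f0f0f0f0f0f00f0f0f0f0f0f0f0f0f0f0f0f0f0f0f0f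
def mt4 : Nat := nat_lit 0xff00ff00ff00ff00ff00ff00ff00ff00ff00ff00ff00ff00ff00ff00ff00ff000000000000000000000000000000000000000000000000000000000000000000ff00ff00ff00ff00ff00ff00ff00ff00ff00ff00ff00ff00ff00ff00ff00ff000000000000000000000000000000000000000000000000000000000000000000ff00ff00ff00ff00ff00ff00ff00ff00ff00ff00ff00ff00ff00ff00ff00ff000000000000000000000000000000000000000000000000000000000000000000ff00ff00ff00ff00ff00ff00ff00ff00ff00ff00ff00ff00ff00ff00ff00ff00
def mr4 : Nat := nat_lit 0xff00ff00ff00ff00ff00ff00ff00ff00ff00ff00ff00ff00ff00ff00ff00ff0000ff00ff00ff00ff00ff00ff00ff00ff00ff00ff00ff00ff00ff00ff00ff00ffff00ff00ff00ff00ff00ff00ff00ff00ff00ff00ff00ff00ff00ff00ff00ff0000ff00ff00ff00ff00ff00ff00ff00ff00ff00ff00ff00ff00ff00ff00ff00ffff00ff00ff00ff00ff00ff00ff00ff00ff00ff00ff00ff00ff00ff00ff00ff0000ff00ff00ff00ff00ff00ff00ff00ff00ff00ff00ff00ff00ff00ff00ff00ffff00ff00ff00ff00ff00ff00ff00ff00ff00ff00ff00ff00ff00ff00ff00ff0000ff00ff00ff00ff00ff00ff00ff00ff00ff00ff00ff00ff00ff00ff00ff00ff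
def mt8 : Nat := nat_lit 0xffff0000ffff0000ffff0000ffff0000ffff0000ffff0000ffff0000ffff0000ffff0000ffff0000ffff0000ffff0000ffff0000ffff0000ffff0000ffff000000000000000000000000000000000000000000000000000000000000000000000000000000000000000000000000000000000000000000000000000000000000ffff0000ffff0000ffff0000ffff0000ffff0000ffff0000ffff0000ffff0000ffff0000ffff0000ffff0000ffff0000ffff0000ffff0000ffff0000ffff0000
def mr8 : Nat := nat_lit 0xffff0000ffff0000ffff0000ffff0000ffff0000ffff0000ffff0000ffff0000ffff0000ffff0000ffff0000ffff0000ffff0000ffff0000ffff0000ffff00000000ffff0000ffff0000ffff0000ffff0000ffff0000ffff0000ffff0000ffff0000ffff0000ffff0000ffff0000ffff0000ffff0000ffff0000ffff0000ffffffff0000ffff0000ffff0000ffff0000ffff0000ffff0000ffff0000ffff0000ffff0000ffff0000ffff0000ffff0000ffff0000ffff0000ffff0000ffff00000000ffff0000ffff0000ffff0000ffff0000ffff0000ffff0000ffff0000ffff0000ffff0000ffff0000ffff0000ffff0000ffff0000ffff0000ffff0000ffff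
def mt16 : Nat := nat_lit 0xffffffff00000000ffffffff00000000ffffffff00000000ffffffff00000000ffffffff00000000ffffffff00000000ffffffff00000000ffffffff00000000ffffffff00000000ffffffff00000000ffffffff00000000ffffffff00000000ffffffff00000000ffffffff00000000ffffffff00000000ffffffff00000000
def mr16 : Nat := nat_lit 0xffffffff00000000ffffffff00000000ffffffff00000000ffffffff00000000ffffffff00000000ffffffff00000000ffffffff00000000ffffffff00000000ffffffff00000000ffffffff00000000ffffffff00000000ffffffff00000000ffffffff00000000ffffffff00000000ffffffff00000000ffffffff0000000000000000ffffffff00000000ffffffff00000000ffffffff00000000ffffffff00000000ffffffff00000000ffffffff00000000ffffffff00000000ffffffff00000000ffffffff00000000ffffffff00000000ffffffff00000000ffffffff00000000ffffffff00000000ffffffff00000000ffffffff00000000ffffffff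
def rowR : Nat := nat_lit 0x10000000000000001000000000000000100000000000000010000000000000001000000000000000100000000000000010000000000000001000000000000000100000000000000010000000000000001000000000000000100000000000000010000000000000001000000000000000100000000000000010000000000000001000000000000000100000000000000010000000000000001000000000000000100000000000000010000000000000001000000000000000100000000000000010000000000000001000000000000000100000000000000010000000000000001000000000000000100000000000000010000000000000001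
def oddM : Nat := nat_lit 0xaaaaaaaaaaaaaaaaaaaaaaaaaaaaaaaaaaaaaaaaaaaaaaaaaaaaaaaaaaaaaaaaaaaaaaaaaaaaaaaaaaaaaaaaaaaaaaaaaaaaaaaaaaaaaaaaaaaaaaaaaaaaaaaaaaaaaaaaaaaaaaaaaaaaaaaaaaaaaaaaaaaaaaaaaaaaaaaaaaaaaaaaaaaaaaaaaaaaaaaaaaaaaaaaaaaaaaaaaaaaaaaaaaaaaaaaaaaaaaaaaaaaaaaaaaaaaaaaaaaaaaaaaaaaaaaaaaaaaaaaaaaaaaaaaaaaaaaaaaaaaaaaaaaaaaaaaaaaaaaaaaaaaaaaaaaaaaaaaaaaaaaaaaaaaaaaaaaaaaaaaaaaaaaaaaaaaaaaaaaaaaaaaaaaaaaaaaaaaaaaaaaaaaaaaaaaaaaaaaaaaaaaaaaaaaaaaaaaaaaaaaaaaaaaaaaaaaaaaaaaaaaaaaaaaaaaaaaaaaaaaaaaaaaaaaaaaaaaaaaaaaaaaaaaaaaa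
def evenM : Nat := nat_lit 0x55555555555555555555555555555555555555555555555555555555555555555555555555555555555555555555555555555555555555555555555555555555555555555555555555555555555555555555555555555555555555555555555555555555555555555555555555555555555555555555555555555555555555555555555555555555555555555555555555555555555555555555555555555555555555555555555555555555555555555555555555555555555555555555555555555555555555555555555555555555555555555555555555555555555555555555555555555555555555555555555555555555555555555555555555555555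
def snM : Nat := nat_lit 0x1400000000000000055

def cell (i : ℕ) : Cell := (((i % 32 : ℕ) : ℤ), ((i / 32 : ℕ) : ℤ))

def cC (X : ℕ) : Set Cell := {p | ∃ i, i < 1024 ∧ X.testBit (2 * i) = true ∧ p = cell i}
def cN (X : ℕ) : Set Cell := {p | ∃ i, i < 1024 ∧ X.testBit (2 * i + 1) = true ∧ p = cell i}

def SitX (X d : ℕ) : Prop := Sit (cC X) (cN X) d

theorem sitX_map {e : Cell ≃ Cell} (he : Good e) {X Y d : ℕ}
    (h : ∀ i r, i < 1024 → r < 2 → X.testBit (2 * i + r) = true →
      ∃ i', i' < 1024 ∧ Y.testBit (2 * i' + r) = true ∧ cell i' = e (cell i))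
    (hX : SitX X d) : SitX Y d := by
  refine sit_map he ?_ ?_ hX
  · rintro p ⟨i, hi, hb, rfl⟩
    obtain ⟨i', h1, h2, h3⟩ := h i 0 hi (by omega) hb
    exact ⟨i', h1, h2, h3.symm⟩
  · rintro p ⟨i, hi, hb, rfl⟩
    obtain ⟨i', h1, h2, h3⟩ := h i 1 hi (by omega) hb
    exact ⟨i', h1, h2, h3.symm⟩

/-- Bounded universal quantifier as a boolean loop. -/
noncomputable def allLt (n : ℕ) (f : ℕ → Bool) : Bool :=
  Nat.rec (motive := fun _ => Bool) true (fun k ih => Bool.rec false ih (f k)) n

theorem allLt_spec {n : ℕ} {f : ℕ → Bool} (h : allLt n f = true) : ∀ i, i < n → f i = true := by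
  induction n with
  | zero => intro i hi; omega
  | succ n ih =>
    have h' : (Bool.rec false (allLt n f) (f n) : Bool) = true := h
    cases hf : f n with
    | false => rw [hf] at h'; cases h'
    | true =>
      rw [hf] at h'
      intro i hi
      by_cases hin : i = n
      · rw [hin]; exact hf
      · exact ih h' i (by omega)

theorem all2048 {f : ℕ → Bool} (h : allLt 32 (fun a => allLt 64 fun b => f (64 * a + b)) = true) :
    ∀ j, j < 2048 → f j = true := by
  intro j hj
  have := allLt_spec (allLt_spec h (j / 64) (by omega)) (j % 64) (by omega)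
  rwa [show 64 * (j / 64) + j % 64 = j by omega] at this

def sw (s m x : ℕ) : ℕ :=
  Nat.lor (Nat.shiftLeft (Nat.land x m) s) (Nat.land (Nat.shiftRight x s) m)

def sw3 (s m r x : ℕ) : ℕ := Nat.lor (sw s m x) (Nat.land x r)

/-- the position a bit is sent to; `4096` and above means failure -/
def rho (s m r j : ℕ) : ℕ :=
  if m.testBit j then j + s else if s ≤ j ∧ m.testBit (j - s) then j - s
  else if r.testBit j then j else 4096

theorem sw3_spec (s m r x j : ℕ) (hx : x.testBit j = true) (h : rho s m r j ≠ 4096) :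
    (sw3 s m r x).testBit (rho s m r j) = true := by
  show (((((x &&& m) <<< s) ||| ((x >>> s) &&& m))) ||| (x &&& r)).testBit _ = true
  unfold rho at h ⊢
  simp only [Nat.testBit_or, Nat.testBit_and, Nat.testBit_shiftLeft, Nat.testBit_shiftRight]
  split_ifs at h ⊢ with h1 h2 h3
  · simp [hx, h1]
  · have : s + (j - s) = j := by omega
    simp [this, hx, h2.2]
  · simp [hx, h3]
  · exact absurd rfl h

theorem sw_eq (s m x : ℕ) : sw s m x = sw3 s m 0 x := by
  show _ = (sw s m x) ||| (x &&& 0)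
  simp

def fX (x : ℕ) : ℕ := sw 32 mx16 (sw 16 mx8 (sw 8 mx4 (sw 4 mx2 (sw 2 mx1 x))))
def fY (x : ℕ) : ℕ := sw 1024 my16 (sw 512 my8 (sw 256 my4 (sw 128 my2 (sw 64 my1 x))))
def fT (x : ℕ) : ℕ :=
  sw3 992 mt16 mr16 (sw3 496 mt8 mr8 (sw3 248 mt4 mr4 (sw3 124 mt2 mr2 (sw3 62 mt1 mr1 x))))

def rho5 (s1 m1 r1 s2 m2 r2 s3 m3 r3 s4 m4 r4 s5 m5 r5 j t : ℕ) : Bool :=
  let j1 := rho s1 m1 r1 j
  let j2 := rho s2 m2 r2 j1
  let j3 := rho s3 m3 r3 j2
  let j4 := rho s4 m4 r4 j3
  let j5 := rho s5 m5 r5 j4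
  decide (j1 ≠ 4096) && decide (j2 ≠ 4096) && decide (j3 ≠ 4096) && decide (j4 ≠ 4096) &&
    decide (j5 ≠ 4096) && decide (j5 = t)

theorem rho5_spec {s1 m1 r1 s2 m2 r2 s3 m3 r3 s4 m4 r4 s5 m5 r5 j t : ℕ} (x : ℕ)
    (h : rho5 s1 m1 r1 s2 m2 r2 s3 m3 r3 s4 m4 r4 s5 m5 r5 j t = true)
    (hx : x.testBit j = true) :
    (sw3 s5 m5 r5 (sw3 s4 m4 r4 (sw3 s3 m3 r3 (sw3 s2 m2 r2 (sw3 s1 m1 r1 x))))).testBit t
      = true := by
  simp only [rho5, Bool.and_eq_true, decide_eq_true_eq] at h
  obtain ⟨⟨⟨⟨⟨h1, h2⟩, h3⟩, h4⟩, h5⟩, h6⟩ := h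
  rw [← h6]
  exact sw3_spec _ _ _ _ _ (sw3_spec _ _ _ _ _ (sw3_spec _ _ _ _ _ (sw3_spec _ _ _ _ _
    (sw3_spec _ _ _ _ _ hx h1) h2) h3) h4) h5

def gX (j : ℕ) : Bool := rho5 2 mx1 0 4 mx2 0 8 mx4 0 16 mx8 0 32 mx16 0 j
      (2 * (31 - j / 2 % 32 + 32 * (j / 64)) + j % 2)
def gY (j : ℕ) : Bool := rho5 64 my1 0 128 my2 0 256 my4 0 512 my8 0 1024 my16 0 j
      (2 * (j / 2 % 32 + 32 * (31 - j / 64)) + j % 2)
def gT (j : ℕ) : Bool := rho5 62 mt1 mr1 124 mt2 mr2 248 mt4 mr4 496 mt8 mr8 992 mt16 mr16 j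
      (2 * (j / 64 + 32 * (j / 2 % 32)) + j % 2)

theorem fX_tab : allLt 32 (fun a => allLt 64 fun b => gX (64 * a + b)) = true := by
  decide +kernel

theorem fY_tab : allLt 32 (fun a => allLt 64 fun b => gY (64 * a + b)) = true := by
  decide +kernel

theorem fT_tab : allLt 32 (fun a => allLt 64 fun b => gT (64 * a + b)) = true := by
  decide +kernel

theorem fX_bit {X j : ℕ} (hj : j < 2048) (hb : X.testBit j = true) :
    (fX X).testBit (2 * (31 - j / 2 % 32 + 32 * (j / 64)) + j % 2) = true := by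
  have h0 : gX j = true := all2048 (f := gX) fX_tab j hj
  unfold gX at h0
  unfold fX
  rw [sw_eq 32, sw_eq 16, sw_eq 8, sw_eq 4, sw_eq 2]
  exact rho5_spec X h0 hb

theorem fY_bit {X j : ℕ} (hj : j < 2048) (hb : X.testBit j = true) :
    (fY X).testBit (2 * (j / 2 % 32 + 32 * (31 - j / 64)) + j % 2) = true := by
  have h0 : gY j = true := all2048 (f := gY) fY_tab j hj
  unfold gY at h0
  unfold fY
  rw [sw_eq 1024, sw_eq 512, sw_eq 256, sw_eq 128, sw_eq 64]
  exact rho5_spec X h0 hb

theorem fT_bit {X j : ℕ} (hj : j < 2048) (hb : X.testBit j = true) :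
    (fT X).testBit (2 * (j / 64 + 32 * (j / 2 % 32)) + j % 2) = true := by
  have h0 : gT j = true := all2048 (f := gT) fT_tab j hj
  unfold gT at h0
  unfold fT
  exact rho5_spec X h0 hb

theorem fX_sit {X d : ℕ} (h : SitX X d) : SitX (fX X) d := by
  refine sitX_map good_fx (fun i r hi hr hb => ?_) h
  have h1 := fX_bit (by omega) hb
  generalize fX X = Y at h1 ⊢
  refine ⟨31 - i % 32 + 32 * (i / 32), by omega, ?_, ?_⟩
  · have e : 2 * (31 - (2 * i + r) / 2 % 32 + 32 * ((2 * i + r) / 64)) + (2 * i + r) % 2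
        = 2 * (31 - i % 32 + 32 * (i / 32)) + r := by omega
    rw [← e]; exact h1
  · simp only [cell, eFx, Equiv.coe_fn_mk, Prod.mk.injEq]
    omega

theorem fY_sit {X d : ℕ} (h : SitX X d) : SitX (fY X) d := by
  refine sitX_map good_fy (fun i r hi hr hb => ?_) h
  have h1 := fY_bit (by omega) hb
  generalize fY X = Y at h1 ⊢
  refine ⟨i % 32 + 32 * (31 - i / 32), by omega, ?_, ?_⟩
  · have e : 2 * ((2 * i + r) / 2 % 32 + 32 * (31 - (2 * i + r) / 64)) + (2 * i + r) % 2
        = 2 * (i % 32 + 32 * (31 - i / 32)) + r := by omega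
    rw [← e]; exact h1
  · simp only [cell, eFy, Equiv.coe_fn_mk, Prod.mk.injEq]
    omega

theorem fT_sit {X d : ℕ} (h : SitX X d) : SitX (fT X) d := by
  refine sitX_map good_sw (fun i r hi hr hb => ?_) h
  have h1 := fT_bit (by omega) hb
  generalize fT X = Y at h1 ⊢
  refine ⟨i / 32 + 32 * (i % 32), by omega, ?_, ?_⟩
  · have e : 2 * ((2 * i + r) / 64 + 32 * ((2 * i + r) / 2 % 32)) + (2 * i + r) % 2
        = 2 * (i / 32 + 32 * (i % 32)) + r := by omega
    rw [← e]; exact h1
  · simp only [cell, eSw, Equiv.prodComm_apply, Prod.swap_prod_mk, Prod.mk.injEq]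
    omega

/-- apply `f` when bit `g % 2` is set -/
noncomputable def opt (f : ℕ → ℕ) (g x : ℕ) : ℕ :=
  Bool.rec (motive := fun _ => ℕ) (f x) x (Nat.beq (Nat.mod g 2) 0)

theorem opt_sit {f : ℕ → ℕ} (hf : ∀ X d, SitX X d → SitX (f X) d) (g : ℕ) {X d : ℕ}
    (h : SitX X d) : SitX (opt f g X) d := by
  unfold opt
  cases Nat.beq (Nat.mod g 2) 0
  · exact hf _ _ h
  · exact h

noncomputable def sym (g x : ℕ) : ℕ :=
  opt fY (Nat.div g 4) (opt fX (Nat.div g 2) (opt fT g x))

theorem sym_sit (g : ℕ) {X d : ℕ} (h : SitX X d) : SitX (sym g X) d :=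
  opt_sit (fun _ _ => fY_sit) _ (opt_sit (fun _ _ => fX_sit) _ (opt_sit (fun _ _ => fT_sit) _ h))

/-! translation by `(a - 32, b - 32)` -/

def colG (a : ℕ) : ℕ :=
  Nat.mul (Nat.mod (Nat.shiftRight (nat_lit 0xffffffffffffffff0000000000000000) (Nat.mul 2 a))
    (nat_lit 0x10000000000000000)) rowR

def full : ℕ := Nat.sub (Nat.shiftLeft 1 2048) 1

def rowG (b : ℕ) : ℕ :=
  Nat.shiftRight (Nat.shiftLeft full 2048) (Nat.mul 64 b)

def tr (a b x : ℕ) : ℕ :=
  Nat.shiftRight (Nat.shiftLeft x (Nat.mul 2 (Nat.add a (Nat.mul 32 b)))) 2112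

def trOk (a b x : ℕ) : Bool := Nat.beq (Nat.land x (Nat.land (colG a) (rowG b))) x

def gC (a j : ℕ) : Bool :=
  !(colG a).testBit j || (decide (32 ≤ j / 2 % 32 + a) && decide (j / 2 % 32 + a < 64))

theorem colG_tab : allLt 64 (fun a => allLt 32 (fun u => allLt 64 fun v => gC a (64 * u + v)))
    = true := by
  decide +kernel

set_option exponentiation.threshold 3000 in
theorem rowG_spec (b j : ℕ) (h : (rowG b).testBit j = true) :
    2048 ≤ j + 64 * b ∧ j + 64 * b < 4096 := by
  have h' : (((2 ^ 2048 - 1) <<< 2048) >>> (64 * b)).testBit j = true := by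
    have : full = 2 ^ 2048 - 1 := by
      show 1 <<< 2048 - 1 = _
      rw [Nat.shiftLeft_eq, one_mul]
    rw [← this]; exact h
  simp only [Nat.testBit_shiftRight, Nat.testBit_shiftLeft, Nat.testBit_two_pow_sub_one,
    Bool.and_eq_true, decide_eq_true_eq] at h'
  omega

theorem tr_sit {a b X d : ℕ} (ha : a < 64) (hok : trOk a b X = true) (h : SitX X d) :
    SitX (tr a b X) d := by
  refine sitX_map (good_tr ((a : ℤ) - 32) ((b : ℤ) - 32)) (fun i r hi hr hb => ?_) h
  have h0 : X &&& (colG a &&& rowG b) = X := Nat.eq_of_beq_eq_true hok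
  have hb' := hb
  rw [← h0, Nat.testBit_and, Nat.testBit_and, Bool.and_eq_true, Bool.and_eq_true] at hb'
  have h1 : gC a (2 * i + r) = true :=
    all2048 (f := gC a) (allLt_spec (f := fun a => allLt 32 (fun u => allLt 64 fun v =>
      gC a (64 * u + v))) colG_tab a ha) (2 * i + r) (by omega)
  simp only [gC, hb'.2.1, Bool.not_true, Bool.false_or, Bool.and_eq_true, decide_eq_true_eq] at h1
  have h2 := rowG_spec _ _ hb'.2.2
  refine ⟨i + a + 32 * b - 1056, by omega, ?_, ?_⟩
  · show ((X <<< (2 * (a + 32 * b))) >>> 2112).testBit _ = true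
    rw [Nat.testBit_shiftRight, Nat.testBit_shiftLeft, Bool.and_eq_true, decide_eq_true_eq]
    refine ⟨by omega, ?_⟩
    convert hb using 2
    omega
  · simp only [cell, eTr, Equiv.coe_fn_mk, Prod.mk.injEq]
    omega

/-! ### the database -/

inductive T where
  | leaf (z c : ℕ) : T
  | node (l r : T) : T

noncomputable def look (t : T) : ℕ → ℕ :=
  T.rec (motive := fun _ => ℕ → ℕ) (fun z _ _ => z)
    (fun _ _ fl fr k => Bool.rec (motive := fun _ => ℕ) (fr (Nat.div k 2)) (fl (Nat.div k 2))
      (Nat.beq (Nat.mod k 2) 0)) t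

/-- the oriented child -/
noncomputable def ori (db : T) (c : ℕ) : ℕ :=
  sym (Nat.div c 4096) (Nat.shiftRight (look db (Nat.div c 32768)) 5)

/-- `c = a + 64 b + 4096 g + 32768 idx` -/
noncomputable def chOk (db : T) (P d c Y : ℕ) : Bool :=
  Bool.rec (motive := fun _ => Bool) false
    (Bool.rec (motive := fun _ => Bool) false (Nat.beq (Nat.land Y P) Y)
      (trOk (Nat.mod c 64) (Nat.mod (Nat.div c 64) 64) (ori db c)))
    (Nat.ble (Nat.mod (look db (Nat.div c 32768)) 32) d)

noncomputable def plc (db : T) (c : ℕ) : ℕ :=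
  tr (Nat.mod c 64) (Nat.mod (Nat.div c 64) 64) (ori db c)

noncomputable def loop (db : T) (P d n : ℕ) : ℕ → ℕ → Bool :=
  Nat.rec (motive := fun _ => ℕ → ℕ → Bool) (fun _ I => Nat.beq I 0)
    (fun _ ih rest I =>
      (fun c => (fun Y => Bool.rec (motive := fun _ => Bool) false
          (ih (Nat.shiftRight rest 36) (Nat.land I Y)) (chOk db P d c Y)) (plc db c))
        (Nat.mod rest (nat_lit 0x1000000000))) n

/-- `z = 32 X + d`, `c = m + 1024 n + 2^20 children` -/
noncomputable def chk (db : T) (z c : ℕ) : Bool :=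
  Nat.rec (motive := fun _ => Bool) (Nat.beq (Nat.land (Nat.shiftRight z 5) snM) snM)
    (fun d _ => Bool.rec (motive := fun _ => Bool)
      (loop db (Nat.lor (Nat.shiftRight z 5) (Nat.shiftLeft 1 (Nat.mul 2 (Nat.mod c 1024)))) d
        (Nat.mod (Nat.div c 1024) 1024) (Nat.shiftRight c 20) oddM) false
      (Nat.beq (Nat.land (Nat.shiftRight z 5) (Nat.shiftLeft 2 (Nat.mul 2 (Nat.mod c 1024)))) 0))
    (Nat.mod z 32)

noncomputable def chkT (db t : T) : Bool :=
  T.rec (motive := fun _ => Bool) (fun z c => chk db z c)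
    (fun _ _ a b => Bool.rec (motive := fun _ => Bool) false b a) t

def Valid (db : T) : T → Prop
  | .leaf z c => chk db z c = true
  | .node l r => Valid db l ∧ Valid db r

theorem valid_of_chkT {db : T} : ∀ {t : T}, chkT db t = true → Valid db t
  | .leaf _ _, h => h
  | .node l r, h => by
    have h' : (Bool.rec false (chkT db r) (chkT db l) : Bool) = true := h
    cases hl : chkT db l with
    | false => rw [hl] at h'; cases h'
    | true => rw [hl] at h'; exact ⟨valid_of_chkT hl, valid_of_chkT h'⟩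

theorem valid_node {db l r : T} (hl : Valid db l) (hr : Valid db r) : Valid db (.node l r) :=
  ⟨hl, hr⟩

theorem look_valid {db : T} : ∀ {t : T}, Valid db t → ∀ k, ∃ c, chk db (look t k) c = true
  | .leaf _ c, h, _ => ⟨c, h⟩
  | .node l r, h, k => by
    show ∃ c, chk db (Bool.rec (motive := fun _ => ℕ) (look r (Nat.div k 2)) (look l (Nat.div k 2))
      (Nat.beq (Nat.mod k 2) 0)) c = true
    cases Nat.beq (Nat.mod k 2) 0
    · exact look_valid h.2 _
    · exact look_valid h.1 _

theorem sub_bit {Y P j : ℕ} (h : Nat.beq (Nat.land Y P) Y = true) (hj : Y.testBit j = true) :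
    P.testBit j = true := by
  have h0 : Y &&& P = Y := Nat.eq_of_beq_eq_true h
  rw [← h0, Nat.testBit_and, Bool.and_eq_true] at hj
  exact hj.2

theorem cell_inj {i j : ℕ} (h : cell i = cell j) : i = j := by
  simp only [cell, Prod.mk.injEq] at h
  omega

theorem loop_spec {db : T} {P d : ℕ}
    (ih : ∀ k, look db k % 32 ≤ d → SitX (look db k >>> 5) d) :
    ∀ (n rest I : ℕ), loop db P d n rest I = true → ∀ i, I.testBit (2 * i + 1) = true →
      ∃ Y, SitX Y d ∧ (∀ j, Y.testBit j = true → P.testBit j = true) ∧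
        Y.testBit (2 * i + 1) = false := by
  intro n
  induction n with
  | zero =>
    intro rest I h i hi
    have h0 : I = 0 := Nat.eq_of_beq_eq_true h
    rw [h0] at hi; simp at hi
  | succ n ihn =>
    intro rest I h i hi
    set c := Nat.mod rest (nat_lit 0x1000000000) with hc
    have h' : (Bool.rec false (loop db P d n (Nat.shiftRight rest 36) (Nat.land I (plc db c)))
      (chOk db P d c (plc db c)) : Bool) = true := h
    cases hk : chOk db P d c (plc db c) with
    | false => rw [hk] at h'; cases h'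
    | true =>
      rw [hk] at h'
      cases hY : (plc db c).testBit (2 * i + 1) with
      | true =>
        refine ihn _ _ h' i ?_
        show (I &&& plc db c).testBit _ = true
        rw [Nat.testBit_and, hi, hY]; rfl
      | false =>
        unfold chOk at hk
        cases h1 : Nat.ble (Nat.mod (look db (Nat.div c 32768)) 32) d with
        | false => rw [h1] at hk; cases hk
        | true =>
          rw [h1] at hk
          cases h2 : trOk (Nat.mod c 64) (Nat.mod (Nat.div c 64) 64) (ori db c) with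
          | false => rw [h2] at hk; cases hk
          | true =>
            rw [h2] at hk
            refine ⟨plc db c, ?_, fun j hj => sub_bit hk hj, hY⟩
            exact tr_sit (Nat.mod_lt _ (by omega)) h2 (sym_sit _ (ih _ (Nat.le_of_ble_eq_true h1)))

theorem oddM_tab : allLt 32 (fun a => allLt 32 fun b => oddM.testBit (2 * (32 * a + b) + 1))
    = true := by decide +kernel

theorem oddM_bit {i : ℕ} (hi : i < 1024) : oddM.testBit (2 * i + 1) = true := by
  have := allLt_spec (allLt_spec oddM_tab (i / 32) (by omega)) (i % 32) (by omega)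
  rwa [show 32 * (i / 32) + i % 32 = i by omega] at this

theorem base_sit {X : ℕ} (h : Nat.beq (Nat.land X snM) snM = true) : SitX X 0 := by
  intro M B _ _ hC _
  have h0 : snM &&& X = snM := by rw [Nat.and_comm]; exact Nat.eq_of_beq_eq_true h
  have hb : ∀ i, i < 1024 → snM.testBit (2 * i) = true → cell i ∈ M := by
    intro i hi hj
    rw [← h0, Nat.testBit_and, Bool.and_eq_true] at hj
    exact hC ⟨i, hi, hj.2, rfl⟩
  refine ⟨(0, 0), 1, 1, Or.inl rfl, Or.inl rfl, Or.inl fun p hp => ?_⟩
  simp only [snaky, Finset.mem_insert, Finset.mem_singleton] at hp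
  rcases hp with rfl | rfl | rfl | rfl | rfl | rfl
  · exact hb 0 (by omega) (by decide +kernel)
  · exact hb 1 (by omega) (by decide +kernel)
  · exact hb 2 (by omega) (by decide +kernel)
  · exact hb 3 (by omega) (by decide +kernel)
  · exact hb 35 (by omega) (by decide +kernel)
  · exact hb 36 (by omega) (by decide +kernel)

theorem step_sit {db : T} {X d m n rest : ℕ} (hm : m < 1024)
    (ih : ∀ k, look db k % 32 ≤ d → SitX (look db k >>> 5) d)
    (h1 : Nat.beq (Nat.land X (Nat.shiftLeft 2 (Nat.mul 2 m))) 0 = false)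
    (h2 : loop db (Nat.lor X (Nat.shiftLeft 1 (Nat.mul 2 m))) d n rest oddM = true) :
    SitX X (d + 1) := by
  have hmN : X.testBit (2 * m + 1) = true := by
    by_contra hx
    have : X &&& (2 <<< (2 * m)) = 0 := by
      apply Nat.eq_of_testBit_eq
      intro j
      rw [Nat.testBit_and, Nat.shiftLeft_eq, ← pow_succ', Nat.testBit_two_pow]
      by_cases hj : 2 * m + 1 = j
      · subst hj; simp at hx; simp [hx]
      · simp [hj]
    have h3 : Nat.land X (Nat.shiftLeft 2 (Nat.mul 2 m)) = 0 := this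
    rw [h3] at h1; cases h1
  have hP : ∀ j, (Nat.lor X (Nat.shiftLeft 1 (Nat.mul 2 m))).testBit j = true →
      X.testBit j = true ∨ j = 2 * m := by
    intro j hj
    have hj' : (X ||| (1 <<< (2 * m))).testBit j = true := hj
    rw [Nat.testBit_or, Nat.shiftLeft_eq, one_mul, Nat.testBit_two_pow, Bool.or_eq_true,
      decide_eq_true_eq] at hj'
    rcases hj' with h | h
    · exact Or.inl h
    · exact Or.inr h.symm
  have key := loop_spec ih n rest oddM h2
  have conv : ∀ Y, (∀ j, Y.testBit j = true →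
      (Nat.lor X (Nat.shiftLeft 1 (Nat.mul 2 m))).testBit j = true) →
      cC Y ⊆ insert (cell m) (cC X) ∧ cN Y ⊆ cN X := by
    intro Y hY
    constructor
    · rintro p ⟨i, hi, hb, rfl⟩
      rcases hP _ (hY _ hb) with h | h
      · exact Or.inr ⟨i, hi, h, rfl⟩
      · left; rw [show i = m by omega]
    · rintro p ⟨i, hi, hb, rfl⟩
      rcases hP _ (hY _ hb) with h | h
      · exact ⟨i, hi, h, rfl⟩
      · omega
  refine sit_step (m := cell m) ⟨m, hm, hmN, rfl⟩ fun b => ?_
  by_cases hb : ∃ i, i < 1024 ∧ b = cell i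
  · obtain ⟨i, hi, rfl⟩ := hb
    obtain ⟨Y, hs, hY, hn⟩ := key i (oddM_bit hi)
    refine ⟨_, _, hs, (conv Y hY).1, (conv Y hY).2, ?_⟩
    rintro ⟨i', _, hb', he⟩
    rw [← cell_inj he, hn] at hb'; cases hb'
  · obtain ⟨Y, hs, hY, _⟩ := key 0 (oddM_bit (by omega))
    refine ⟨_, _, hs, (conv Y hY).1, (conv Y hY).2, ?_⟩
    rintro ⟨i', hi', _, he⟩
    exact hb ⟨i', hi', he⟩

theorem sound {db : T} (hv : Valid db db) :
    ∀ d k, look db k % 32 ≤ d → SitX (look db k >>> 5) d := by
  intro d
  induction d with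
  | zero =>
    intro k hk
    obtain ⟨c, hc⟩ := look_valid hv k
    have h0 : Nat.mod (look db k) 32 = 0 := Nat.le_zero.mp hk
    unfold chk at hc
    rw [h0] at hc
    exact base_sit hc
  | succ d ih =>
    intro k hk
    by_cases hd : look db k % 32 ≤ d
    · exact sit_mono (Nat.le_succ d) (ih k hd)
    · obtain ⟨c, hc⟩ := look_valid hv k
      have h0 : Nat.mod (look db k) 32 = d + 1 := by
        show look db k % 32 = d + 1
        omega
      unfold chk at hc
      rw [h0] at hc
      have hc' : (Bool.rec (motive := fun _ => Bool)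
        (loop db (Nat.lor (Nat.shiftRight (look db k) 5)
          (Nat.shiftLeft 1 (Nat.mul 2 (Nat.mod c 1024)))) d
          (Nat.mod (Nat.div c 1024) 1024) (Nat.shiftRight c 20) oddM) false
        (Nat.beq (Nat.land (Nat.shiftRight (look db k) 5)
          (Nat.shiftLeft 2 (Nat.mul 2 (Nat.mod c 1024)))) 0)) = true := hc
      cases h1 : Nat.beq (Nat.land (Nat.shiftRight (look db k) 5)
          (Nat.shiftLeft 2 (Nat.mul 2 (Nat.mod c 1024)))) 0 with
      | true => rw [h1] at hc'; cases hc'
      | false =>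
        rw [h1] at hc'
        exact step_sit (Nat.mod_lt _ (by omega)) ih h1 hc'

theorem win_of_root {db : T} (hv : Valid db db) (k : ℕ)
    (h1 : Nat.ble (Nat.mod (look db k) 32) 21 = true)
    (h2 : Nat.beq (Nat.land (Nat.shiftRight (look db k) 5) evenM) 0 = true) : Win 21 ∅ ∅ := by
  have h := sound hv 21 k (Nat.le_of_ble_eq_true h1)
  refine h ∅ ∅ Set.finite_empty Set.finite_empty ?_ (fun _ _ => Set.notMem_empty _)
  rintro p ⟨i, hi, hb, rfl⟩
  have h0 : (look db k >>> 5) &&& evenM = 0 := Nat.eq_of_beq_eq_true h2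
  have he : evenM.testBit (2 * i) = true := by
    have tab : allLt 32 (fun a => allLt 32 fun b => evenM.testBit (2 * (32 * a + b))) = true := by
      decide +kernel
    have := allLt_spec (allLt_spec tab (i / 32) (by omega)) (i % 32) (by omega)
    rwa [show 32 * (i / 32) + i % 32 = i by omega] at this
  have : ((look db k >>> 5) &&& evenM).testBit (2 * i) = true := by
    rw [Nat.testBit_and, hb, he]; rfl
  rw [h0] at this; simp at this

end Crest.Agent.H8.Sn
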