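import Crest.Agent.H8.TLam

/-! Row 186: the `T(L)` step with hypotheses in terms of `Ext`. -/

set_option autoImplicit false
set_option linter.unusedVariables false

namespace Crest.Agent.H8.TL
open Crest.Agent.H4.FD CategoryTheory CategoryTheory.Abelian

lemma ext_of_van {A I : Type} [Ring A] [AddCommGroup I] [Module A I] {N₁ N₂ N₃ : Type}
    [AddCommGroup N₁] [Module A N₁] [AddCommGroup N₂] [Module A N₂]
    [AddCommGroup N₃] [Module A N₃] {f : N₁ →ₗ[A] N₂} {g : N₂ →ₗ[A] N₃} (h : SE f g)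
    (h₃ : Van A I N₃ 1) (φ : N₁ →ₗ[A] I) : ∃ ψ : N₂ →ₗ[A] I, ψ ∘ₗ f = φ := by
  obtain ⟨x₂, hx⟩ := Ext.contravariant_sequence_exact₁ h.se (ModuleCat.of A I)
    (Ext.mk₀ (ModuleCat.ofHom φ)) (add_comm 1 0) (h₃ _)
  obtain ⟨ψ, rfl⟩ := Ext.homEquiv₀.symm.surjective x₂
  rw [Ext.homEquiv₀_symm_apply, Ext.mk₀_comp_mk₀] at hx
  exact ⟨ψ.hom, congrArg ModuleCat.Hom.hom ((Ext.mk₀_bijective _ _).1 hx)⟩

variable {k L : Type} [Field k] [Ring L] [Algebra k L]

/-- The `T(L)` step: `Ext^{>0}(Z, L ⊕ Z ⊕ D(Z^*)) = 0`. -/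
theorem main_ext [FiniteDimensional k L] (Z : Type) [AddCommGroup Z] [Module L Z]
    [Module.Finite L Z] (h1 : ∀ n, Van L L Z (n + 1)) (h2 : ∀ n, Van L Z Z (n + 1))
    (h3 : ∀ n, Van L (DD k L Z) Z (n + 1)) (np : ¬ Module.Projective L Z) :
    Module.Finite (TA k L) (F k L Z) ∧ ¬ Module.Projective (TA k L) (F k L Z) ∧
      ∀ n : ℕ, 0 < n → Subsingleton (CategoryTheory.Abelian.Ext
        (ModuleCat.of (TA k L) (F k L Z)) (ModuleCat.of (TA k L) (F k L Z)) n) := by
  have noeth : IsNoetherianRing L := IsNoetherianRing.of_finite k L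
  have van : ∀ n (Y : Type) [AddCommGroup Y] [Module L Y] [Module.Finite L Y],
      (∀ n, Van L L Y (n + 1)) → (∀ n, Van L Z Y (n + 1)) → (∀ n, Van L (DD k L Z) Y (n + 1)) →
      Van (TA k L) (F k L Z) (F k L Y) (n + 1) := by
    intro n
    induction n with
    | zero =>
      intro Y _ _ _ g1 g2 g3
      obtain ⟨m, p, hp⟩ := Module.Finite.exists_fin' L Y
      have s : SE (LinearMap.ker p).subtype p :=
        ⟨Subtype.val_injective, LinearMap.exact_subtype_ker_map p, hp⟩
      have se := Fm_se (k := k) _ _ s.inj s.ex s.surj (ext_of_van s (g1 0))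
      have := (F_proj (k := k) (L := L) (N := Fin m → L)).2
      refine se.van_one ((acyc_of_projective (A := TA k L)).2 0) fun u => ?_
      obtain ⟨g, hg⟩ := ext_of_van s (g2 0) (res₁ u)
      obtain ⟨g', hg'⟩ := ext_of_van s (g3 0) (res₂ u)
      obtain ⟨m', p', hp'⟩ := Module.Finite.exists_fin' L (LinearMap.ker p)
      refine ⟨lift g g', F_hom_ext p' hp' _ _ fun z => F.ext' ?_ fun f => ?_⟩
      · exact LinearMap.congr_fun hg z
      · have := LinearMap.congr_fun hg' z
        simp only [LinearMap.comp_apply] at this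
        simp only [LinearMap.comp_apply, lift_snd, Fm_fst, Fmk_fst, Fm_snd, Fmk_snd, d_zero,
          LinearMap.zero_apply, add_zero, this]
        rfl
    | succ n ih =>
      intro Y _ _ _ g1 g2 g3
      obtain ⟨m, p, hp⟩ := Module.Finite.exists_fin' L Y
      have s : SE (LinearMap.ker p).subtype p :=
        ⟨Subtype.val_injective, LinearMap.exact_subtype_ker_map p, hp⟩
      have se := Fm_se (k := k) _ _ s.inj s.ex s.surj (ext_of_van s (g1 0))
      have := (F_proj (k := k) (L := L) (N := Fin m → L)).2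
      exact se.van₃ (ih _ (fun j => s.van₁ ((acyc_of_projective (A := L)).2 j) (g1 (j + 1)))
        (fun j => s.van₁ ((acyc_of_projective (A := L)).2 j) (g2 (j + 1)))
        (fun j => s.van₁ ((acyc_of_projective (A := L)).2 j) (g3 (j + 1))))
        ((acyc_of_projective (A := TA k L)).2 (n + 1))
  obtain ⟨m, p, hp⟩ := Module.Finite.exists_fin' L Z
  refine ⟨?_, fun h => np (not_proj p hp h), fun n hn => ?_⟩
  · have := (F_proj (k := k) (L := L) (N := Fin m → L)).1
    exact Module.Finite.of_surjective _ (Fm_surj p hp)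
  · obtain ⟨m, rfl⟩ := Nat.exists_eq_succ_of_ne_zero hn.ne'
    exact ⟨fun e e' => (van m Z h1 h2 h3 e).trans (van m Z h1 h2 h3 e').symm⟩

end Crest.Agent.H8.TL
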