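import Crest.Agent.H8.USRec
import Crest.Prelude.Def_OracleSynthesis
/-!
Row 343: the channel estimate.
-/
set_option autoImplicit false
namespace Crest.Agent.H8.US
open Matrix Finset Crest.Quantum Crest.Quantum.GateCircuit Crest.MathPhysics
open scoped Kronecker ComplexOrder MatrixOrder

theorem kraus_vec {ι W : Type} [Fintype ι] [DecidableEq ι] [Fintype W] (K : W → Matrix ι ι ℂ)
    (w0 : W) {U V : Matrix ι ι ℂ} (hU : Uᴴ * U = 1) (hV : Vᴴ * V = 1) {ε : ℝ}
    (hA : OB (K w0 - U) ε) (v : ι → ℂ) (hK : ∑ w, nv (K w *ᵥ v) ^ 2 ≤ nv v ^ 2) :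
    ‖∑ w, star (K w *ᵥ v) ⬝ᵥ V *ᵥ (K w *ᵥ v) - star (U *ᵥ v) ⬝ᵥ V *ᵥ (U *ᵥ v)‖ ≤
      4 * ε * nv v ^ 2 := by
  classical
  rw [← Finset.add_sum_erase _ _ (mem_univ w0)] at hK ⊢
  have h0 : 0 ≤ ∑ w ∈ univ.erase w0, nv (K w *ᵥ v) ^ 2 := Finset.sum_nonneg fun _ _ => sq_nonneg _
  have h1 : nv (K w0 *ᵥ v) ≤ nv v := le_of_sq_le (nv_nonneg _) (by linarith)
  have h2 := hA v
  have h3 : nv v ≤ nv (K w0 *ᵥ v) + ε * nv v := by
    have := nv_sub_le (K w0 *ᵥ v) ((K w0 - U) *ᵥ v)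
    rw [sub_mulVec, sub_sub_cancel, nv_iso hU, ← sub_mulVec] at this
    linarith
  have h4 : ‖∑ w ∈ univ.erase w0, star (K w *ᵥ v) ⬝ᵥ V *ᵥ (K w *ᵥ v)‖ ≤
      ∑ w ∈ univ.erase w0, nv (K w *ᵥ v) ^ 2 :=
    (norm_sum_le _ _).trans (Finset.sum_le_sum fun w _ => by
      have := norm_dot_le (K w *ᵥ v) (V *ᵥ (K w *ᵥ v))
      rwa [nv_iso hV, ← pow_two] at this)
  have h5 := norm_dot_le (K w0 *ᵥ v) (V *ᵥ ((K w0 - U) *ᵥ v))
  have h6 := norm_dot_le ((K w0 - U) *ᵥ v) (V *ᵥ (U *ᵥ v))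
  rw [nv_iso hV] at h5
  rw [nv_iso hV, nv_iso hU] at h6
  have e : ∀ s : ℂ, star (K w0 *ᵥ v) ⬝ᵥ V *ᵥ (K w0 *ᵥ v) + s - star (U *ᵥ v) ⬝ᵥ V *ᵥ (U *ᵥ v) =
      star (K w0 *ᵥ v) ⬝ᵥ V *ᵥ ((K w0 - U) *ᵥ v) + star ((K w0 - U) *ᵥ v) ⬝ᵥ V *ᵥ (U *ᵥ v) + s :=
    fun s => by simp only [sub_mulVec, mulVec_sub, star_sub, sub_dotProduct, dotProduct_sub]; ring
  rw [e]
  have h7 := nv_nonneg ((K w0 - U) *ᵥ v)
  have h8 := nv_nonneg v
  have h9 := nv_nonneg (K w0 *ᵥ v)
  refine (norm_add₃_le).trans ?_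
  nlinarith

theorem trace_conj {ι : Type} [Fintype ι] (V K C : Matrix ι ι ℂ) :
    (V * (K * (C * Cᴴ) * Kᴴ)).trace =
      ∑ k, star (K *ᵥ fun i => C i k) ⬝ᵥ V *ᵥ (K *ᵥ fun i => C i k) := by
  rw [show V * (K * (C * Cᴴ) * Kᴴ) = (V * (K * C)) * (K * C)ᴴ by
    rw [conjTranspose_mul]; simp only [Matrix.mul_assoc], trace_mul_comm]
  rfl

theorem kraus_bound {ι W : Type} [Fintype ι] [DecidableEq ι] [Fintype W] (K : W → Matrix ι ι ℂ)
    (w0 : W) {U : Matrix ι ι ℂ} (hU : Uᴴ * U = 1) {ε : ℝ} (hA : OB (K w0 - U) ε)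
    (hK : ∀ v, ∑ w, nv (K w *ᵥ v) ^ 2 ≤ nv v ^ 2) {ρ : Matrix ι ι ℂ} (hρ : IsDensity ρ) :
    OracleSynthesis.TraceNormLE (∑ w, K w * ρ * (K w)ᴴ - U * ρ * Uᴴ) (4 * ε) := by
  intro V hV
  obtain ⟨B, rfl⟩ := CStarAlgebra.nonneg_iff_eq_star_mul_self.1 hρ.1.nonneg
  have e : star B * B = Bᴴ * Bᴴᴴ := by rw [conjTranspose_conjTranspose]; rfl
  have h1 : ∑ k, nv (fun i => Bᴴ i k) ^ 2 = 1 := by
    have := hs_eq B
    rw [← star_eq_conjTranspose, hρ.2] at this
    have h2 : hs B = 1 := by exact_mod_cast this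
    rw [← h2]; simp [nv_sq, hs]
  rw [Matrix.mul_sub, Matrix.mul_sum, trace_sub, trace_sum, e]
  simp only [trace_conj]
  rw [Finset.sum_comm, ← Finset.sum_sub_distrib, ← mul_one (4 * ε), ← h1, Finset.mul_sum]
  exact (norm_sum_le _ _).trans (Finset.sum_le_sum fun k _ =>
    kraus_vec K w0 hU (Unitary.mem_iff.1 hV).1 hA _ (hK _))

theorem kron_eq {α β R : Type} [DecidableEq R] (A : Matrix β α ℂ) :
    A ⊗ₖ (1 : Matrix R R ℂ) = (fam fun _ : R => A).submatrix (Equiv.prodComm _ _).toEmbedding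
      (Equiv.prodComm _ _).toEmbedding := by
  ext ⟨b, r⟩ ⟨a, r'⟩
  by_cases h : r = r' <;> simp [fam, h]

theorem OB.kron {α β R : Type} [Fintype α] [Fintype β] [Fintype R] [DecidableEq R]
    {A : Matrix β α ℂ} {c : ℝ} (h : OB A c) (hc : 0 ≤ c) : OB (A ⊗ₖ (1 : Matrix R R ℂ)) c := by
  rw [kron_eq]; exact (OB.fam hc fun _ => h).submatrix hc _ _

theorem prim_norm (g : Prim) (x : Bool → ℂ) : nv (g.mat *ᵥ x) = nv x := by
  refine nv_iso ?_ x
  have h2 := s2_sq
  have hd : ∀ z : ℂ, ‖z‖ = 1 → (Matrix.of fun a b : Bool =>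
      if a = b then (if a = true then z else 1) else 0)ᴴ * (Matrix.of fun a b : Bool =>
      if a = b then (if a = true then z else 1) else 0) = 1 := fun z hz => by
    have := diag_unit (φ := fun a : Bool => if a = true then z else 1) (by
      rintro (_ | _) <;> simp [hz])
    exact this
  cases g
  · ext (_ | _) (_ | _) <;> simp [Prim.mat, mul_apply]
  · ext a b
    have := hm_mul a b
    rw [one_apply, ← this, mul_apply]
    exact Finset.sum_congr rfl fun c _ => by rw [conjTranspose_apply, ← star_hm]; rfl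
  · exact hd _ (by simp)
  · exact hd _ (by simp)
  · exact hd _ (by simp [Complex.norm_exp])
  · exact hd _ (by simp [Complex.norm_exp])

theorem sum_upd {N : ℕ} (t : Fin N) (F : (Fin N → Bool) → ℝ) :
    ∑ σ : Fin N → Bool, ∑ b, F (Function.update σ t b) = 2 * ∑ σ, F σ := by
  have h : Function.Involutive fun σ : Fin N → Bool => Function.update σ t (!σ t) := fun σ => by
    simp
  rw [two_mul]
  nth_rw 2 [← Equiv.sum_comp h.toPerm F]
  rw [← Finset.sum_add_distrib]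
  refine Finset.sum_congr rfl fun σ _ => ?_
  have : F σ = F (Function.update σ t (σ t)) := by simp
  rw [this, Fintype.sum_bool, Function.Involutive.coe_toPerm]
  cases σ t <;> simp [add_comm]

theorem gate_norm {N m : ℕ} (f : (Fin m → Bool) → Bool) (g : Gate N m) (hg : g.WellFormed)
    (ψ : QVec N) : nv (g.apply f ψ) = nv ψ := by
  refine (pow_left_inj₀ (nv_nonneg _) (nv_nonneg _) two_ne_zero).1 ?_
  rw [nv_sq, nv_sq]
  cases g with
  | ctrl g cs t =>
    refine mul_left_cancel₀ (two_ne_zero (α := ℝ)) ?_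
    rw [← sum_upd t, ← sum_upd t]
    refine Finset.sum_congr rfl fun σ _ => ?_
    have hc : ∀ b, (∀ c ∈ cs, Function.update σ t b c = true) ↔ ∀ c ∈ cs, σ c = true := fun b =>
      forall₂_congr fun c hc => by rw [Function.update_of_ne (by rintro rfl; exact hg hc)]
    simp only [Gate.apply, hc, Function.update_self, Function.update_idem]
    split_ifs
    · rw [← nv_sq fun b => ψ (Function.update σ t b), ← prim_norm g, nv_sq]; rfl
    · rfl
  | oracle q t =>
    have h : Function.Involutive fun σ : Fin N → Bool =>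
        Function.update σ t (xor (σ t) (f fun j => σ (q j))) := fun σ => by
      have : ∀ b j, Function.update σ t b (q j) = σ (q j) := fun b j =>
        Function.update_of_ne (hg j) _ _
      simp [this]
    exact Equiv.sum_comp h.toPerm fun σ => ‖ψ σ‖ ^ 2

theorem run_norm {N m : ℕ} (f : (Fin m → Bool) → Bool) :
    ∀ (gs : List (Gate N m)), (∀ g ∈ gs, g.WellFormed) → ∀ ψ, nv (runGates f gs ψ) = nv ψ
  | [], _, _ => rfl
  | g :: gs, h, ψ => (run_norm f gs (fun g' hg => h g' (List.mem_cons_of_mem _ hg)) _).trans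
      (gate_norm f g (h g List.mem_cons_self) ψ)

theorem gate_lin {N m : ℕ} (f : (Fin m → Bool) → Bool) (g : Gate N m) {ι : Type} [Fintype ι]
    (c : ι → ℂ) (ψ : ι → QVec N) :
    g.apply f (fun σ => ∑ i, ψ i σ * c i) = fun σ => ∑ i, g.apply f (ψ i) σ * c i := by
  funext σ
  cases g with
  | ctrl g cs t =>
    simp only [Gate.apply]
    split_ifs
    · simp only [Finset.mul_sum, Finset.sum_mul, mul_assoc]; rw [Finset.sum_comm]
    · rfl
  | oracle q t => rfl

theorem run_lin {N m : ℕ} (f : (Fin m → Bool) → Bool) {ι : Type} [Fintype ι] (c : ι → ℂ) :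
    ∀ (gs : List (Gate N m)) (ψ : ι → QVec N),
      runGates f gs (fun σ => ∑ i, ψ i σ * c i) = fun σ => ∑ i, runGates f gs (ψ i) σ * c i
  | [], _ => rfl
  | g :: gs, ψ => by
    have := run_lin f c gs fun i => g.apply f (ψ i)
    rw [← gate_lin] at this
    exact this

theorem amp_norm {N m n : ℕ} (gs : List (Gate N m)) (f : (Fin m → Bool) → Bool) (hn : n ≤ N)
    (hwf : ∀ g ∈ gs, g.WellFormed) (v : (Fin n → Bool) → ℂ) :
    nv (Matrix.of (OracleSynthesis.amplitude gs f n) *ᵥ v) = nv v := by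
  let j : (Fin n → Bool) ↪ (Fin N → Bool) := ⟨padInput n, fun x y h => funext fun i => by
    simpa [padInput] using congrFun h (Fin.castLE hn i)⟩
  rw [← nv_iso (Jm_iso j) v, ← run_norm f gs hwf (Jm j *ᵥ v)]
  congr 1
  exact (run_lin f v gs fun τ => basisVec (padInput n τ)).symm

theorem chan {N m n : ℕ} (gs : List (Gate N m)) (f : (Fin m → Bool) → Bool) (hn : n ≤ N)
    (hwf : ∀ g ∈ gs, g.WellFormed) (out : Fin n → Fin N) (hout : Function.Injective out)
    (w0 : Fin N → Bool) {A U : Matrix (Fin n → Bool) (Fin n → Bool) ℂ}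
    (hU : U ∈ Matrix.unitaryGroup (Fin n → Bool) ℂ)
    (hA : ∀ o τ, OracleSynthesis.amplitude gs f n (Function.extend out o w0) τ = A o τ)
    (hAU : OB (A - U) (1 / 8))
    (ρ : Matrix ((Fin n → Bool) × (Fin n → Bool)) ((Fin n → Bool) × (Fin n → Bool)) ℂ)
    (hρ : IsDensity ρ) :
    OracleSynthesis.TraceNormLE (OracleSynthesis.channelWithRef gs f n out ρ -
      (U ⊗ₖ (1 : Matrix (Fin n → Bool) (Fin n → Bool) ℂ)) * ρ *
        (U ⊗ₖ (1 : Matrix (Fin n → Bool) (Fin n → Bool) ℂ)).conjTranspose) (1 / 2) := by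
  classical
  let Wt := {w : Fin N // ¬ ∃ i, out i = w} → Bool
  let e : Wt × (Fin n → Bool) ≃ (Fin N → Bool) :=
    { toFun := fun x => Function.extend out x.2 fun w => if h : ∃ i, out i = w then false else x.1 ⟨w, h⟩
      invFun := fun σ => (fun w => σ w, fun i => σ (out i))
      left_inv := fun x => Prod.ext (funext fun w => by
        simp only [Function.extend_apply' _ _ _ w.2, dif_neg w.2]) (funext fun i => by
        simp only [hout.extend_apply])
      right_inv := fun σ => funext fun w => by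
        by_cases h : ∃ i, out i = w
        · obtain ⟨i, rfl⟩ := h; simp only [hout.extend_apply]
        · simp only [Function.extend_apply' _ _ _ h, dif_neg h] }
  have e1 : ∀ x i, e x (out i) = x.2 i := fun x i =>
    congrFun (congrArg Prod.snd (e.left_inv x)) i
  have e2 : ∀ x (w : {w : Fin N // ¬ ∃ i, out i = w}), e x w = x.1 w := fun x w =>
    congrFun (congrArg Prod.fst (e.left_inv x)) w
  let K : Wt → Matrix (Fin n → Bool) (Fin n → Bool) ℂ := fun w o τ =>
    OracleSynthesis.amplitude gs f n (e (w, o)) τ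
  have hK0 : K (fun w => w0 w) = A := by
    ext o τ
    rw [← hA]
    refine congrArg (fun σ => OracleSynthesis.amplitude gs f n σ τ) (funext fun w => ?_)
    by_cases h : ∃ i, out i = w
    · obtain ⟨i, rfl⟩ := h; rw [e1, hout.extend_apply]
    · rw [Function.extend_apply' _ _ _ h]; exact e2 _ ⟨w, h⟩
  have hch : OracleSynthesis.channelWithRef gs f n out ρ = ∑ w, (K w ⊗ₖ (1 : Matrix _ _ ℂ)) * ρ *
      (K w ⊗ₖ (1 : Matrix (Fin n → Bool) (Fin n → Bool) ℂ))ᴴ := by
    ext ⟨o, r⟩ ⟨o', r'⟩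
    simp only [OracleSynthesis.channelWithRef, of_apply, Matrix.sum_apply]
    rw [← e.sum_comp, Fintype.sum_prod_type]
    refine Finset.sum_congr rfl fun w _ => ?_
    rw [Finset.sum_eq_single o, ← e.sum_comp, Finset.sum_eq_single (w, o'), if_pos]
    · simp only [mul_apply, Fintype.sum_prod_type, conjTranspose_apply, kroneckerMap_apply,
        one_apply, mul_ite, mul_one, mul_zero, ite_mul, zero_mul, Finset.sum_ite_eq, mem_univ,
        if_true, apply_ite star, star_zero, Finset.sum_mul]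
      rw [Finset.sum_comm]
    · exact ⟨e1 _, e1 _, fun x hx => by
        rw [e2 _ ⟨x, fun ⟨i, hi⟩ => hx i hi⟩, e2 _ ⟨x, fun ⟨i, hi⟩ => hx i hi⟩]⟩
    · rintro ⟨w', o''⟩ _ hne
      refine if_neg fun ⟨_, h2, h3⟩ => hne (Prod.ext (funext fun x => ?_) (funext fun i => ?_))
      · rw [← e2 (w', o''), ← h3 x fun i hi => x.2 ⟨i, hi⟩, e2]
      · rw [← e1 (w', o''), h2]
    · simp
    · intro o'' _ hne
      exact Finset.sum_eq_zero fun σ' _ => if_neg fun ⟨h1, _⟩ => hne (funext fun i => by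
        rw [← h1 i, e1])
    · simp
  rw [hch, show (1 / 2 : ℝ) = 4 * (1 / 8) by norm_num]
  refine kraus_bound (fun w => K w ⊗ₖ (1 : Matrix _ _ ℂ)) (fun w => w0 w) ?_ ?_ (fun v => ?_) hρ
  · rw [conjTranspose_kronecker, ← mul_kronecker_mul, conjTranspose_one, Matrix.one_mul,
      show Uᴴ * U = 1 from (Unitary.mem_iff.1 hU).1, one_kronecker_one]
  · have := hAU.kron (R := Fin n → Bool) (by norm_num)
    rwa [← hK0, sub_eq_add_neg, add_kronecker, ← neg_one_smul ℂ U, smul_kronecker, neg_one_smul,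
      ← sub_eq_add_neg] at this
  · have h1 : OB (Matrix.of (OracleSynthesis.amplitude gs f n)) 1 := fun v => by
      rw [amp_norm gs f hn hwf, one_mul]
    have h2 := (h1.kron (R := Fin n → Bool) zero_le_one).submatrix zero_le_one
      ((Equiv.prodAssoc _ _ _).symm.trans (e.prodCongr (Equiv.refl _))).toEmbedding
      (Function.Embedding.refl _) v
    rw [← nv_col]
    rw [one_mul] at h2
    exact pow_le_pow_left₀ (nv_nonneg _) h2 2

end Crest.Agent.H8.US
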